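import Vale.Agent.P084.Strict.PointLip
import Vale.Agent.P084.Inf.Continue

/-!
P084 (Tingley's problem), library for strictly convex finite-dimensional norms: at a point where
the gradient of the norm or the derivative of the extension fails to be pointwise Lipschitz, the
chord identities force linearity.
-/

namespace Vale.Agent.P084

open Filter Topology Metric MeasureTheory

variable {X Y : Type*} [NormedAddCommGroup X] [NormedSpace ℝ X] [NormedAddCommGroup Y]
  [NormedSpace ℝ Y]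

section Strict

/-- Equality in the triangle inequality forces the same ray. -/
lemma StrictNorm.add_lt (hs : StrictNorm X) {x y : X} (hy : ‖y‖ = 1) (h : x ≠ ‖x‖ • y) :
    ‖x + y‖ < ‖x‖ + 1 := by
  refine lt_of_le_of_ne (hy ▸ norm_add_le x y) fun heq => h ?_
  have hx : x ≠ 0 := fun e => h (by simp [e])
  have hr : 0 < ‖x‖ := norm_pos_iff.2 hx
  set x' := ‖x‖⁻¹ • x with hx'
  have hx'1 : ‖x'‖ = 1 := norm_smul_inv_norm hx
  have hxe : x = ‖x‖ • x' := by rw [hx', smul_smul, mul_inv_cancel₀ hr.ne', one_smul]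
  have h2 : ‖x' + y‖ = 2 := by
    refine le_antisymm ((norm_add_le _ _).trans (by rw [hx'1, hy]; norm_num)) ?_
    rcases le_total 1 ‖x‖ with h1 | h1
    · have e : x + y = (x' + y) + (‖x‖ - 1) • x' := by
        conv_lhs => rw [hxe]
        module
      have := norm_add_le (x' + y) ((‖x‖ - 1) • x')
      rw [← e, heq, norm_smul, hx'1, Real.norm_of_nonneg (by linarith)] at this
      linarith
    · have e : x + y = ‖x‖ • (x' + y) + (1 - ‖x‖) • y := by
        conv_lhs => rw [hxe]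
        module
      have := norm_add_le (‖x‖ • (x' + y)) ((1 - ‖x‖) • y)
      rw [← e, heq, norm_smul, norm_smul, hy, norm_norm, Real.norm_of_nonneg (by linarith)] at this
      exact le_of_mul_le_mul_left (by linarith) hr
  rw [hxe, hs x' y hx'1 hy h2, norm_smul, norm_norm, hy, mul_one]

/-- A functional norming two vectors of equal norm makes them equal. -/
lemma StrictNorm.eq_of_sub (hs : StrictNorm X) {c w : X} {q : X →L[ℝ] ℝ} (hq : IsSub c q)
    (h1 : q w = ‖c‖) (h2 : ‖w‖ = ‖c‖) : w = c := by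
  rcases eq_or_ne c 0 with rfl | hc
  · simpa using h2
  have hr : 0 < ‖c‖ := norm_pos_iff.2 hc
  have hw : w ≠ 0 := by rw [← norm_pos_iff, h2]; exact hr
  refine smul_right_injective X (inv_ne_zero hr.ne')
    (hs (‖c‖⁻¹ • w) (‖c‖⁻¹ • c) (by rw [← h2]; exact norm_smul_inv_norm hw)
      (norm_smul_inv_norm hc) ?_)
  rw [← smul_add, norm_smul, norm_inv, norm_norm]
  have h3 : ‖w + c‖ = 2 * ‖c‖ := by
    refine le_antisymm ((norm_add_le _ _).trans (by rw [h2]; linarith)) ?_
    have := hq.le (w + c)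
    rw [map_add, h1, hq.1] at this
    linarith
  rw [h3]
  field_simp

/-- Gradients annihilating `v` on a dense set of an open set force `v = 0`. -/
lemma StrictNorm.eq_zero_of_grad (hs : StrictNorm X) {O : Set X} (hO : IsOpen O) {z₀ : X}
    (hz₀ : z₀ ∈ O) (hz : z₀ ≠ 0) {v : X}
    (h : ∀ z ∈ O, ∀ ε > 0, ∃ z' q, ‖z' - z‖ < ε ∧ IsSub z' q ∧ q v = 0) : v = 0 := by
  have hflat : ∀ z ∈ O, ∀ t : ℝ, ‖z‖ ≤ ‖z + t • v‖ := by
    intro z hzO t
    refine le_of_forall_pos_le_add fun ε hε => ?_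
    obtain ⟨z', q, h1, hq, hqv⟩ := h z hzO (ε / 2) (by positivity)
    have h2 := hq.le (z + t • v)
    rw [map_add, map_smul, hqv, smul_zero, add_zero] at h2
    have h3 : q z' - q z ≤ ‖z' - z‖ := by rw [← map_sub]; exact hq.le _
    have h4 := norm_sub_norm_le z z'
    rw [norm_sub_rev, ← hq.1] at h4
    linarith
  have hc1 : Tendsto (fun t : ℝ => z₀ + t • v) (𝓝[>] 0) (𝓝 z₀) :=
    ((show Continuous fun t : ℝ => z₀ + t • v by fun_prop).tendsto' 0 z₀ (by simp)).mono_left
      nhdsWithin_le_nhds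
  have hc2 : Tendsto (fun t : ℝ => z₀ - t • v) (𝓝[>] 0) (𝓝 z₀) :=
    ((show Continuous fun t : ℝ => z₀ - t • v by fun_prop).tendsto' 0 z₀ (by simp)).mono_left
      nhdsWithin_le_nhds
  obtain ⟨t, ⟨ht1, ht2⟩, ht3 : 0 < t⟩ := (((hc1.eventually (hO.mem_nhds hz₀)).and
    (hc2.eventually (hO.mem_nhds hz₀))).and self_mem_nhdsWithin).exists
  have e1 : ‖z₀ + t • v‖ = ‖z₀‖ := by
    refine le_antisymm ?_ (hflat z₀ hz₀ t)
    have := hflat _ ht1 (-t)
    simpa using this
  have e2 : ‖z₀ - t • v‖ = ‖z₀‖ := by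
    refine le_antisymm ?_ (by simpa [sub_eq_add_neg] using hflat z₀ hz₀ (-t))
    have := hflat _ ht2 t
    simpa using this
  have hr : 0 < ‖z₀‖ := norm_pos_iff.2 hz
  have h3 := hs (‖z₀‖⁻¹ • (z₀ + t • v)) (‖z₀‖⁻¹ • (z₀ - t • v))
    (by rw [norm_smul, norm_inv, norm_norm, e1, inv_mul_cancel₀ hr.ne'])
    (by rw [norm_smul, norm_inv, norm_norm, e2, inv_mul_cancel₀ hr.ne'])
    (by
      rw [← smul_add, show z₀ + t • v + (z₀ - t • v) = (2 : ℝ) • z₀ by module, norm_smul,
        norm_smul, norm_inv, norm_norm]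
      norm_num
      field_simp)
  have h4 : (2 * t) • v = 0 := by
    have := smul_right_injective X (inv_ne_zero hr.ne') h3
    rw [← sub_eq_zero] at this
    rw [← this]
    module
  exact (smul_eq_zero.1 h4).resolve_left (by positivity)

end Strict

namespace SphIso

variable (s : SphIso X Y)

lemma norm_le_three {u : X} {D : X →L[ℝ] Y} (hD : HasFDerivAt s.G D u) (k : X) :
    ‖k‖ ≤ 3 * ‖D k‖ := by
  have hl : HasDerivAt (fun t : ℝ => u + t • k) k 0 := by
    simpa using ((hasDerivAt_id (0 : ℝ)).smul_const k).const_add u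
  have h1 := (hD.comp_hasDerivAt_of_eq 0 hl (by simp)).tendsto_slope_zero.norm
  refine le_of_tendsto_of_tendsto hl.tendsto_slope_zero.norm (h1.const_mul 3)
    (Eventually.of_forall fun t => ?_)
  simp only [Function.comp_apply, zero_add, norm_smul]
  rw [mul_left_comm]
  refine mul_le_mul_of_nonneg_left ?_ (norm_nonneg _)
  have := s.symm.norm_G_sub_le (s.G (u + t • k)) (s.G (u + (0 : ℝ) • k))
  simp only [symm_G, s.H_G] at this
  exact this

/-- Points where the norm and the extension are differentiable. -/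
def Reg (u : X) : Prop :=
  u ≠ 0 ∧ DifferentiableAt ℝ s.G u ∧ DifferentiableAt ℝ (fun z : X => ‖z‖) u

/-- A limit of the derivatives at regular points tending to `y`. -/
def Lim (y : X) (A : X →L[ℝ] Y) (α : X →L[ℝ] ℝ) : Prop :=
  ∃ w : ℕ → X, (∀ n, s.Reg (w n)) ∧ Tendsto w atTop (𝓝 y) ∧
    Tendsto (fun n => s.dG (w n)) atTop (𝓝 A) ∧ Tendsto (fun n => dN (w n)) atTop (𝓝 α)

/-- Some pointwise Lipschitz condition on the derivatives fails. -/
def Bad : Prop :=
  ∃ (y : X) (A : X →L[ℝ] Y) (α : X →L[ℝ] ℝ) (z : ℕ → X), ‖y‖ = 1 ∧ s.Lim y A α ∧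
    (∀ n, s.Reg (z n)) ∧ Tendsto z atTop (𝓝 y) ∧
    ∀ n : ℕ, 0 < ‖s.dG (z n) - A‖ + ‖dN (z n) - α‖ ∧
      ‖z n - y‖ * ((n : ℝ) + 1) ≤ ‖s.dG (z n) - A‖ + ‖dN (z n) - α‖

/-- The chord test points for `y`. -/
def GoodX (y x : X) : Prop :=
  x ≠ 0 ∧ PLip (‖x‖ • y - x) ∧ PLip (‖x‖ • s.G y - s.G x)

/-- The chord identity with an error linear in the distance. -/
lemma chord_approx {y x : X} (hy : ‖y‖ = 1) (hx : s.GoodX y x) :
    ∃ K : ℝ, ∀ᶠ u in 𝓝 y, s.Reg u → ∀ k : X,
      |dN (‖x‖ • s.G y - s.G x) (‖x‖ • s.dG u k - dN u k • s.G x) -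
        dN (‖x‖ • y - x) (‖x‖ • k - dN u k • x)| ≤ K * ‖u - y‖ * ‖k‖ := by
  obtain ⟨-, ⟨-, M, hM, hMev⟩, ⟨-, M', hM', hMev'⟩⟩ := hx
  set p := dN (‖x‖ • y - x) with hp
  set p' := dN (‖x‖ • s.G y - s.G x) with hp'
  set ρ := ‖x‖ with hρ
  refine ⟨2 * ρ * M * (2 * ρ) + 4 * ρ * M' * (4 * ρ), ?_⟩
  set γ : X → X := fun u => ρ • u - ‖u‖ • x with hγ
  set γ' : X → Y := fun u => ρ • s.G u - ‖u‖ • s.G x with hγ'
  have hγy : γ y = ρ • y - x := by simp [hγ, hy]
  have hγy' : γ' y = ρ • s.G y - s.G x := by simp [hγ', hy]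
  have hcγ : Continuous γ := by fun_prop
  have hcγ' : Continuous γ' :=
    (s.continuous_G.const_smul ρ).sub (continuous_norm.smul continuous_const)
  have hev1 := eventually_eventually_nhds.2 ((hcγ.tendsto' y _ hγy).eventually hMev)
  have hev2 := (hcγ'.tendsto' y _ hγy').eventually hMev'
  filter_upwards [hev1, hev2] with u hu1 hu2 hreg
  obtain ⟨-, hG, hN⟩ := hreg
  have main : ∀ k, p' (ρ • s.dG u k - dN u k • s.G x) - p (ρ • k - dN u k • x) ≤
      (2 * ρ * M * (2 * ρ) + 4 * ρ * M' * (4 * ρ)) * ‖u - y‖ * ‖k‖ := by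
    intro k
    have hl : HasDerivAt (fun t : ℝ => u + t • k) k 0 := by
      simpa using ((hasDerivAt_id (0 : ℝ)).smul_const k).const_add u
    have hn := hN.hasFDerivAt.comp_hasDerivAt_of_eq 0 hl (by simp)
    have d1 : HasDerivAt (fun t : ℝ => γ (u + t • k)) (ρ • k - dN u k • x) 0 :=
      (hl.const_smul ρ).sub (hn.smul_const x)
    have d2 : HasDerivAt (fun t : ℝ => γ' (u + t • k)) (ρ • s.dG u k - dN u k • s.G x) 0 :=
      ((hG.hasFDerivAt.comp_hasDerivAt_of_eq 0 hl (by simp)).const_smul ρ).sub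
        (hn.smul_const (s.G x))
    obtain ⟨q', hq'⟩ := exists_isSub (γ' u)
    have hq'b : ‖q' - p'‖ ≤ M' * ‖γ' u - γ' y‖ := by rw [hγy']; exact hu2 q' hq'
    set v := ρ • k - dN u k • x with hv
    set v' := ρ • s.dG u k - dN u k • s.G x with hv'
    have t1 := (d1.tendsto_slope_zero_right)
    have t2 := (d2.tendsto_slope_zero_right)
    simp only [zero_add, zero_smul, add_zero] at t1 t2
    have hlim : q' v' ≤ p v + M * ‖γ u - γ y‖ * ‖v‖ := by
      have hpos : Tendsto (fun t : ℝ => M * ‖γ (u + t • k) - γ y‖) (𝓝[>] 0)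
          (𝓝 (M * ‖γ u - γ y‖)) :=
        ((show Continuous fun t : ℝ => M * ‖γ (u + t • k) - γ y‖ by fun_prop).tendsto' 0 _
          (by simp)).mono_left nhdsWithin_le_nhds
      refine le_of_tendsto_of_tendsto ((q'.continuous.tendsto _).comp t2)
        (((p.continuous.tendsto _).comp t1).add (hpos.mul t1.norm)) ?_
      have hev : ∀ᶠ t : ℝ in 𝓝[>] 0, ∀ q, IsSub (γ (u + t • k)) q →
          ‖q - p‖ ≤ M * ‖γ (u + t • k) - (ρ • y - x)‖ :=
        (((show Continuous fun t : ℝ => u + t • k by fun_prop).tendsto' 0 u (by simp)).eventually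
          hu1).filter_mono nhdsWithin_le_nhds
      filter_upwards [hev, eventually_mem_nhdsWithin] with t ht (ht0 : 0 < t)
      simp only [Function.comp_apply, map_smul, smul_eq_mul]
      obtain ⟨q, hq⟩ := exists_isSub (γ (u + t • k))
      have h1 := ht q hq
      rw [← hγy] at h1
      have h2 : ‖γ' (u + t • k)‖ = ‖γ (u + t • k)‖ := s.key2 _ x
      have h3 : ‖γ' u‖ = ‖γ u‖ := s.key2 u x
      have h4 := hq'.lower (γ' (u + t • k))
      have h5 := hq.lower (γ u)
      have h6 : q (γ u - γ (u + t • k)) = -q (γ (u + t • k) - γ u) := by rw [← map_neg, neg_sub]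
      have h7 := ((q - p).le_opNorm (γ (u + t • k) - γ u)).trans
        (mul_le_mul_of_nonneg_right h1 (norm_nonneg _))
      rw [sub_apply, Real.norm_eq_abs] at h7
      have h8 : q' (γ' (u + t • k) - γ' u) ≤ p (γ (u + t • k) - γ u) +
          M * ‖γ (u + t • k) - γ y‖ * ‖γ (u + t • k) - γ u‖ := by
        linarith [(abs_le.1 h7).2]
      have hti : 0 < t⁻¹ := inv_pos.2 ht0
      rw [norm_smul, Real.norm_of_nonneg hti.le]
      have := mul_le_mul_of_nonneg_left h8 hti.le
      linarith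
    have hd1 : ‖γ u - γ y‖ ≤ 2 * ρ * ‖u - y‖ := by
      rw [show γ u - γ y = ρ • (u - y) - (‖u‖ - ‖y‖) • x by simp only [hγ]; module]
      refine (norm_sub_le _ _).trans ?_
      rw [norm_smul, norm_smul, Real.norm_of_nonneg (norm_nonneg x), Real.norm_eq_abs]
      have := mul_le_mul_of_nonneg_right (abs_norm_sub_norm_le u y) (norm_nonneg x)
      rw [hρ] at *
      linarith
    have hd2 : ‖γ' u - γ' y‖ ≤ 4 * ρ * ‖u - y‖ := by
      rw [show γ' u - γ' y = ρ • (s.G u - s.G y) - (‖u‖ - ‖y‖) • s.G x by simp only [hγ']; module]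
      refine (norm_sub_le _ _).trans ?_
      rw [norm_smul, norm_smul, Real.norm_of_nonneg (norm_nonneg x), Real.norm_eq_abs, s.norm_G]
      have := mul_le_mul_of_nonneg_right (abs_norm_sub_norm_le u y) (norm_nonneg x)
      have := mul_le_mul_of_nonneg_left (s.norm_G_sub_le u y) (norm_nonneg x)
      rw [hρ] at *
      linarith
    have hdn : |dN u k| ≤ ‖k‖ := abs_dN_le u k
    have hv1 : ‖v‖ ≤ 2 * ρ * ‖k‖ := by
      rw [hv]
      refine (norm_sub_le _ _).trans ?_
      rw [norm_smul, norm_smul, Real.norm_of_nonneg (norm_nonneg x), Real.norm_eq_abs]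
      have := mul_le_mul_of_nonneg_right hdn (norm_nonneg x)
      rw [hρ] at *
      linarith
    have hv2 : ‖v'‖ ≤ 4 * ρ * ‖k‖ := by
      rw [hv']
      refine (norm_sub_le _ _).trans ?_
      rw [norm_smul, norm_smul, Real.norm_of_nonneg (norm_nonneg x), Real.norm_eq_abs, s.norm_G]
      have := mul_le_mul_of_nonneg_right hdn (norm_nonneg x)
      have h3 : ‖fderiv ℝ s.G u‖ ≤ 3 := hG.hasFDerivAt.le_of_lipschitz (C := 3)
        (LipschitzWith.of_dist_le_mul fun a b => by simpa [dist_eq_norm] using s.norm_G_sub_le a b)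
      have h4 : ‖s.dG u k‖ ≤ 3 * ‖k‖ :=
        ((fderiv ℝ s.G u).le_opNorm k).trans (mul_le_mul_of_nonneg_right h3 (norm_nonneg k))
      have := mul_le_mul_of_nonneg_left h4 (norm_nonneg x)
      rw [hρ] at *
      linarith
    have hρ0 : 0 ≤ ρ := norm_nonneg x
    have e1 : M * ‖γ u - γ y‖ * ‖v‖ ≤ M * (2 * ρ * ‖u - y‖) * (2 * ρ * ‖k‖) := by gcongr
    have e2 := ((q' - p').le_opNorm v').trans (mul_le_mul_of_nonneg_right hq'b (norm_nonneg _))
    rw [sub_apply, Real.norm_eq_abs] at e2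
    have e3 : M' * ‖γ' u - γ' y‖ * ‖v'‖ ≤ M' * (4 * ρ * ‖u - y‖) * (4 * ρ * ‖k‖) := by gcongr
    linarith [(abs_le.1 e2).1]
  intro k
  rw [abs_le]
  refine ⟨?_, main k⟩
  have := main (-k)
  have e1 : ρ • s.dG u (-k) - dN u (-k) • s.G x = -(ρ • s.dG u k - dN u k • s.G x) := by
    rw [map_neg, map_neg]; module
  have e2 : ρ • -k - dN u (-k) • x = -(ρ • k - dN u k • x) := by rw [map_neg]; module
  rw [norm_neg, e1, e2, map_neg, map_neg] at this
  linarith

namespace Lim

variable {s} {y : X} {A : X →L[ℝ] Y} {α : X →L[ℝ] ℝ} (h : s.Lim y A α)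
include h

lemma norm_le (k : X) : ‖k‖ ≤ 3 * ‖A k‖ := by
  obtain ⟨w, hw, -, hA, -⟩ := h
  exact ge_of_tendsto
    ((((ContinuousLinearMap.apply ℝ Y k).continuous.tendsto A).comp hA).norm.const_mul 3)
    (Eventually.of_forall fun n => s.norm_le_three (hw n).2.1.hasFDerivAt k)

lemma injective : Function.Injective A := by
  rw [injective_iff_map_eq_zero]
  intro k hk
  have := h.norm_le k
  rw [hk, norm_zero, mul_zero] at this
  exact norm_le_zero_iff.1 this

lemma self_eq : A y = s.G y := by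
  obtain ⟨w, hw, hwy, hA, -⟩ := h
  refine tendsto_nhds_unique ?_ ((s.continuous_G.tendsto y).comp hwy)
  refine (((isBoundedBilinearMap_apply (𝕜 := ℝ) (E := X) (F := Y)).continuous.tendsto
    (A, y)).comp (hA.prodMk_nhds hwy)).congr fun n => ?_
  exact s.dG_self_of_differentiable (hw n).2.1

lemma isSub : IsSub y α := by
  obtain ⟨w, hw, hwy, -, hα⟩ := h
  refine ⟨tendsto_nhds_unique ?_ ((continuous_norm.tendsto y).comp hwy), fun v => ?_⟩
  · refine (((isBoundedBilinearMap_apply (𝕜 := ℝ) (E := X) (F := ℝ)).continuous.tendsto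
      (α, y)).comp (hα.prodMk_nhds hwy)).congr fun n => ?_
    exact (hw n).2.2.fderiv_norm_self
  · exact le_of_tendsto (((ContinuousLinearMap.apply ℝ ℝ v).continuous.tendsto α).comp hα).abs
      (Eventually.of_forall fun n => abs_dN_le (w n) v)

/-- The chord identity at a limit. -/
lemma chord (hy : ‖y‖ = 1) {x : X} (hx : s.GoodX y x) (k : X) :
    dN (‖x‖ • s.G y - s.G x) (‖x‖ • A k - α k • s.G x) =
      dN (‖x‖ • y - x) (‖x‖ • k - α k • x) := by
  obtain ⟨K, hK⟩ := s.chord_approx hy hx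
  obtain ⟨w, hw, hwy, hA, hα⟩ := h
  have hαk := ((ContinuousLinearMap.apply ℝ ℝ k).continuous.tendsto α).comp hα
  have hAk := ((ContinuousLinearMap.apply ℝ Y k).continuous.tendsto A).comp hA
  have h1 := (((dN (‖x‖ • s.G y - s.G x)).continuous.tendsto _).comp
    ((hAk.const_smul ‖x‖).sub (hαk.smul_const (s.G x)))).sub
    (((dN (‖x‖ • y - x)).continuous.tendsto _).comp
    ((tendsto_const_nhds (x := ‖x‖ • k)).sub (hαk.smul_const x)))
  refine sub_eq_zero.1 (tendsto_nhds_unique h1 ?_)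
  refine squeeze_zero_norm' ?_ (show Tendsto (fun n => K * ‖w n - y‖ * ‖k‖) atTop (𝓝 0) by
    simpa using ((tendsto_iff_norm_sub_tendsto_zero.1 hwy).const_mul K).mul_const ‖k‖)
  filter_upwards [hwy.eventually hK] with n hn
  exact hn (hw n) k

/-- The derivative at a limit, read through the chord functionals. -/
lemma chord_A (hy : ‖y‖ = 1) {x : X} (hx : s.GoodX y x) (k : X) :
    dN (‖x‖ • s.G y - s.G x) (A k) = dN (‖x‖ • y - x) k +
      (dN (‖x‖ • s.G y - s.G x) (s.G y) - dN (‖x‖ • y - x) y) * α k := by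
  have hr : 0 < ‖x‖ := norm_pos_iff.2 hx.1
  have h1 := h.chord hy hx k
  have h2 := hx.2.1.1.fderiv_norm_self
  have h3 := hx.2.2.1.fderiv_norm_self
  have h4 := s.key2 y x
  rw [hy, one_smul, one_smul] at h4
  simp only [map_sub, map_smul, smul_eq_mul] at h1 h2 h3
  refine mul_left_cancel₀ hr.ne' ?_
  linear_combination h1 - α k * (h3 - h2) - α k * h4

end Lim

variable [FiniteDimensional ℝ X] [FiniteDimensional ℝ Y] [MeasurableSpace X] [BorelSpace X]
  [MeasurableSpace Y] [BorelSpace Y]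

omit [FiniteDimensional ℝ X] [FiniteDimensional ℝ Y] [MeasurableSpace X] [BorelSpace X]
  [MeasurableSpace Y] [BorelSpace Y] in
lemma lipschitz_G : LipschitzWith 3 s.G :=
  LipschitzWith.of_dist_le_mul fun a b => by simpa [dist_eq_norm] using s.norm_G_sub_le a b

include s in
lemma finrank_eq : Module.finrank ℝ Y = Module.finrank ℝ X := by
  refine le_antisymm ?_ ?_
  · obtain ⟨u, hu⟩ := (s.symm.lipschitz_G.ae_differentiableAt (μ := vol Y)).exists
    exact LinearMap.finrank_le_finrank_of_injective (f := (fderiv ℝ s.H u : Y →ₗ[ℝ] X))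
      ((injective_iff_map_eq_zero _).2 fun k hk => by
        have := s.symm.norm_le_three hu.hasFDerivAt k
        rw [show fderiv ℝ s.symm.G u k = 0 from hk, norm_zero, mul_zero] at this
        exact norm_le_zero_iff.1 this)
  · obtain ⟨u, hu⟩ := (s.lipschitz_G.ae_differentiableAt (μ := vol X)).exists
    exact LinearMap.finrank_le_finrank_of_injective (f := (fderiv ℝ s.G u : X →ₗ[ℝ] Y))
      ((injective_iff_map_eq_zero _).2 fun k hk => by
        have := s.norm_le_three hu.hasFDerivAt k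
        rw [show fderiv ℝ s.G u k = 0 from hk, norm_zero, mul_zero] at this
        exact norm_le_zero_iff.1 this)

lemma ae_reg [Nontrivial X] : ∀ᵐ u ∂(vol X), s.Reg u := by
  filter_upwards [(s.lipschitz_G.ae_differentiableAt (μ := vol X)),
    ae_differentiableAt_norm (E := X) (μ := vol X),
    show ∀ᵐ u ∂(vol X), u ≠ (0 : X) from ae_iff.2 (by simp [measure_singleton])] with u h1 h2 h3
  exact ⟨h3, h1, h2⟩

end SphIso

/-- A map expanding distances on a set has null preimages of null sets there. -/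
lemma null_preimage [FiniteDimensional ℝ X] [MeasurableSpace X] [BorelSpace X] {f : X → X}
    {B N : Set X} {C : ℝ} (hf : ∀ a ∈ B, ∀ b ∈ B, ‖a - b‖ ≤ C * ‖f a - f b‖)
    (hN : vol X N = 0) : vol X (f ⁻¹' N ∩ B) = 0 := by
  classical
  rcases B.eq_empty_or_nonempty with rfl | ⟨b₀, hb₀⟩
  · simp
  have : Nonempty X := ⟨b₀⟩
  have hinj : Set.InjOn f B := fun a ha b hb e => by
    have := hf a ha b hb
    rw [e, sub_self, norm_zero, mul_zero] at this
    exact sub_eq_zero.1 (norm_le_zero_iff.1 this)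
  set g := Function.invFunOn f B with hg
  have hgl : LipschitzOnWith C.toNNReal g (N ∩ f '' B) :=
    LipschitzOnWith.of_dist_le' fun p hp q hq => by
      obtain ⟨-, a, ha, rfl⟩ := hp
      obtain ⟨-, b, hb, rfl⟩ := hq
      rw [hg, hinj.leftInvOn_invFunOn ha, hinj.leftInvOn_invFunOn hb, dist_eq_norm, dist_eq_norm]
      exact hf a ha b hb
  refine measure_mono_null (fun a ha => ?_)
    (vol_image_eq_zero rfl hgl (measure_mono_null Set.inter_subset_left hN))
  exact ⟨f a, ⟨ha.1, a, ha.2, rfl⟩, hinj.leftInvOn_invFunOn ha.2⟩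

/-- The chord map has null preimages of null sets. -/
lemma chord_null_preimage [FiniteDimensional ℝ X] [MeasurableSpace X] [BorelSpace X]
    (hs : StrictNorm X) {y : X} (hy : ‖y‖ = 1) (hdim : 2 ≤ Module.finrank ℝ X) {N : Set X}
    (hN : vol X N = 0) : vol X ((fun x : X => ‖x‖ • y - x) ⁻¹' N) = 0 := by
  have hspan : vol X (Submodule.span ℝ {y} : Set X) = 0 := by
    refine Measure.addHaar_submodule _ _ fun e => ?_
    have h1 := finrank_span_le_card (R := ℝ) ({y} : Set X)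
    rw [e, finrank_top] at h1
    simp at h1
    omega
  refine measure_mono_null (t := (Submodule.span ℝ {y} : Set X) ∪
    ((fun x : X => ‖x‖ • y - x) ⁻¹' N ∩ {x | ‖x + y‖ < ‖x‖ + 1})) (fun x hx => ?_)
    (measure_union_null hspan ?_)
  · by_cases h : x = ‖x‖ • y
    · exact Or.inl (by rw [h]; exact Submodule.smul_mem _ _ (Submodule.mem_span_singleton_self y))
    · exact Or.inr ⟨hx, hs.add_lt hy h⟩
  refine measure_null_of_locally_null _ fun x₀ hx₀ => ?_
  set θ := (1 + (‖x₀ + y‖ - ‖x₀‖)) / 2 with hθ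
  have hθ1 : θ < 1 := by
    have := hx₀.2
    simp only [Set.mem_ofPred_eq] at this
    rw [hθ]; linarith
  set B := {x : X | ‖x + y‖ - ‖x‖ < θ ∧ ‖x - x₀‖ < 1 / 2} with hB
  have hBo : IsOpen B :=
    (isOpen_lt (show Continuous fun x : X => ‖x + y‖ - ‖x‖ by fun_prop) continuous_const).inter
      (isOpen_lt (show Continuous fun x : X => ‖x - x₀‖ by fun_prop) continuous_const)
  have hx₀B : x₀ ∈ B := by
    refine ⟨?_, by simp⟩
    have := hx₀.2
    simp only [Set.mem_ofPred_eq] at this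
    rw [hθ]; linarith
  refine ⟨_, inter_mem_nhdsWithin _ (hBo.mem_nhds hx₀B), ?_⟩
  refine measure_mono_null (t := (fun x : X => ‖x‖ • y - x) ⁻¹' N ∩ B)
    (fun x hx => ⟨hx.1.1, hx.2⟩) (null_preimage (C := 2 / (1 - θ) + 1) ?_ hN)
  have key : ∀ a ∈ B, ∀ b ∈ B, ‖a‖ ≤ ‖b‖ →
      ‖b - a‖ ≤ (2 / (1 - θ) + 1) * ‖(‖b‖ • y - b) - (‖a‖ • y - a)‖ := by
    intro a ha b hb hab
    set s := ‖b‖ - ‖a‖ with hs'
    set Δ := (‖b‖ • y - b) - (‖a‖ • y - a) with hΔ
    have hs0 : 0 ≤ s := by rw [hs']; linarith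
    have hs1 : s ≤ 1 := by
      have := norm_sub_norm_le b a
      have := norm_sub_le_norm_sub_add_norm_sub b x₀ a
      rw [norm_sub_rev x₀ a] at this
      rw [hs']
      linarith [ha.2, hb.2]
    have e : b = (a + s • y) - Δ := by rw [hΔ, hs']; module
    have h1 : ‖b‖ ≤ ‖a + s • y‖ + ‖Δ‖ := by
      conv_lhs => rw [e]
      exact norm_sub_le _ _
    have h2 : ‖a + s • y‖ ≤ (1 - s) * ‖a‖ + s * ‖a + y‖ := by
      rw [show a + s • y = (1 - s) • a + s • (a + y) by module]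
      refine (norm_add_le _ _).trans (le_of_eq ?_)
      rw [norm_smul, norm_smul, Real.norm_of_nonneg (by linarith), Real.norm_of_nonneg hs0]
    have h3 := mul_le_mul_of_nonneg_left ha.1.le hs0
    have h4 : s ≤ ‖Δ‖ / (1 - θ) := by
      rw [le_div_iff₀ (by linarith)]
      rw [hs'] at *
      linarith
    have h5 : ‖b - a‖ ≤ s + ‖Δ‖ := by
      rw [show b - a = s • y - Δ by rw [hΔ, hs']; module]
      refine (norm_sub_le _ _).trans ?_
      rw [norm_smul, hy, mul_one, Real.norm_of_nonneg hs0]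
    refine h5.trans ?_
    have h6 : ‖Δ‖ / (1 - θ) ≤ 2 / (1 - θ) * ‖Δ‖ := by
      rw [div_mul_eq_mul_div]
      exact div_le_div_of_nonneg_right (by linarith [norm_nonneg Δ]) (by linarith)
    linarith
  intro a ha b hb
  rcases le_total ‖a‖ ‖b‖ with h | h
  · rw [norm_sub_rev, norm_sub_rev (‖a‖ • y - a)]; exact key a ha b hb h
  · exact key b hb a ha h

namespace SphIso

variable (s : SphIso X Y) [FiniteDimensional ℝ X] [FiniteDimensional ℝ Y] [MeasurableSpace X]
  [BorelSpace X] [MeasurableSpace Y] [BorelSpace Y]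

omit [FiniteDimensional ℝ X] [FiniteDimensional ℝ Y] [MeasurableSpace X]
  [BorelSpace X] [MeasurableSpace Y] [BorelSpace Y] in
include s in
lemma strictY (hs : StrictNorm X) : StrictNorm Y := s.strictNorm hs

lemma dense_goodX (hs : StrictNorm X) (hdim : 2 ≤ Module.finrank ℝ X) {y : X} (hy : ‖y‖ = 1) :
    Dense {x : X | s.GoodX y x} := by
  have : Nontrivial X := ⟨y, 0, fun h => by simp [h] at hy⟩
  have : Nontrivial Y := ⟨s.G y, 0, fun h => by
    have := s.norm_G y
    rw [h, hy, norm_zero] at this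
    linarith⟩
  refine Measure.dense_of_ae (μ := vol X) ?_
  have h1 := chord_null_preimage hs hy hdim (ae_iff.1 (ae_plip (X := X)))
  have h2 := chord_null_preimage (X := Y) (s.strictY hs) (y := s.G y)
    (by rw [s.norm_G, hy]) (by rw [s.finrank_eq]; exact hdim) (ae_iff.1 (ae_plip (X := Y)))
  have h3 := vol_image_eq_zero (Y := X) (by rw [s.finrank_eq])
    s.symm.lipschitz_G.lipschitzOnWith h2
  filter_upwards [show ∀ᵐ x ∂(vol X), PLip (‖x‖ • y - x) from ae_iff.2 h1,
    show ∀ᵐ x ∂(vol X), PLip (‖x‖ • s.G y - s.G x) from ae_iff.2 (measure_mono_null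
      (t := s.symm.G '' ((fun z : Y => ‖z‖ • s.G y - z) ⁻¹' {z | ¬PLip z}))
      (fun x hx => ⟨s.G x, by simpa [s.norm_G] using hx, s.H_G x⟩) h3),
    show ∀ᵐ u ∂(vol X), u ≠ (0 : X) from ae_iff.2 (by simp [measure_singleton])] with x a b c
  exact ⟨c, a, b⟩

omit [FiniteDimensional ℝ X] [FiniteDimensional ℝ Y] [MeasurableSpace X]
  [BorelSpace X] [MeasurableSpace Y] [BorelSpace Y] in
/-- Chords from `s.G y` reach the cone of directions entering the ball. -/
lemma chord_surj (y : X) {z : Y} {t : ℝ} (ht : 0 < t) (hz : ‖t • s.G y - z‖ < t) :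
    ∃ x : X, ‖x‖ • s.G y - s.G x = z := by
  have hc : ContinuousOn (fun r : ℝ => ‖r • s.G y - z‖ - r) (Set.Icc 0 t) :=
    (by fun_prop : Continuous fun r : ℝ => ‖r • s.G y - z‖ - r).continuousOn
  obtain ⟨r, hr, hr0⟩ := intermediate_value_Icc' ht.le hc
    (show (0 : ℝ) ∈ Set.Icc (‖t • s.G y - z‖ - t) (‖(0 : ℝ) • s.G y - z‖ - 0) from
      ⟨by linarith, by simp⟩)
  refine ⟨s.H (r • s.G y - z), ?_⟩
  have hn : ‖s.H (r • s.G y - z)‖ = r := by rw [s.norm_H]; linarith
  rw [hn, s.G_H, sub_sub_cancel]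

omit [FiniteDimensional ℝ X] [FiniteDimensional ℝ Y] [MeasurableSpace X]
  [BorelSpace X] [MeasurableSpace Y] [BorelSpace Y] in
/-- The same in the source. -/
lemma chord_surjX (y : X) {z : X} {t : ℝ} (ht : 0 < t) (hz : ‖t • y - z‖ < t) :
    ∃ x : X, ‖x‖ • y - x = z := by
  have hc : ContinuousOn (fun r : ℝ => ‖r • y - z‖ - r) (Set.Icc 0 t) :=
    (by fun_prop : Continuous fun r : ℝ => ‖r • y - z‖ - r).continuousOn
  obtain ⟨r, hr, hr0⟩ := intermediate_value_Icc' ht.le hc
    (show (0 : ℝ) ∈ Set.Icc (‖t • y - z‖ - t) (‖(0 : ℝ) • y - z‖ - 0) from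
      ⟨by linarith, by simp⟩)
  exact ⟨r • y - z, by rw [show ‖r • y - z‖ = r by linarith, sub_sub_cancel]⟩

end SphIso

end Vale.Agent.P084
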