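import Vale.Agent.P084.Strict.Bad

/-!
P084 (Tingley's problem), library for strictly convex finite-dimensional norms: linearity of the
extension when a pointwise Lipschitz condition fails.
-/

namespace Vale.Agent.P084

open Filter Topology Metric MeasureTheory

namespace SphIso

variable {X Y : Type*} [NormedAddCommGroup X] [NormedSpace ℝ X] [NormedAddCommGroup Y]
  [NormedSpace ℝ Y] [FiniteDimensional ℝ X] [FiniteDimensional ℝ Y] [MeasurableSpace X]
  [BorelSpace X] [MeasurableSpace Y] [BorelSpace Y]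
variable (s : SphIso X Y)

omit [MeasurableSpace X] [BorelSpace X] [MeasurableSpace Y] [BorelSpace Y] in
/-- The blown-up differences satisfy a homogeneous chord identity. -/
lemma bad_data (hb : s.Bad) : ∃ (y : X) (A : X →L[ℝ] Y) (α : X →L[ℝ] ℝ) (K : X →L[ℝ] Y)
    (ν : X →L[ℝ] ℝ), ‖y‖ = 1 ∧ s.Lim y A α ∧ ‖K‖ + ‖ν‖ = 1 ∧ ∀ x, s.GoodX y x → ∀ k,
      dN (‖x‖ • s.G y - s.G x) (K k) =
        (dN (‖x‖ • s.G y - s.G x) (s.G y) - dN (‖x‖ • y - x) y) * ν k := by
  obtain ⟨y, A, α, z, hy, hlim, hz, hzy, hε⟩ := hb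
  set e : ℕ → ℝ := fun n => ‖s.dG (z n) - A‖ + ‖dN (z n) - α‖ with he
  set P : ℕ → (X →L[ℝ] Y) × (X →L[ℝ] ℝ) := fun n =>
    ((e n)⁻¹ • (s.dG (z n) - A), (e n)⁻¹ • (dN (z n) - α)) with hP
  have he0 : ∀ n, 0 < e n := fun n => (hε n).1
  have hP1 : ∀ n, ‖(P n).1‖ + ‖(P n).2‖ = 1 := fun n => by
    simp only [hP]
    rw [norm_smul, norm_smul, norm_inv, Real.norm_of_nonneg (he0 n).le, ← mul_add]
    exact inv_mul_cancel₀ (he0 n).ne'
  have hPb : ∀ n, P n ∈ closedBall (0 : (X →L[ℝ] Y) × (X →L[ℝ] ℝ)) 1 := fun n => by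
    rw [mem_closedBall_zero_iff, Prod.norm_def]
    have h1 : 0 ≤ ‖(P n).1‖ := ContinuousLinearMap.opNorm_nonneg _
    have h2 : 0 ≤ ‖(P n).2‖ := ContinuousLinearMap.opNorm_nonneg _
    have := hP1 n
    exact max_le (by linarith) (by linarith)
  have : ProperSpace ((X →L[ℝ] Y) × (X →L[ℝ] ℝ)) := FiniteDimensional.proper_real _
  obtain ⟨⟨K, ν⟩, -, φ, hφ, hlimP⟩ := (isCompact_closedBall _ _).tendsto_subseq hPb
  have hK := (continuous_fst.tendsto (K, ν)).comp hlimP
  have hν := (continuous_snd.tendsto (K, ν)).comp hlimP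
  refine ⟨y, A, α, K, ν, hy, hlim, tendsto_nhds_unique (hK.norm.add hν.norm)
    (tendsto_const_nhds.congr fun n => (hP1 (φ n)).symm), fun x hx k => ?_⟩
  obtain ⟨C, hC⟩ := s.chord_approx hy hx
  set p := dN (‖x‖ • y - x) with hp
  set p' := dN (‖x‖ • s.G y - s.G x) with hp'
  set δ := p' (s.G y) - p y with hδ
  have hr : 0 < ‖x‖ := norm_pos_iff.2 hx.1
  have hδe : ‖x‖ * δ = p' (s.G x) - p x := by
    have h2 := hx.2.1.1.fderiv_norm_self
    have h3 := hx.2.2.1.fderiv_norm_self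
    have h4 := s.key2 y x
    rw [hy, one_smul, one_smul] at h4
    simp only [map_sub, map_smul, smul_eq_mul] at h2 h3
    rw [hδ, hp, hp']
    linarith
  refine sub_eq_zero.1 (tendsto_nhds_unique
    (((p'.continuous.tendsto _).comp
      (((ContinuousLinearMap.apply ℝ Y k).continuous.tendsto K).comp hK)).sub
    ((((ContinuousLinearMap.apply ℝ ℝ k).continuous.tendsto ν).comp hν).const_mul δ)) ?_)
  have hn : Tendsto (fun n : ℕ => |C| / ‖x‖ * ‖k‖ * (1 / ((φ n : ℝ) + 1))) atTop (𝓝 0) := by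
    simpa using ((tendsto_one_div_add_atTop_nhds_zero_nat (𝕜 := ℝ)).comp
      hφ.tendsto_atTop).const_mul (|C| / ‖x‖ * ‖k‖)
  refine squeeze_zero_norm' ?_ hn
  filter_upwards [(hzy.comp hφ.tendsto_atTop).eventually hC] with n hn'
  have h1 := hn' (hz (φ n)) k
  have h2 := hlim.chord hy hx k
  simp only [Function.comp_apply, hP, ContinuousLinearMap.apply_apply, map_smul, map_sub,
    smul_eq_mul] at h1 h2 ⊢
  rw [Real.norm_eq_abs]
  set u := z (φ n) with hu
  have h3 : p' (s.dG u k) * ‖x‖ - p' (A k) * ‖x‖ - (dN u k - α k) * (‖x‖ * δ) =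
      (‖x‖ * p' (s.dG u k) - dN u k * p' (s.G x)) - (‖x‖ * p k - dN u k * p x) := by
    rw [hδe]
    linear_combination (norm := (simp only [hp, hp']; ring)) -h2
  have h4 : |(e (φ n))⁻¹ * (p' (s.dG u k) - p' (A k)) - δ * ((e (φ n))⁻¹ * (dN u k - α k))| =
      (e (φ n))⁻¹ / ‖x‖ *
        |p' (s.dG u k) * ‖x‖ - p' (A k) * ‖x‖ - (dN u k - α k) * (‖x‖ * δ)| := by
    rw [← abs_of_pos (div_pos (inv_pos.2 (he0 (φ n))) hr), ← abs_mul]
    congr 1
    field_simp
  rw [h4, h3]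
  refine (mul_le_mul_of_nonneg_left h1 (div_nonneg (inv_nonneg.2 (he0 _).le) hr.le)).trans ?_
  have h5 := (hε (φ n)).2
  have h6 : C * ‖u - y‖ ≤ |C| * ‖u - y‖ := mul_le_mul_of_nonneg_right (le_abs_self C) (norm_nonneg _)
  have h7 : ‖u - y‖ ≤ e (φ n) * (1 / ((φ n : ℝ) + 1)) := by
    rw [mul_one_div, le_div_iff₀ (by positivity)]
    exact h5
  calc (e (φ n))⁻¹ / ‖x‖ * (C * ‖u - y‖ * ‖k‖)
      ≤ (e (φ n))⁻¹ / ‖x‖ * (|C| * (e (φ n) * (1 / ((φ n : ℝ) + 1))) * ‖k‖) := by
        refine mul_le_mul_of_nonneg_left (mul_le_mul_of_nonneg_right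
          (h6.trans (mul_le_mul_of_nonneg_left h7 (abs_nonneg C))) (norm_nonneg k))
          (div_nonneg (inv_nonneg.2 (he0 _).le) hr.le)
    _ = _ := by
        have := (he0 (φ n)).ne'
        field_simp

/-- A linear map pulls the chord functionals back to each other. -/
lemma bad_map (hs : StrictNorm X) (hdim : 2 ≤ Module.finrank ℝ X) (hb : s.Bad) :
    ∃ (y : X) (A : X ≃L[ℝ] Y) (k : X) (T : Y →L[ℝ] X), ‖y‖ = 1 ∧ A y = s.G y ∧
      T (s.G y) = y + k ∧ (k = 0 → T = (A.symm : Y →L[ℝ] X)) ∧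
      ∀ x, s.GoodX y x → (∀ v, dN (‖x‖ • y - x) (T v) = dN (‖x‖ • s.G y - s.G x) v) ∧
        dN (‖x‖ • s.G y - s.G x) (s.G y) - dN (‖x‖ • y - x) y = dN (‖x‖ • y - x) k := by
  obtain ⟨y, A₀, α, K, ν, hy, hlim, hKν, hK⟩ := s.bad_data hb
  let A : X ≃L[ℝ] Y :=
    (LinearMap.linearEquivOfInjective (A₀ : X →ₗ[ℝ] Y) hlim.injective
      s.finrank_eq.symm).toContinuousLinearEquiv
  have hA : ∀ v, A v = A₀ v := fun v => rfl
  have hAy : A y = s.G y := hlim.self_eq
  have hαy : α y = 1 := hlim.isSub.1.trans hy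
  have hd := s.dense_goodX hs hdim hy
  have hy0 : y ≠ 0 := fun h => by simp [h] at hy
  have hν : ν ≠ 0 := by
    intro h0
    have hK0 : K = 0 := by
      refine ContinuousLinearMap.ext fun h => ?_
      refine (s.strictY hs).eq_zero_of_grad (O := ball ((2 : ℝ) • s.G y) 1) isOpen_ball
        (mem_ball_self one_pos) (smul_ne_zero two_ne_zero fun e => ?_) fun z hz ε hε => ?_
      · have := s.norm_G y
        rw [e, norm_zero, hy] at this
        exact zero_ne_one this
      · rw [mem_ball_iff_norm] at hz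
        obtain ⟨x₀, hx₀⟩ := s.chord_surj y two_pos (show ‖(2 : ℝ) • s.G y - z‖ < 2 by
          rw [norm_sub_rev]; linarith)
        have hc : Continuous fun x => ‖x‖ • s.G y - s.G x :=
          (continuous_norm.smul continuous_const).sub s.continuous_G
        obtain ⟨x, hx, hxg⟩ := hd.exists_mem_open
          ((isOpen_ball (x := z) (ε := ε)).preimage hc) ⟨x₀, by simp [hx₀, hε]⟩
        refine ⟨_, dN (‖x‖ • s.G y - s.G x), mem_ball_iff_norm.1 hxg, isSub_dN hx.2.2.1, ?_⟩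
        rw [hK x hx h, h0, zero_apply, mul_zero]
    rw [h0, hK0] at hKν
    simp at hKν
  obtain ⟨h₀, hh₀⟩ : ∃ h, ν h ≠ 0 := by
    by_contra hc
    push Not at hc
    exact hν (ContinuousLinearMap.ext fun v => by simpa using hc v)
  set h := (ν h₀)⁻¹ • h₀ with hh
  have hνh : ν h = 1 := by rw [hh, map_smul, smul_eq_mul, inv_mul_cancel₀ hh₀]
  set j := A.symm (K h) with hj
  have hδ : ∀ x, s.GoodX y x → dN (‖x‖ • s.G y - s.G x) (s.G y) - dN (‖x‖ • y - x) y =
      dN (‖x‖ • y - x) j + (dN (‖x‖ • s.G y - s.G x) (s.G y) - dN (‖x‖ • y - x) y) * α j := by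
    intro x hx
    have h1 := hK x hx h
    rw [hνh, mul_one] at h1
    have h2 := hlim.chord_A hy hx j
    rw [← hA, hj, A.apply_symm_apply, h1] at h2
    exact h2
  have hj1 : α j ≠ 1 := by
    intro e
    have hj0 : j = 0 := by
      refine hs.eq_zero_of_grad (O := ball ((2 : ℝ) • y) 1) isOpen_ball (mem_ball_self one_pos)
        (smul_ne_zero two_ne_zero hy0) fun z hz ε hε => ?_
      rw [mem_ball_iff_norm] at hz
      obtain ⟨x₀, hx₀⟩ := chord_surjX y two_pos (show ‖(2 : ℝ) • y - z‖ < 2 by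
        rw [norm_sub_rev]; linarith)
      have hc : Continuous fun x : X => ‖x‖ • y - x := by fun_prop
      obtain ⟨x, hx, hxg⟩ := hd.exists_mem_open
        ((isOpen_ball (x := z) (ε := ε)).preimage hc) ⟨x₀, by simp [hx₀, hε]⟩
      refine ⟨_, dN (‖x‖ • y - x), mem_ball_iff_norm.1 hxg, isSub_dN hx.2.1.1, ?_⟩
      have := hδ x hx
      rw [e, mul_one] at this
      linarith
    rw [hj0, map_zero] at e
    exact zero_ne_one e
  set k := (1 - α j)⁻¹ • j with hk
  have hδk : ∀ x, s.GoodX y x →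
      dN (‖x‖ • s.G y - s.G x) (s.G y) - dN (‖x‖ • y - x) y = dN (‖x‖ • y - x) k := by
    intro x hx
    have := hδ x hx
    rw [hk, map_smul, smul_eq_mul, eq_inv_mul_iff_mul_eq₀ (sub_ne_zero.2 (Ne.symm hj1))]
    linarith
  refine ⟨y, A, k, (A.symm : Y →L[ℝ] X) + (α.comp (A.symm : Y →L[ℝ] X)).smulRight k, hy, hAy, ?_,
    fun h0 => by simp [h0], fun x hx => ⟨fun v => ?_, hδk x hx⟩⟩
  · simp [← hAy, hαy]
  · have h2 := hlim.chord_A hy hx (A.symm v)
    rw [← hA, A.apply_symm_apply, hδk x hx] at h2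
    simp only [add_apply, ContinuousLinearMap.smulRight_apply, ContinuousLinearMap.comp_apply,
      ContinuousLinearEquiv.coe_coe, map_add, map_smul, smul_eq_mul]
    linarith

/-- The cone of directions entering the ball. -/
def chordCone (y : X) : Set X := {z | ∃ t, 0 < t ∧ ‖t • y - z‖ < t}

omit [FiniteDimensional ℝ X] [MeasurableSpace X] [BorelSpace X] in
lemma isOpen_chordCone (y : X) : IsOpen (chordCone y) := by
  have : chordCone y = ⋃ t ∈ Set.Ioi (0 : ℝ), {z : X | ‖t • y - z‖ < t} := by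
    ext z; simp [chordCone]
  rw [this]
  exact isOpen_biUnion fun t _ => isOpen_lt (by fun_prop) continuous_const

omit [FiniteDimensional ℝ X] [FiniteDimensional ℝ Y] [MeasurableSpace X] [BorelSpace X]
  [MeasurableSpace Y] [BorelSpace Y] in
/-- On the cone the pullback map identifies the chords. -/
lemma bad_chord (hs : StrictNorm X) {y : X} (hy : ‖y‖ = 1) (hd : Dense {x | s.GoodX y x})
    {T : Y →L[ℝ] X} (hT : ∀ x, s.GoodX y x →
      ∀ v, dN (‖x‖ • y - x) (T v) = dN (‖x‖ • s.G y - s.G x) v)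
    {x : X} (hx : s.GoodX y x) (hK : T (‖x‖ • s.G y - s.G x) ∈ chordCone y) :
    T (‖x‖ • s.G y - s.G x) = ‖x‖ • y - x := by
  set a := s.G y with ha
  have hna : ‖a‖ = 1 := by rw [ha, s.norm_G, hy]
  set c : X → X := fun x => ‖x‖ • y - x with hc
  set c' : X → Y := fun x => ‖x‖ • a - s.G x with hc'
  have hcc : Continuous c := by fun_prop
  have hcc' : Continuous c' := (continuous_norm.smul continuous_const).sub s.continuous_G
  have hdom : ∀ z : Y, T z ∈ chordCone y → ‖T z‖ ≤ ‖z‖ := by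
    rintro z ⟨t, ht, htz⟩
    refine le_of_forall_pos_le_add fun ε hε => ?_
    obtain ⟨x₀, hx₀⟩ := chord_surjX y ht htz
    obtain ⟨x, hx, hxg⟩ := hd.exists_mem_open
      ((isOpen_ball (x := T z) (ε := ε / 2)).preimage hcc) ⟨x₀, by simp [hc, hx₀, hε]⟩
    have h1 : ‖T z - c x‖ < ε / 2 := by rw [← mem_ball_iff_norm']; exact hxg
    have h2 := (isSub_dN hx.2.1.1).1
    have h3 := abs_le.1 (abs_dN_le (c x) (T z - c x))
    rw [map_sub, h2, hT x hx z] at h3
    have h4 := (le_abs_self _).trans (abs_dN_le (c' x) z)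
    have h5 := norm_sub_norm_le (T z) (c x)
    linarith
  have hn : ‖c' x‖ = ‖c x‖ := by
    have h := s.key2 y x
    rwa [hy, one_smul, one_smul] at h
  have h1 : dN (c x) (T (c' x)) = ‖c x‖ := by
    rw [hT x hx, ← hn]
    exact hx.2.2.1.fderiv_norm_self
  refine hs.eq_of_sub (isSub_dN hx.2.1.1) h1 (le_antisymm ((hdom _ hK).trans hn.le) ?_)
  exact h1.symm.le.trans ((le_abs_self _).trans (abs_dN_le _ _))

omit s [FiniteDimensional ℝ X] [FiniteDimensional ℝ Y] [MeasurableSpace X] [BorelSpace X]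
  [MeasurableSpace Y] [BorelSpace Y] in
/-- The arithmetic of the second-order estimate. -/
lemma bad_scalar {σ ε w η η₁ P P' py pa pv pc n₀ : ℝ} (hσ : 1 ≤ σ) (hε0 : 0 ≤ ε) (hε1 : ε ≤ 1)
    (hw : 0 ≤ w) (hη : 12 * η₁ ≤ η) (hη₁ : 0 ≤ η₁) (n1 : n₀ ≤ P + η₁) (n3 : σ - 3 * w - η₁ ≤ P')
    (q1 : P - pc ≤ η₁) (q2 : P' - σ * pa ≤ 3 * w + η₁) (q3 : pc = σ * py + ε * pv)
    (q4 : σ * pa - σ * py = -(σ * pv)) (b4 : py ≤ 1) : n₀ ≤ σ + 8 * w * ε + η := by
  have h8 : σ * py ≤ σ := mul_le_of_le_one_right (by linarith) b4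
  have q5 : σ * pv ≤ 6 * w + 2 * η₁ := by linarith
  have q6 : pv ≤ 6 * w + 2 * η₁ := by
    rcases le_or_gt pv 0 with h | h
    · linarith
    · exact (le_mul_of_one_le_left h.le hσ).trans q5
  have h9 := mul_le_mul_of_nonneg_left q6 hε0
  have h10 : ε * (2 * η₁) ≤ 2 * η₁ := mul_le_of_le_one_left (by positivity) hε1
  have h11 : 0 ≤ ε * w := mul_nonneg hε0 hw
  linarith

omit [FiniteDimensional ℝ X] [FiniteDimensional ℝ Y] [MeasurableSpace X] [BorelSpace X]
  [MeasurableSpace Y] [BorelSpace Y] in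
/-- The second-order estimate: the image of the centre enters the ball. -/
lemma bad_dir {y : X} (hy : ‖y‖ = 1) (hd : Dense {x | s.GoodX y x}) {k : X}
    (hT : ∀ x, s.GoodX y x →
      dN (‖x‖ • s.G y - s.G x) (s.G y) - dN (‖x‖ • y - x) y = dN (‖x‖ • y - x) k) :
    ∃ t, 0 < t ∧ ‖t • y - (y + k)‖ < t := by
  set a := s.G y with ha
  have hna : ‖a‖ = 1 := by rw [ha, s.norm_G, hy]
  set c : X → X := fun x => ‖x‖ • y - x with hc
  set c' : X → Y := fun x => ‖x‖ • a - s.G x with hc'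
  have hcc : Continuous c := by fun_prop
  have hcc' : Continuous c' := (continuous_norm.smul continuous_const).sub s.continuous_G
  set v := -k with hv
  set ε := min (1 / 4) (1 / (16 * ‖v‖ + 1)) / (‖v‖ + 1) with hε
  have hε0 : 0 < ε := by positivity
  have hεv : ε * ‖v‖ ≤ 1 / 4 := by
    rw [hε, div_mul_eq_mul_div, div_le_iff₀ (by positivity)]
    have := norm_nonneg v
    have := min_le_left (1 / 4) (1 / (16 * ‖v‖ + 1))
    nlinarith
  have hε16 : 16 * (ε * ‖v‖) < 1 := by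
    have h1 : ε ≤ 1 / (16 * ‖v‖ + 1) := by
      rw [hε]
      exact (div_le_self (by positivity) (by linarith [norm_nonneg v])).trans (min_le_right _ _)
    rw [le_div_iff₀ (by positivity)] at h1
    nlinarith
  set x₀ := -(y + ε • v) with hx₀
  set σ := ‖x₀‖ + 1 with hσ
  have hσ1 : 1 ≤ σ := by rw [hσ]; linarith [norm_nonneg x₀]
  have e0 : c x₀ = σ • y + ε • v := by simp only [hc, hσ, hx₀]; module
  have hG0 : ‖c' x₀ - σ • a‖ ≤ 3 * (ε * ‖v‖) := by
    have e : c' x₀ - σ • a = s.G (y + ε • v) - a := by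
      simp only [hc', hx₀, s.G_neg, hσ]; module
    rw [e]
    refine (s.norm_G_sub_le _ _).trans ?_
    rw [add_sub_cancel_left, norm_smul, Real.norm_of_nonneg hε0.le]
  have hbound : ‖c x₀‖ ≤ σ + 8 * (ε * ‖v‖) * ε := by
    refine le_of_forall_pos_le_add fun η hη => ?_
    set η₁ := min (η / 12) 1 with hη₁
    have hη10 : 0 < η₁ := lt_min (by positivity) one_pos
    have hη11 : η₁ ≤ 1 := min_le_right _ _
    have hη12 : η₁ ≤ η / 12 := min_le_left _ _
    obtain ⟨x, hx, hxg⟩ := hd.exists_mem_open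
      (((isOpen_ball (x := c x₀) (ε := η₁)).preimage hcc).inter
        ((isOpen_ball (x := c' x₀) (ε := η₁)).preimage hcc'))
      ⟨x₀, by simp [hη10]⟩
    obtain ⟨hx1, hx2⟩ := hxg
    rw [Set.mem_preimage, mem_ball_iff_norm] at hx1 hx2
    have p1 : dN (c x) (c x) = ‖c x‖ := hx.2.1.1.fderiv_norm_self
    have p2 : dN (c' x) (c' x) = ‖c' x‖ := hx.2.2.1.fderiv_norm_self
    have b1 := abs_le.1 (abs_dN_le (c x) (c x - c x₀))
    have b2 := abs_le.1 (abs_dN_le (c' x) (c' x - σ • a))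
    have b3 := abs_le.1 (abs_dN_le (c x) v)
    have b4 : dN (c x) y ≤ 1 := hy ▸ (le_abs_self _).trans (abs_dN_le (c x) y)
    have b5 : dN (c' x) a ≤ 1 := hna ▸ (le_abs_self _).trans (abs_dN_le (c' x) a)
    have hk' : dN (c' x) a - dN (c x) y = -dN (c x) v := by
      rw [hT x hx, hv, map_neg, neg_neg]
    have n1 : ‖c x₀‖ ≤ ‖c x‖ + η₁ := by
      linarith [norm_sub_norm_le (c x₀) (c x), norm_sub_rev (c x₀) (c x)]
    have n2 : σ - ε * ‖v‖ - η₁ ≤ ‖c x‖ := by
      have h5 := norm_sub_norm_le (σ • y) (c x)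
      rw [norm_smul, hy, mul_one, Real.norm_of_nonneg (by linarith)] at h5
      have h6 : ‖σ • y - c x‖ ≤ ε * ‖v‖ + η₁ := by
        rw [show σ • y - c x = (c x₀ - c x) - ε • v by rw [e0]; abel]
        refine (norm_sub_le _ _).trans ?_
        rw [norm_smul, Real.norm_of_nonneg hε0.le, norm_sub_rev]
        linarith
      linarith
    have n3 : σ - 3 * (ε * ‖v‖) - η₁ ≤ ‖c' x‖ := by
      have h5 := norm_sub_norm_le (σ • a) (c' x)
      rw [norm_smul, hna, mul_one, Real.norm_of_nonneg (by linarith)] at h5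
      have h6 : ‖σ • a - c' x‖ ≤ 3 * (ε * ‖v‖) + η₁ := by
        rw [norm_sub_rev]
        refine (norm_sub_le_norm_sub_add_norm_sub _ (c' x₀) _).trans ?_
        linarith
      linarith
    have q1 : dN (c x) (c x) - dN (c x) (c x₀) ≤ η₁ := by
      rw [← map_sub]; linarith [b1.2]
    have q2 : dN (c' x) (c' x) - σ * dN (c' x) a ≤ 3 * (ε * ‖v‖) + η₁ := by
      rw [← smul_eq_mul σ, ← map_smul, ← map_sub]
      refine b2.2.trans ((norm_sub_le_norm_sub_add_norm_sub _ (c' x₀) _).trans ?_)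
      linarith
    have q3 : dN (c x) (c x₀) = σ * dN (c x) y + ε * dN (c x) v := by
      rw [e0, map_add, map_smul, map_smul, smul_eq_mul, smul_eq_mul]
    have q4 : σ * dN (c' x) a - σ * dN (c x) y = -(σ * dN (c x) v) := by
      rw [← mul_sub, hk']; ring
    have hε1 : ε ≤ 1 := by
      rw [hε]
      exact (div_le_self (by positivity) (by linarith [norm_nonneg v])).trans
        ((min_le_left _ _).trans (by norm_num))
    rw [← p1] at n1
    rw [← p2] at n3
    exact bad_scalar hσ1 hε0.le hε1 (mul_nonneg hε0.le (norm_nonneg v)) (by linarith) hη10.le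
      n1 n3 q1 q2 q3 q4 b4
  refine ⟨(σ + ε) / ε, by positivity, ?_⟩
  have e1 : ((σ + ε) / ε) • y - (y + k) = ε⁻¹ • c x₀ := by
    rw [e0, hv]
    match_scalars <;> (field_simp; try ring)
  rw [e1, norm_smul, Real.norm_of_nonneg (inv_nonneg.2 hε0.le), inv_mul_eq_div]
  rw [div_lt_div_iff_of_pos_right hε0]
  nlinarith

omit [FiniteDimensional ℝ X] [FiniteDimensional ℝ Y] [MeasurableSpace X] [BorelSpace X]
  [MeasurableSpace Y] [BorelSpace Y] in
/-- Global linearity from linearity near the centre. -/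
lemma bad_global (hs : StrictNorm X) {y : X} (hy : ‖y‖ = 1) (hd : Dense {x | s.GoodX y x})
    (A : X ≃L[ℝ] Y) (hAy : A y = s.G y) {T : Y →L[ℝ] X} (hTA : T = (A.symm : Y →L[ℝ] X))
    (hAsymm : ∀ x, T (‖x‖ • s.G y - s.G x) = ‖x‖ • y - x → s.G x = A x)
    (heq : ∀ x, s.GoodX y x → T (‖x‖ • s.G y - s.G x) ∈ chordCone y →
      T (‖x‖ • s.G y - s.G x) = ‖x‖ • y - x)
    (hlocal : ∀ᶠ u in 𝓝 y, s.G u = A u) (x : X) : s.G x = A x := by
  set a := s.G y with ha
  have hna : ‖a‖ = 1 := by rw [ha, s.norm_G, hy]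
  set c : X → X := fun x => ‖x‖ • y - x with hc
  set c' : X → Y := fun x => ‖x‖ • a - s.G x with hc'
  have hcc : Continuous c := by fun_prop
  have hcc' : Continuous c' := (continuous_norm.smul continuous_const).sub s.continuous_G
  have hcl : IsClosed {x | s.G x = A x} := isClosed_eq s.continuous_G A.continuous
  refine hcl.closure_subset_iff.2 (fun z hz => ?_) (hd x)
  by_cases hray : z = ‖z‖ • y
  · show s.G z = A z
    rw [hray, s.G_smul, map_smul, hAy]
  refine hAsymm z (heq z hz ?_)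
  have hGz : s.G z ≠ ‖s.G z‖ • a := fun e => hray (s.G_injective (by
    rw [s.G_smul, ← ha]; rwa [s.norm_G] at e))
  have hη : ∀ᶠ η in 𝓝[>] (0 : ℝ), s.G (y + η • A.symm (s.G z)) = a + η • s.G z ∧ η < 1 := by
    refine ((((show Continuous fun η : ℝ => y + η • A.symm (s.G z) by fun_prop).tendsto' 0 y
      (by simp)).eventually hlocal).mono fun η hη => ?_).filter_mono nhdsWithin_le_nhds |>.and
      ((eventually_lt_nhds one_pos).filter_mono nhdsWithin_le_nhds)
    rw [hη, map_add, map_smul, A.apply_symm_apply, hAy]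
  obtain ⟨η, ⟨hη1, hη2⟩, hη0 : 0 < η⟩ := (hη.and self_mem_nhdsWithin).exists
  refine ⟨‖z‖ + η⁻¹, by positivity, ?_⟩
  have e : (‖z‖ + η⁻¹) • y - T (c' z) = η⁻¹ • (y + η • A.symm (s.G z)) := by
    simp only [hc', hTA, ContinuousLinearEquiv.coe_coe, map_sub, map_smul]
    rw [show A.symm a = y from A.symm_apply_eq.2 hAy.symm, smul_add, smul_smul,
      inv_mul_cancel₀ hη0.ne', one_smul]
    module
  rw [e, norm_smul, Real.norm_of_nonneg (inv_nonneg.2 hη0.le), ← s.norm_G (y + _), hη1]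
  have h2 : ‖a + η • s.G z‖ < 1 + η * ‖s.G z‖ := by
    have hne : η • s.G z ≠ ‖η • s.G z‖ • a := fun e => hGz (by
      rw [norm_smul, Real.norm_of_nonneg hη0.le, mul_smul] at e
      exact smul_right_injective Y hη0.ne' e)
    have := (s.strictY hs).add_lt hna hne
    rw [norm_smul, Real.norm_of_nonneg hη0.le, add_comm (η • s.G z)] at this
    linarith
  rw [s.norm_G] at h2
  calc η⁻¹ * ‖a + η • s.G z‖ < η⁻¹ * (1 + η * ‖z‖) :=
        mul_lt_mul_of_pos_left h2 (inv_pos.2 hη0)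
    _ = ‖z‖ + η⁻¹ := by field_simp; ring

/-- **Linearity at a bad point.** -/
theorem exists_linear_of_bad (hs : StrictNorm X) (hdim : 2 ≤ Module.finrank ℝ X) (hb : s.Bad) :
    ∃ A : X ≃L[ℝ] Y, ∀ x, s.G x = A x := by
  obtain ⟨y, A, k, T, hy, hAy, hTa, hT0, hT⟩ := s.bad_map hs hdim hb
  have hd := s.dense_goodX hs hdim hy
  have heq : ∀ x, s.GoodX y x → T (‖x‖ • s.G y - s.G x) ∈ chordCone y →
      T (‖x‖ • s.G y - s.G x) = ‖x‖ • y - x :=
    fun x hx hK => s.bad_chord hs hy hd (fun x hx => (hT x hx).1) hx hK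
  obtain ⟨t₀, ht₀, hdir⟩ := s.bad_dir hy hd (fun x hx => (hT x hx).2)
  rw [← hTa] at hdir
  set a := s.G y with ha
  have hna : ‖a‖ = 1 := by rw [ha, s.norm_G, hy]
  set c : X → X := fun x => ‖x‖ • y - x with hc
  set c' : X → Y := fun x => ‖x‖ • a - s.G x with hc'
  have hcc : Continuous c := by fun_prop
  have hcc' : Continuous c' := (continuous_norm.smul continuous_const).sub s.continuous_G
  -- `T` is the inverse of `A`
  have hnear : ∀ᶠ x in 𝓝 (-y), T (c' x) = c x := by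
    have h0 : T (c' (-y)) ∈ chordCone y := by
      refine ⟨2 * t₀, by positivity, ?_⟩
      have e : c' (-y) = (2 : ℝ) • a := by simp [hc', hy, s.G_neg, ← ha, two_smul]
      rw [e, map_smul, show (2 * t₀) • y - (2 : ℝ) • T a = (2 : ℝ) • (t₀ • y - T a) by module,
        norm_smul, Real.norm_two]
      linarith
    obtain ⟨ρ, hρ, hball⟩ := Metric.eventually_nhds_iff_ball.1
      (((T.continuous.comp hcc').tendsto (-y)).eventually ((isOpen_chordCone y).mem_nhds h0))
    refine eventually_of_mem (ball_mem_nhds _ hρ) fun x hx => ?_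
    have hcl : IsClosed {x | T (c' x) = c x} := isClosed_eq (T.continuous.comp hcc') hcc
    refine hcl.closure_subset_iff.2 (fun z hz => heq z hz.2 (hball z hz.1))
      (isOpen_ball.inter_closure ⟨hx, hd x⟩ : x ∈ closure (ball (-y) ρ ∩ {x | s.GoodX y x}))
  have hk0 : k = 0 := by
    have h := hnear.self_of_nhds
    simp only [hc, hc', norm_neg, hy, one_smul, s.G_neg, ← ha, sub_neg_eq_add, map_add, hTa] at h
    have : (2 : ℝ) • k = 0 := by
      rw [← sub_eq_zero] at h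
      rw [← h]; module
    exact (smul_eq_zero.1 this).resolve_left two_ne_zero
  have hTA := hT0 hk0
  have hAsymm : ∀ x, T (c' x) = c x → s.G x = A x := by
    intro x h
    simp only [hc, hc', hTA, ContinuousLinearEquiv.coe_coe, map_sub, map_smul] at h
    rw [show A.symm a = y from A.symm_apply_eq.2 hAy.symm] at h
    rw [← A.apply_symm_apply (s.G x), sub_right_injective h]
  have hlocal : ∀ᶠ u in 𝓝 y, s.G u = A u := by
    have : Tendsto (fun u : X => -u) (𝓝 y) (𝓝 (-y)) := continuous_neg.tendsto y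
    filter_upwards [this.eventually hnear] with u hu
    have := hAsymm _ hu
    rw [s.G_neg, map_neg] at this
    exact neg_injective this
  exact ⟨A, s.bad_global hs hy hd A hAy hTA hAsymm heq hlocal⟩

end SphIso

end Vale.Agent.P084
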