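import Vale.Agent.P084.Strict.Smooth
import Vale.Agent.P084.Inf.Continue
import Vale.Agent.P084.Rigidity

/-!
P084 (Tingley's problem), library for strictly convex finite-dimensional norms: the second order
data of the norms and of the extension at a point where they exist, on a ball where the
derivatives are Lipschitz.
-/

namespace Vale.Agent.P084

open Filter Topology Metric MeasureTheory

variable {X Y : Type*} [NormedAddCommGroup X] [NormedSpace ℝ X] [NormedAddCommGroup Y]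
  [NormedSpace ℝ Y]

/-- Two curves with the same tangent see the same derivative of a locally Lipschitz map. -/
lemma hasDerivAt_of_tangent {E F : Type*} [NormedAddCommGroup E] [NormedSpace ℝ E]
    [NormedAddCommGroup F] [NormedSpace ℝ F] {g : E → F} {p : E} {M r : ℝ} (hr : 0 < r)
    (hg : ∀ a b, ‖a - p‖ < r → ‖b - p‖ < r → ‖g b - g a‖ ≤ M * ‖b - a‖) {γ η : ℝ → E} {w : E}
    (hγ : HasDerivAt γ w 0) (hη : HasDerivAt η w 0) (hγ0 : γ 0 = p) (hη0 : η 0 = p) {d : F}
    (h : HasDerivAt (fun t => g (η t)) d 0) : HasDerivAt (fun t => g (γ t)) d 0 := by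
  have hd : HasDerivAt (fun t => g (γ t) - g (η t)) 0 0 := by
    have h0 := hγ.sub hη
    rw [sub_self, hasDerivAt_iff_isLittleO_nhds_zero] at h0
    rw [hasDerivAt_iff_isLittleO_nhds_zero]
    simp only [zero_add, Pi.sub_apply, hγ0, hη0, sub_self, sub_zero, smul_zero] at h0 ⊢
    refine (Asymptotics.IsBigO.of_bound M ?_).trans_isLittleO h0
    have e1 : Tendsto γ (𝓝 0) (𝓝 p) := hγ0 ▸ hγ.continuousAt.tendsto
    have e2 : Tendsto η (𝓝 0) (𝓝 p) := hη0 ▸ hη.continuousAt.tendsto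
    filter_upwards [e1.eventually_mem (ball_mem_nhds p hr), e2.eventually_mem (ball_mem_nhds p hr)]
      with t h1 h2
    rw [mem_ball_iff_norm] at h1 h2
    exact hg _ _ h2 h1
  exact ((hd.add h).congr_deriv (zero_add d)).congr_of_eventuallyEq
    (Eventually.of_forall fun t => (sub_add_cancel (g (γ t)) (g (η t))).symm)

/-- A form with positive values off the radius. -/
def Nondeg (u : X) (Q : X →L[ℝ] X →L[ℝ] ℝ) : Prop :=
  ∀ k, dN u k = 0 → k ≠ 0 → 0 < Q k k

namespace SphIso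

variable (s : SphIso X Y)

namespace Local

variable {s} {v : X} {ρ M : ℝ} (L : s.Local v ρ M)
  [FiniteDimensional ℝ X] [FiniteDimensional ℝ Y] {u : X}
include L

lemma ne_zero (hu : ‖u - v‖ < ρ) : u ≠ 0 := fun e => by
  have h1 := L.1
  have h2 := L.2.2.1
  rw [e, zero_sub, norm_neg, h1] at hu
  linarith

lemma mem_Y (hu : ‖u - v‖ < ρ / 4) : ‖s.G u - s.G v‖ < ρ := by
  have := s.norm_G_sub_le u v
  have := norm_nonneg (u - v)
  linarith

lemma mem_X (hu : ‖u - v‖ < ρ / 4) : ‖u - v‖ < ρ := by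
  have := norm_nonneg (u - v)
  linarith

lemma exists_equiv (hu : ‖u - v‖ < ρ) : ∃ A : X ≃L[ℝ] Y, HasFDerivAt s.G (A : X →L[ℝ] Y) u ∧
    HasFDerivAt s.H (A.symm : Y →L[ℝ] X) (s.G u) :=
  L.2.2.2.2.1 u hu

lemma diffG (hu : ‖u - v‖ < ρ) : DifferentiableAt ℝ s.G u := by
  obtain ⟨A, hA, -⟩ := L.exists_equiv hu
  exact hA.differentiableAt

lemma lip {a b : X} (ha : ‖a - v‖ < ρ) (hb : ‖b - v‖ < ρ) :
    ‖s.dG b - s.dG a‖ ≤ M * ‖b - a‖ ∧ ‖dN b - dN a‖ ≤ M * ‖b - a‖ :=
  L.2.2.2.2.2.1 a b ha hb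

lemma lipY {p q : Y} (hp : ‖p - s.G v‖ < ρ) (hq : ‖q - s.G v‖ < ρ) :
    ‖dN q - dN p‖ ≤ M * ‖q - p‖ :=
  L.2.2.2.2.2.2 p q hp hq

lemma M_nonneg : 0 ≤ M := L.2.2.2.1

lemma dN_dG (hX : SmoothNorm X 1) (hY : SmoothNorm Y 1) (hu : ‖u - v‖ < ρ) (c : X) :
    dN (s.G u) (s.dG u c) = dN u c := by
  have hu0 := L.ne_zero hu
  have hGu : s.G u ≠ 0 := by rwa [← norm_ne_zero_iff, s.norm_G, norm_ne_zero_iff]
  have h : HasFDerivAt (fun z => ‖s.G z‖) ((dN (s.G u)).comp (s.dG u)) u :=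
    (hY.hasFDerivAt le_rfl hGu).comp u (L.diffG hu).hasFDerivAt
  simp only [s.norm_G] at h
  exact DFunLike.congr_fun (h.unique (hX.hasFDerivAt le_rfl hu0)) c

/-- Along a line where the two derivatives are differentiable, the forms correspond and the radial
functional does not see the second derivative of the extension. -/
lemma pullback_dir (hX : SmoothNorm X 1) (hY : SmoothNorm Y 1) (hu : ‖u - v‖ < ρ / 4)
    {A : X ≃L[ℝ] Y} (hA : HasFDerivAt s.G (A : X →L[ℝ] Y) u) {w : X} {q : X →L[ℝ] ℝ}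
    {e : X →L[ℝ] Y} (hq : HasDerivAt (fun t : ℝ => dN (u + t • w)) q 0)
    (he : HasDerivAt (fun t : ℝ => s.dG (u + t • w)) e 0) :
    (∀ c, dN (s.G u) (e c) = 0) ∧
      HasDerivAt (fun t : ℝ => dN (s.G (u + t • w))) (q.comp (A.symm : Y →L[ℝ] X)) 0 := by
  have : CompleteSpace X := FiniteDimensional.complete ℝ X
  have : CompleteSpace Y := FiniteDimensional.complete ℝ Y
  have huX := L.mem_X hu
  have hu0 := L.ne_zero huX
  set r := ‖u‖ with hrdef
  have hr : 0 < r := norm_pos_iff.2 hu0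
  have hGu0 : s.G u ≠ 0 := by rwa [← norm_ne_zero_iff, s.norm_G, norm_ne_zero_iff]
  have hAe : s.dG u = (A : X →L[ℝ] Y) := hA.fderiv
  have hAu : A u = s.G u := by
    have := s.dG_self_of_differentiable hA.differentiableAt
    rw [hA.fderiv] at this
    exact this
  set α := dN u with hαdef
  have hαu : α u = r := hX.dN_self le_rfl hu0
  set α' := dN (s.G u) with hα'def
  have hα'A : ∀ c, α' (A c) = α c := fun c => by
    have := L.dN_dG hX hY huX c
    rwa [hAe] at this
  have hl : HasDerivAt (fun t : ℝ => u + t • w) w 0 := by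
    simpa using ((hasDerivAt_id (0 : ℝ)).smul_const w).const_add u
  have hcu : Tendsto (fun t : ℝ => u + t • w) (𝓝 0) (𝓝 u) := hl.continuousAt.tendsto.trans (by simp)
  have hmem : ∀ᶠ t in 𝓝 (0 : ℝ), ‖u + t • w - v‖ < ρ := by
    filter_upwards [hcu.eventually_mem (isOpen_ball.mem_nhds (mem_ball_iff_norm.2 huX))] with t ht
    exact mem_ball_iff_norm.1 ht
  -- the derivative of the gradient of the image norm along the curve
  obtain ⟨q', hq'⟩ : ∃ q', HasDerivAt (fun t : ℝ => dN (s.G (u + t • w))) q' 0 := by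
    have hi : HasFDerivAt (ContinuousLinearMap.inverse : (X →L[ℝ] Y) → Y →L[ℝ] X)
        (fderiv ℝ ContinuousLinearMap.inverse (A : X →L[ℝ] Y)) (A : X →L[ℝ] Y) :=
      ((contDiffAt_map_inverse (n := 1) A).differentiableAt one_ne_zero).hasFDerivAt
    have h1 := hi.comp_hasDerivAt_of_eq 0 he (by simp [hAe])
    refine ⟨_, (hq.clm_comp h1).congr_of_eventuallyEq ?_⟩
    filter_upwards [hmem] with t ht
    obtain ⟨B, hB, -⟩ := L.exists_equiv ht
    ext z
    simp only [Function.comp_apply, ContinuousLinearMap.coe_comp]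
    rw [show s.dG (u + t • w) = (B : X →L[ℝ] Y) from hB.fderiv,
      ContinuousLinearMap.inverse_equiv]
    have := L.dN_dG hX hY ht (B.symm z)
    rw [show s.dG (u + t • w) = (B : X →L[ℝ] Y) from hB.fderiv] at this
    simpa using this
  have hec : ∀ c, HasDerivAt (fun t : ℝ => s.dG (u + t • w) c) (e c) 0 := fun c => by
    simpa using he.clm_apply (hasDerivAt_const (0 : ℝ) c)
  have hqc : ∀ c, HasDerivAt (fun t : ℝ => dN (u + t • w) c) (q c) 0 := fun c => by
    simpa using hq.clm_apply (hasDerivAt_const (0 : ℝ) c)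
  have hn : HasDerivAt (fun t : ℝ => ‖u + t • w‖) (α w) 0 :=
    (hX.hasFDerivAt le_rfl hu0).comp_hasDerivAt_of_eq 0 hl (by simp)
  have hG : HasDerivAt (fun t : ℝ => s.G (u + t • w)) (A w) 0 :=
    hA.comp_hasDerivAt_of_eq 0 hl (by simp)
  -- the first identity
  have first : ∀ c, q' (A c) + α' (e c) = q c := fun c => by
    have h1 := hq'.clm_apply (hec c)
    simp only [zero_smul, add_zero, hAe] at h1
    refine h1.unique ((hqc c).congr_of_eventuallyEq ?_)
    filter_upwards [hmem] with t ht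
    exact L.dN_dG hX hY ht c
  have hqu : q u = 0 := by
    have h1 := hq.clm_apply hl
    simp only [zero_smul, add_zero] at h1
    have := h1.unique (hn.congr_of_eventuallyEq (hmem.mono fun t ht =>
      hX.dN_self le_rfl (L.ne_zero ht)))
    linarith
  have heu : e u = 0 := by
    have h1 := he.clm_apply hl
    simp only [zero_smul, add_zero, hAe] at h1
    have h2 := h1.unique (hG.congr_of_eventuallyEq (hmem.mono fun t ht =>
      s.dG_self_of_differentiable (L.diffG ht)))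
    simpa using h2
  have hq'u : q' (s.G u) = 0 := by
    have := first u
    rwa [hqu, heu, map_zero, add_zero, hAu] at this
  -- the chord test through the antipode
  set k₀ := α w * (2 * r)⁻¹ with hk₀
  set γ : ℝ → X := fun t => (2 : ℝ)⁻¹ • (u + t • w) + (‖u + t • w‖ * (2 * r)⁻¹) • u with hγ
  set γ' : ℝ → Y :=
    fun t => (2 : ℝ)⁻¹ • s.G (u + t • w) + (‖u + t • w‖ * (2 * r)⁻¹) • s.G u with hγ'
  set η : ℝ → X := fun t => (1 + t * k₀) • (u + ((2 : ℝ)⁻¹ * t) • w) with hη
  have hγ0 : γ 0 = u := by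
    simp only [hγ, zero_smul, add_zero, ← hrdef]
    match_scalars
    field_simp
    ring
  have hγ'0 : γ' 0 = s.G u := by
    simp only [hγ', zero_smul, add_zero, ← hrdef]
    match_scalars
    field_simp
    ring
  have hη0 : η 0 = u := by simp [hη]
  have hγd : HasDerivAt γ ((2 : ℝ)⁻¹ • w + k₀ • u) 0 :=
    (hl.const_smul (2 : ℝ)⁻¹).add ((hn.mul_const (2 * r)⁻¹).smul_const u)
  have hγ'd : HasDerivAt γ' ((2 : ℝ)⁻¹ • A w + k₀ • s.G u) 0 :=
    (hG.const_smul (2 : ℝ)⁻¹).add ((hn.mul_const (2 * r)⁻¹).smul_const (s.G u))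
  have hid2 : HasDerivAt (fun t : ℝ => (2 : ℝ)⁻¹ * t) (2 : ℝ)⁻¹ 0 := by
    simpa using (hasDerivAt_id (0 : ℝ)).const_mul (2 : ℝ)⁻¹
  have hηd : HasDerivAt η ((2 : ℝ)⁻¹ • w + k₀ • u) 0 := by
    have h2 : HasDerivAt (fun t : ℝ => 1 + t * k₀) k₀ 0 := by
      simpa using ((hasDerivAt_id (0 : ℝ)).mul_const k₀).const_add 1
    exact (h2.smul ((hid2.smul_const w).const_add u)).congr_deriv (by simp)
  have hη'd : HasDerivAt (fun t => s.G (η t)) ((2 : ℝ)⁻¹ • A w + k₀ • s.G u) 0 := by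
    have := hA.comp_hasDerivAt_of_eq 0 hηd hη0.symm
    simpa [Function.comp_def, hAu] using this
  have hpos : ∀ᶠ t in 𝓝 (0 : ℝ), 0 < 1 + t * k₀ :=
    ((show Continuous fun t : ℝ => 1 + t * k₀ by fun_prop).tendsto' 0 1 (by simp)).eventually_const_lt
      one_pos
  have hdγ : HasDerivAt (fun t => dN (γ t)) ((2 : ℝ)⁻¹ • q) 0 := by
    refine hasDerivAt_of_tangent (g := fun z : X => dN z) (M := M) (r := ρ - ‖u - v‖)
      (by linarith) (fun a b ha hb => (L.lip ?_ ?_).2) hγd hηd hγ0 hη0 ?_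
    · linarith [norm_sub_le_norm_sub_add_norm_sub a u v]
    · linarith [norm_sub_le_norm_sub_add_norm_sub b u v]
    · refine (hq.scomp_of_eq 0 hid2 (by simp)).congr_of_eventuallyEq ?_
      filter_upwards [hpos] with t ht
      show dN (η t) = dN (u + ((2 : ℝ)⁻¹ * t) • w)
      simp only [hη]
      rw [dN_smul_pos _ ht]
  have hdγ' : HasDerivAt (fun t => dN (γ' t)) ((2 : ℝ)⁻¹ • q') 0 := by
    have hGu := L.mem_Y hu
    refine hasDerivAt_of_tangent (g := fun z : Y => dN z) (M := M) (r := ρ - ‖s.G u - s.G v‖)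
      (by linarith) (fun a b ha hb => L.lipY ?_ ?_) hγ'd hη'd hγ'0 (by rw [hη0]) ?_
    · linarith [norm_sub_le_norm_sub_add_norm_sub a (s.G u) (s.G v)]
    · linarith [norm_sub_le_norm_sub_add_norm_sub b (s.G u) (s.G v)]
    · refine (hq'.scomp_of_eq 0 hid2 (by simp)).congr_of_eventuallyEq ?_
      filter_upwards [hpos] with t ht
      show dN (s.G (η t)) = dN (s.G (u + ((2 : ℝ)⁻¹ * t) • w))
      simp only [hη]
      rw [s.G_smul, dN_smul_pos _ ht]
  have second : ∀ c, α' (e c) = 0 := by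
    intro c
    have h2 : HasDerivAt (fun t : ℝ => dN (γ t) (r • c + dN (u + t • w) c • u))
        (((2 : ℝ)⁻¹ • q) (r • c + α c • u) + α (q c • u)) 0 := by
      have := hdγ.clm_apply (((hqc c).smul_const u).const_add (r • c))
      simp only [zero_smul, add_zero, hγ0] at this
      exact this
    have h2' : HasDerivAt
        (fun t : ℝ => dN (γ' t) (r • s.dG (u + t • w) c + dN (u + t • w) c • s.G u))
        (((2 : ℝ)⁻¹ • q') (r • A c + α c • s.G u) + α' (r • e c + q c • s.G u)) 0 := by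
      have := hdγ'.clm_apply (((hec c).const_smul r).add ((hqc c).smul_const (s.G u)))
      simp only [Pi.add_apply, Pi.smul_apply, zero_smul, add_zero, hγ'0, hAe] at this
      exact this
    have hev : (fun t : ℝ => dN (γ' t) (r • s.dG (u + t • w) c + dN (u + t • w) c • s.G u))
        =ᶠ[𝓝 0] fun t : ℝ => dN (γ t) (r • c + dN (u + t • w) c • u) := by
      have hne : ∀ᶠ t in 𝓝 (0 : ℝ), γ t ≠ 0 :=
        hγd.continuousAt.eventually_ne (by rwa [hγ0])
      have hne' : ∀ᶠ t in 𝓝 (0 : ℝ), γ' t ≠ 0 :=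
        hγ'd.continuousAt.eventually_ne (by rwa [hγ'0])
      filter_upwards [hmem, hne, hne'] with t ht hg hg'
      set z₀ := u + t • w with hz₀
      have hz0 := L.ne_zero ht
      have e1 : r • z₀ + ‖z₀‖ • u = (2 * r) • γ t := by
        simp only [hγ, ← hz₀]
        match_scalars <;> field_simp
      have e2 : r • s.G z₀ + ‖z₀‖ • s.G u = (2 * r) • γ' t := by
        simp only [hγ', ← hz₀]
        match_scalars <;> field_simp
      have d1 : HasFDerivAt (fun z => r • z + ‖z‖ • u)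
          (r • ContinuousLinearMap.id ℝ X + (dN z₀).smulRight u) z₀ :=
        ((hasFDerivAt_id z₀).const_smul r).add ((hX.hasFDerivAt le_rfl hz0).smul_const u)
      have d2 : HasFDerivAt (fun z => r • s.G z + ‖z‖ • s.G u)
          (r • s.dG z₀ + (dN z₀).smulRight (s.G u)) z₀ :=
        ((L.diffG ht).hasFDerivAt.const_smul r).add
          ((hX.hasFDerivAt le_rfl hz0).smul_const (s.G u))
      have n1 := (hX.hasFDerivAt le_rfl (x := r • z₀ + ‖z₀‖ • u)
        (by rw [e1]; exact smul_ne_zero (by positivity) hg)).comp z₀ d1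
      have n2 := (hY.hasFDerivAt le_rfl (x := r • s.G z₀ + ‖z₀‖ • s.G u)
        (by rw [e2]; exact smul_ne_zero (by positivity) hg')).comp z₀ d2
      have hfun : ((fun y : Y => ‖y‖) ∘ fun z => r • s.G z + ‖z‖ • s.G u) =
          (fun y : X => ‖y‖) ∘ fun z => r • z + ‖z‖ • u := by
        funext z
        have := s.key2 z (-u)
        simpa [s.G_neg, hrdef] using this
      rw [hfun] at n2
      have := DFunLike.congr_fun (n2.unique n1) c
      rw [e1, e2, dN_smul_pos _ (by positivity), dN_smul_pos _ (by positivity)] at this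
      simpa using this
    have h := (h2'.congr_of_eventuallyEq hev.symm).unique h2
    simp only [smul_apply, map_add, map_smul, smul_eq_mul, hqu, hq'u, hαu,
      show α' (s.G u) = r by rw [← hAu, hα'A, hαu], mul_zero, add_zero] at h
    have h3 := first c
    have : r * α' (e c) = 0 := by linear_combination 2 * h - r * h3
    exact (mul_eq_zero.1 this).resolve_left hr.ne'
  refine ⟨second, hq'.congr_deriv ?_⟩
  ext z
  have := first (A.symm z)
  rw [second, add_zero, A.apply_symm_apply] at this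
  simpa using this

/-- The second order expansion of the defect along a segment. -/
lemma segment_bound (hX : SmoothNorm X 1) (hY : SmoothNorm Y 1) {y : X} {A : X ≃L[ℝ] Y}
    {α : X →L[ℝ] ℝ} {Q : X →L[ℝ] X →L[ℝ] ℝ} {S : X →L[ℝ] X} (hαS : ∀ x, α (S x) = 0)
    (c h w : X) {τ ε : ℝ} (hτ0 : 0 < τ) (hε0 : 0 ≤ ε)
    (hUv : ∀ t ∈ Set.Icc (0 : ℝ) 1, ‖y + τ • (h + t • w) - v‖ < ρ / 4)
    (hke : ∀ t ∈ Set.Icc (0 : ℝ) 1, ‖(s.dG (y + τ • (h + t • w))).inverse
      (s.dG (y + τ • (h + t • w)) c - A c) - S (τ • (h + t • w))‖ ≤ ε * (τ * (‖h‖ + ‖w‖)))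
    (hQe : ∀ t ∈ Set.Icc (0 : ℝ) 1, ‖dN (y + τ • (h + t • w)) - α - Q (τ • (h + t • w))‖ ≤
      ε * (τ * (‖h‖ + ‖w‖))) :
    |(dN (y + τ • (h + w)) c - dN (s.G (y + τ • (h + w))) (A c)) -
        (dN (y + τ • h) c - dN (s.G (y + τ • h)) (A c)) -
        τ ^ 2 * (Q w (S h) + Q w (S w) / 2)| ≤
      ε * τ ^ 2 * ((‖h‖ + ‖w‖) * (M * ‖w‖ + ‖S w‖) + 2 * ((‖h‖ + ‖w‖) * (‖S‖ * (‖h‖ + ‖w‖)))) := by
  have : CompleteSpace X := FiniteDimensional.complete ℝ X
  have : CompleteSpace Y := FiniteDimensional.complete ℝ Y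
  have hM := L.M_nonneg
  set F : X → ℝ := fun u => dN u c - dN (s.G u) (A c) with hF
  set Φ : X → X → ℝ := fun x x' => Q x (S x') with hΦ
  set k : X → X := fun u => (s.dG u).inverse (s.dG u c - A c) with hk
  set l := ‖h‖ + ‖w‖ with hl
  have hl0 : 0 ≤ l := by positivity
  set W := ‖S w‖ with hW
  set C := l * (M * ‖w‖ + W) + 2 * (l * (‖S‖ * l)) with hC
  set z : ℝ → X := fun t => τ • (h + t • w) with hz
  set U : ℝ → X := fun t => y + z t with hU
  have hzn : ∀ t ∈ Set.Icc (0 : ℝ) 1, ‖z t‖ ≤ τ * l := by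
    intro t ht
    rw [hz]
    simp only [norm_smul, Real.norm_of_nonneg hτ0.le, hl]
    refine mul_le_mul_of_nonneg_left ((norm_add_le _ _).trans (add_le_add le_rfl ?_)) hτ0.le
    rw [norm_smul, Real.norm_of_nonneg ht.1]
    exact mul_le_of_le_one_left (norm_nonneg w) ht.2
  set R : ℝ → ℝ := fun t => dN (U t) (c - S (z t)) - dN (s.G (U t)) (A c)
    + τ ^ 2 * (t * Φ h w + t ^ 2 / 2 * Φ w w) with hR
  have hUd : ∀ a b : ℝ, ‖U b - U a‖ ≤ τ * ‖w‖ * |b - a| := fun a b => by
    rw [show U b - U a = (τ * (b - a)) • w by simp only [hU, hz]; module, norm_smul,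
      Real.norm_eq_abs, abs_mul, abs_of_pos hτ0]
    exact le_of_eq (by ring)
  have hPlip : ∀ a ∈ Set.Icc (0 : ℝ) 1, ∀ b ∈ Set.Icc (0 : ℝ) 1,
      ‖dN (U b) - dN (U a)‖ ≤ M * (τ * ‖w‖) * |b - a| ∧
      ‖s.dG (U b) - s.dG (U a)‖ ≤ M * (τ * ‖w‖) * |b - a| ∧
      ‖dN (s.G (U b)) - dN (s.G (U a))‖ ≤ 3 * (M * (τ * ‖w‖)) * |b - a| := by
    intro a ha b hb
    have h1 := L.lip (L.mem_X (hUv a ha)) (L.mem_X (hUv b hb))
    have h2 := L.lipY (L.mem_Y (hUv a ha)) (L.mem_Y (hUv b hb))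
    have h3 := mul_le_mul_of_nonneg_left (hUd a b) hM
    refine ⟨h1.2.trans (by linarith), h1.1.trans (by linarith), h2.trans ?_⟩
    have h4 := mul_le_mul_of_nonneg_left (s.norm_G_sub_le (U b) (U a)) hM
    linarith
  have l1 : LipschitzOnWith (Real.toNNReal (M * (τ * ‖w‖))) (fun t => dN (U t))
      (Set.Icc (0 : ℝ) 1) := LipschitzOnWith.of_dist_le' fun a ha b hb => by
    rw [dist_eq_norm, Real.dist_eq]
    exact (hPlip b hb a ha).1
  have l2 : LipschitzOnWith (Real.toNNReal (M * (τ * ‖w‖))) (fun t => s.dG (U t))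
      (Set.Icc (0 : ℝ) 1) := LipschitzOnWith.of_dist_le' fun a ha b hb => by
    rw [dist_eq_norm, Real.dist_eq]
    exact (hPlip b hb a ha).2.1
  have hRlip : LipschitzOnWith (Real.toNNReal
      (M * (τ * ‖w‖) * (‖c‖ + ‖S‖ * (τ * l)) + τ * W + 3 * (M * (τ * ‖w‖)) * ‖A c‖ +
        τ ^ 2 * (|Φ h w| + |Φ w w|))) R (Set.Icc (0 : ℝ) 1) := by
    refine LipschitzOnWith.of_dist_le' fun a ha b hb => ?_
    rw [Real.dist_eq, Real.dist_eq]
    obtain ⟨p1, -, p3⟩ := hPlip b hb a ha
    have e1 : dN (U a) (c - S (z a)) - dN (U b) (c - S (z b)) =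
        (dN (U a) - dN (U b)) (c - S (z a)) - dN (U b) ((τ * (a - b)) • S w) := by
      rw [show c - S (z b) = (c - S (z a)) + (τ * (a - b)) • S w by
        simp only [hz, map_smul, map_add]; module, map_add, sub_apply]
      ring
    have e2 : |dN (U a) (c - S (z a)) - dN (U b) (c - S (z b))| ≤
        (M * (τ * ‖w‖) * (‖c‖ + ‖S‖ * (τ * l)) + τ * W) * |a - b| := by
      rw [e1]
      refine (abs_sub _ _).trans ?_
      have h1 : |(dN (U a) - dN (U b)) (c - S (z a))| ≤
          M * (τ * ‖w‖) * |a - b| * (‖c‖ + ‖S‖ * (τ * l)) := by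
        refine ((dN (U a) - dN (U b)).le_opNorm _).trans
          (mul_le_mul p1 ?_ (norm_nonneg _) (by positivity))
        refine (norm_sub_le _ _).trans (add_le_add le_rfl ?_)
        exact (S.le_opNorm _).trans (mul_le_mul_of_nonneg_left (hzn a ha) (norm_nonneg S))
      have h2 : |dN (U b) ((τ * (a - b)) • S w)| ≤ τ * W * |a - b| := by
        refine (abs_dN_le _ _).trans (le_of_eq ?_)
        rw [norm_smul, Real.norm_eq_abs, abs_mul, abs_of_pos hτ0, hW]
        ring
      linarith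
    have e3 : |dN (s.G (U a)) (A c) - dN (s.G (U b)) (A c)| ≤
        3 * (M * (τ * ‖w‖)) * ‖A c‖ * |a - b| := by
      rw [← sub_apply]
      refine ((dN (s.G (U a)) - dN (s.G (U b))).le_opNorm _).trans ?_
      refine (mul_le_mul_of_nonneg_right p3 (norm_nonneg _)).trans_eq ?_
      ring
    have e4 : |τ ^ 2 * (a * Φ h w + a ^ 2 / 2 * Φ w w) -
        τ ^ 2 * (b * Φ h w + b ^ 2 / 2 * Φ w w)| ≤
        τ ^ 2 * (|Φ h w| + |Φ w w|) * |a - b| := by
      rw [show τ ^ 2 * (a * Φ h w + a ^ 2 / 2 * Φ w w) -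
        τ ^ 2 * (b * Φ h w + b ^ 2 / 2 * Φ w w) =
        τ ^ 2 * ((a - b) * (Φ h w + (a + b) / 2 * Φ w w)) by ring, abs_mul, abs_mul,
        abs_of_nonneg (sq_nonneg τ)]
      have : |Φ h w + (a + b) / 2 * Φ w w| ≤ |Φ h w| + |Φ w w| := by
        refine (abs_add_le _ _).trans (add_le_add le_rfl ?_)
        rw [abs_mul]
        refine mul_le_of_le_one_left (abs_nonneg _) ?_
        rw [abs_le]
        constructor <;> linarith [ha.1, ha.2, hb.1, hb.2]
      calc τ ^ 2 * (|a - b| * |Φ h w + (a + b) / 2 * Φ w w|)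
          ≤ τ ^ 2 * (|a - b| * (|Φ h w| + |Φ w w|)) := by gcongr
        _ = _ := by ring
    have e5 : R a - R b = (dN (U a) (c - S (z a)) - dN (U b) (c - S (z b)))
        - (dN (s.G (U a)) (A c) - dN (s.G (U b)) (A c))
        + (τ ^ 2 * (a * Φ h w + a ^ 2 / 2 * Φ w w) -
          τ ^ 2 * (b * Φ h w + b ^ 2 / 2 * Φ w w)) := by
      simp only [hR]; ring
    rw [e5]
    refine (abs_add_le _ _).trans ?_
    have := abs_sub (dN (U a) (c - S (z a)) - dN (U b) (c - S (z b)))
      (dN (s.G (U a)) (A c) - dN (s.G (U b)) (A c))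
    linarith
  have hderiv : ∀ᵐ t : ℝ, t ∈ Set.uIoc (0 : ℝ) 1 →
      ‖deriv R t‖ ≤ ε * τ ^ 2 * (l * (M * ‖w‖ + W)) := by
    filter_upwards [l1.ae_differentiableWithinAt_of_mem_real,
      l2.ae_differentiableWithinAt_of_mem_real,
      show ∀ᵐ t : ℝ, t ≠ 1 from ae_iff.2 (by simp)] with t h1 h2 h3 ht
    rw [Set.uIoc_of_le zero_le_one] at ht
    have hti : t ∈ Set.Ioo (0 : ℝ) 1 := ⟨ht.1, lt_of_le_of_ne ht.2 h3⟩
    have htc := Set.Ioo_subset_Icc_self hti
    have hnh : Set.Icc (0 : ℝ) 1 ∈ 𝓝 t := Icc_mem_nhds hti.1 hti.2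
    have hP := ((h1 htc).differentiableAt hnh).hasDerivAt
    have hD := ((h2 htc).differentiableAt hnh).hasDerivAt
    set q := deriv (fun t => dN (U t)) t with hq
    set d := deriv (fun t => s.dG (U t)) t with hd
    have hline : ∀ t' : ℝ, U (t + t') = U t + t' • (τ • w) := fun t' => by
      simp only [hU, hz]; module
    have hPl : HasDerivAt (fun t' : ℝ => dN (U t + t' • (τ • w))) q 0 :=
      ((show HasDerivAt (fun t => dN (U t)) q (t + 0) by rwa [add_zero]).comp_const_add t 0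
        ).congr_of_eventuallyEq (Eventually.of_forall fun t' => by simp only [hline])
    have hDl : HasDerivAt (fun t' : ℝ => s.dG (U t + t' • (τ • w))) d 0 :=
      ((show HasDerivAt (fun t => s.dG (U t)) d (t + 0) by rwa [add_zero]).comp_const_add t 0
        ).congr_of_eventuallyEq (Eventually.of_forall fun t' => by simp only [hline])
    obtain ⟨B, hB, -⟩ := L.exists_equiv (L.mem_X (hUv t htc))
    have hY' := (L.pullback_dir hX hY (hUv t htc) hB hPl hDl).2
    have hY'' : HasDerivAt (fun t => dN (s.G (U t))) (q.comp (B.symm : Y →L[ℝ] X)) t := by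
      refine (HasDerivAt.comp_sub_const t t
        (f := fun t' : ℝ => dN (s.G (U t + t' • (τ • w)))) (by rwa [sub_self])).congr_of_eventuallyEq
        (Eventually.of_forall fun t' => ?_)
      show _ = dN (s.G (U t + (t' - t) • (τ • w)))
      rw [← hline, add_sub_cancel]
    have hzd : HasDerivAt (fun t => S (z t)) (τ • S w) t := by
      have h : HasDerivAt z (τ • w) t := by
        exact ((((hasDerivAt_id t).smul_const w).const_add h).const_smul τ).congr_deriv (by simp)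
      exact (S.hasFDerivAt.comp_hasDerivAt t h).congr_deriv (by simp)
    have hpoly : HasDerivAt (fun t => τ ^ 2 * (t * Φ h w + t ^ 2 / 2 * Φ w w))
        (τ ^ 2 * (Φ h w + t * Φ w w)) t := by
      refine ((((hasDerivAt_id t).mul_const (Φ h w)).add
        ((((hasDerivAt_id t).pow 2).div_const 2).mul_const (Φ w w))).const_mul (τ ^ 2)).congr_deriv
        ?_
      simp
    have hRd := ((hP.clm_apply ((hasDerivAt_const t c).sub hzd)).sub
      (hY''.clm_apply (hasDerivAt_const t (A c)))).add hpoly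
    rw [show deriv R t = _ from hRd.deriv]
    have hBe : s.dG (U t) = (B : X →L[ℝ] Y) := hB.fderiv
    have hkt : k (U t) = c - B.symm (A c) := by simp [hk, hBe]
    have hqn : ‖q‖ ≤ M * (τ * ‖w‖) := by
      have h := hP.hasFDerivAt.le_of_lip' (show 0 ≤ M * (τ * ‖w‖) by positivity)
        (eventually_of_mem hnh fun x hx => by
          rw [Real.norm_eq_abs]
          exact (hPlip t htc x hx).1)
      simpa using h
    have key : q (c - S (z t)) + dN (U t) (0 - τ • S w) -
        (q.comp (B.symm : Y →L[ℝ] X) (A c) + dN (s.G (U t)) 0) +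
        τ ^ 2 * (Φ h w + t * Φ w w) =
        q (k (U t) - S (z t)) - τ * ((dN (U t) - α - Q (z t)) (S w)) := by
      rw [hkt, sub_apply, sub_apply, hαS]
      simp [hΦ, hz]
      ring
    show ‖q (c - S (z t)) + dN (U t) (0 - τ • S w) -
        (q.comp (B.symm : Y →L[ℝ] X) (A c) + dN (s.G (U t)) 0) +
        τ ^ 2 * (Φ h w + t * Φ w w)‖ ≤ _
    rw [key, Real.norm_eq_abs]
    refine (abs_sub _ _).trans ?_
    have k1 : |q (k (U t) - S (z t))| ≤ M * (τ * ‖w‖) * (ε * (τ * l)) :=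
      (q.le_opNorm _).trans (mul_le_mul hqn (hke t htc) (norm_nonneg _) (by positivity))
    have k2 : |τ * ((dN (U t) - α - Q (z t)) (S w))| ≤ τ * (ε * (τ * l) * W) := by
      rw [abs_mul, abs_of_pos hτ0]
      refine mul_le_mul_of_nonneg_left (((dN (U t) - α - Q (z t)).le_opNorm _).trans ?_) hτ0.le
      exact mul_le_mul_of_nonneg_right (hQe t htc) (norm_nonneg _)
    refine (add_le_add k1 k2).trans_eq ?_
    ring
  have hint : |R 1 - R 0| ≤ ε * τ ^ 2 * (l * (M * ‖w‖ + W)) := by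
    have hac : AbsolutelyContinuousOnInterval R 0 1 :=
      LipschitzOnWith.absolutelyContinuousOnInterval
        (by rw [Set.uIcc_of_le zero_le_one]; exact hRlip)
    rw [← hac.integral_deriv_eq_sub, ← Real.norm_eq_abs]
    simpa using intervalIntegral.norm_integral_le_of_norm_le_const_ae hderiv
  have hend : ∀ t ∈ Set.Icc (0 : ℝ) 1, |dN (U t) (S (z t)) - τ ^ 2 * Φ (h + t • w) (h + t • w)|
      ≤ ε * τ ^ 2 * (l * (‖S‖ * l)) := fun t ht => by
    have e : dN (U t) (S (z t)) - τ ^ 2 * Φ (h + t • w) (h + t • w) =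
        (dN (U t) - α - Q (z t)) (S (z t)) := by
      rw [sub_apply, sub_apply, hαS]
      simp only [hz, hΦ, map_smul, smul_apply, smul_eq_mul]
      ring
    rw [e]
    refine ((dN (U t) - α - Q (z t)).le_opNorm _).trans ?_
    refine (mul_le_mul (hQe t ht) ((S.le_opNorm _).trans
      (mul_le_mul_of_nonneg_left (hzn t ht) (norm_nonneg S))) (norm_nonneg _)
      (by positivity)).trans_eq ?_
    ring
  have h0 := hend 0 (by simp)
  have h1 := hend 1 (by simp)
  have e6 : F (y + τ • (h + w)) - F (y + τ • h) - τ ^ 2 * (Φ w h + Φ w w / 2) =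
      (R 1 - R 0) + (dN (U 1) (S (z 1)) - τ ^ 2 * Φ (h + (1 : ℝ) • w) (h + (1 : ℝ) • w))
      - (dN (U 0) (S (z 0)) - τ ^ 2 * Φ (h + (0 : ℝ) • w) (h + (0 : ℝ) • w)) := by
    simp only [hF, hR, hΦ, hU, hz, map_sub, map_add, map_smul, add_apply, one_smul, zero_smul,
      add_zero, smul_apply, smul_eq_mul]
    ring
  have hb : |F (y + τ • (h + w)) - F (y + τ • h) - τ ^ 2 * (Φ w h + Φ w w / 2)| ≤
      ε * τ ^ 2 * C := by
    rw [e6]
    refine (abs_sub _ _).trans ?_
    have := abs_add_le (R 1 - R 0)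
      (dN (U 1) (S (z 1)) - τ ^ 2 * Φ (h + (1 : ℝ) • w) (h + (1 : ℝ) • w))
    rw [hC]
    linarith
  exact hb

end Local

/-- Second order data at a point. -/
structure Jet (y : X) (A : X ≃L[ℝ] Y) (Q : X →L[ℝ] X →L[ℝ] ℝ) (E : X →L[ℝ] X →L[ℝ] Y) : Prop where
  ne : y ≠ 0
  hA : HasFDerivAt s.G (A : X →L[ℝ] Y) y
  hH : HasFDerivAt s.H (A.symm : Y →L[ℝ] X) (s.G y)
  hQ : HasFDerivAt (fun z : X => dN z) Q y
  hE : HasFDerivAt (fun z => s.dG z) E y
  diffG : ∀ᶠ u in 𝓝 y, DifferentiableAt ℝ s.G u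

namespace Jet

variable {s} {y : X} {A : X ≃L[ℝ] Y} {Q : X →L[ℝ] X →L[ℝ] ℝ} {E : X →L[ℝ] X →L[ℝ] Y}
  (hj : s.Jet y A Q E)
include hj

lemma dG_eq : s.dG y = (A : X →L[ℝ] Y) := hj.hA.fderiv

lemma self_eq : A y = s.G y := by
  have := s.dG_self_of_differentiable hj.hA.differentiableAt
  rw [hj.hA.fderiv] at this
  exact this

lemma dN_A (hX : SmoothNorm X 1) (hY : SmoothNorm Y 1) (c : X) :
    dN (s.G y) (A c) = dN y c := by
  have hGy : s.G y ≠ 0 := by rw [← norm_ne_zero_iff, s.norm_G, norm_ne_zero_iff]; exact hj.ne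
  have h : HasFDerivAt (fun z => ‖s.G z‖) ((dN (s.G y)).comp (A : X →L[ℝ] Y)) y :=
    (hY.hasFDerivAt le_rfl hGy).comp y hj.hA
  simp only [s.norm_G] at h
  exact DFunLike.congr_fun (h.unique (hX.hasFDerivAt le_rfl hj.ne)) c

lemma Q_radial (hX : SmoothNorm X 1) : (∀ k, Q y k = 0) ∧ ∀ h, Q h y = 0 := by
  have := ddN_radial hj.ne hj.hQ.differentiableAt
    ((eventually_ne_nhds hj.ne).mono fun z hz => hX.differentiableAt le_rfl hz)
  rwa [show ddN y = Q from hj.hQ.fderiv] at this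

lemma Q_symm (hX : SmoothNorm X 1) (a b : X) : Q a b = Q b a :=
  second_derivative_symmetric_of_eventually_of_real
    ((eventually_ne_nhds hj.ne).mono fun _ hz => hX.hasFDerivAt le_rfl hz) hj.hQ a b

lemma E_symm (a b : X) : E a b = E b a :=
  second_derivative_symmetric_of_eventually_of_real
    (hj.diffG.mono fun _ hz => hz.hasFDerivAt) hj.hE a b

lemma hasDerivAt_dN_line (h : X) : HasDerivAt (fun t : ℝ => dN (y + t • h)) (Q h) 0 :=
  hj.hQ.comp_hasDerivAt_of_eq 0
    (by simpa using ((hasDerivAt_id (0 : ℝ)).smul_const h).const_add y) (by simp)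

lemma hasDerivAt_dG_line (h : X) : HasDerivAt (fun t : ℝ => s.dG (y + t • h)) (E h) 0 :=
  hj.hE.comp_hasDerivAt_of_eq 0
    (by simpa using ((hasDerivAt_id (0 : ℝ)).smul_const h).const_add y) (by simp)

lemma E_self : ∀ c, E y c = 0 := by
  have h2 : (fun t : ℝ => s.dG (y + t • y)) =ᶠ[𝓝 0] fun _ => s.dG y := by
    filter_upwards [eventually_gt_nhds (show (-1 : ℝ) < 0 by norm_num)] with t ht
    rw [show y + t • y = (1 + t) • y by rw [add_smul, one_smul]]
    show fderiv ℝ s.G ((1 + t) • y) = fderiv ℝ s.G y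
    rw [(s.hasFDerivAt_G_smul hj.hA (by linarith)).fderiv, hj.hA.fderiv]
  intro c
  rw [(hj.hasDerivAt_dG_line y).unique ((hasDerivAt_const (0 : ℝ) _).congr_of_eventuallyEq h2)]
  rfl

lemma Q_nonneg (hX : SmoothNorm X 1) (k : X) : 0 ≤ Q k k := by
  have hc : ∀ᶠ t in 𝓝[>] (0 : ℝ), 0 ≤ t⁻¹ • (dN (y + (0 + t) • k) k - dN (y + (0 : ℝ) • k) k) := by
    have hne : ∀ᶠ t in 𝓝 (0 : ℝ), y + t • k ≠ 0 :=
      ((show Continuous fun t : ℝ => y + t • k by fun_prop).tendsto' 0 y
        (by simp)).eventually_ne hj.ne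
    filter_upwards [hne.filter_mono nhdsWithin_le_nhds, self_mem_nhdsWithin]
      with t ht (ht0 : 0 < t)
    have := (isSub_dN (hX.differentiableAt le_rfl hj.ne)).mono
      (isSub_dN (hX.differentiableAt le_rfl ht))
    simp only [add_sub_cancel_left, sub_apply, map_smul, smul_eq_mul] at this
    simp only [zero_add, zero_smul, add_zero, smul_eq_mul]
    exact mul_nonneg (inv_nonneg.2 ht0.le) (by nlinarith)
  have hd : HasDerivAt (fun t : ℝ => dN (y + t • k) k) (Q k k) 0 := by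
    simpa using (hj.hasDerivAt_dN_line k).clm_apply (hasDerivAt_const (0 : ℝ) k)
  exact le_of_tendsto_of_tendsto tendsto_const_nhds
    (hd.tendsto_slope_zero.mono_left
      (nhdsWithin_mono 0 fun t (ht : t ∈ Set.Ioi (0 : ℝ)) => ne_of_gt ht)) hc

variable {v : X} {ρ M : ℝ} [FiniteDimensional ℝ X] [FiniteDimensional ℝ Y]
  (L : s.Local v ρ M) (hu : ‖y - v‖ < ρ / 4)
include L hu

lemma dN_E (hX : SmoothNorm X 1) (hY : SmoothNorm Y 1) (h c : X) : dN (s.G y) (E h c) = 0 :=
  (L.pullback_dir hX hY hu hj.hA (hj.hasDerivAt_dN_line h) (hj.hasDerivAt_dG_line h)).1 c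

lemma tangent (hX : SmoothNorm X 1) (hY : SmoothNorm Y 1) (h c : X) :
    dN y (A.symm (E h c)) = 0 := by
  rw [← hj.dN_A hX hY, A.apply_symm_apply]
  exact hj.dN_E L hu hX hY h c

/-- The second derivative of the target norm at the image. -/
lemma hasFDerivAt_dNY (hX : SmoothNorm X 1) (hY : SmoothNorm Y 1) :
    HasFDerivAt (fun z : Y => dN z) (Q.bilinearComp (A.symm : Y →L[ℝ] X) (A.symm : Y →L[ℝ] X))
      (s.G y) := by
  have : CompleteSpace X := FiniteDimensional.complete ℝ X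
  have : CompleteSpace Y := FiniteDimensional.complete ℝ Y
  have hi : HasFDerivAt (ContinuousLinearMap.inverse : (X →L[ℝ] Y) → Y →L[ℝ] X)
      (fderiv ℝ ContinuousLinearMap.inverse (A : X →L[ℝ] Y)) (A : X →L[ℝ] Y) :=
    ((contDiffAt_map_inverse (n := 1) A).differentiableAt one_ne_zero).hasFDerivAt
  have hfull : DifferentiableAt ℝ (fun z : Y => dN z) (s.G y) := by
    have e0 : s.H (s.G y) = y := s.H_G y
    have h1 : HasFDerivAt (fun z : Y => dN (s.H z)) (Q.comp (A.symm : Y →L[ℝ] X)) (s.G y) :=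
      (show HasFDerivAt (fun z : X => dN z) Q (s.H (s.G y)) by rw [e0]; exact hj.hQ).comp _ hj.hH
    have h2 : HasFDerivAt (fun z : Y => s.dG (s.H z)) (E.comp (A.symm : Y →L[ℝ] X)) (s.G y) :=
      (show HasFDerivAt (fun z : X => s.dG z) E (s.H (s.G y)) by rw [e0]; exact hj.hE).comp _ hj.hH
    have h3 := (show HasFDerivAt (ContinuousLinearMap.inverse : (X →L[ℝ] Y) → Y →L[ℝ] X) _
      (s.dG (s.H (s.G y))) by rw [e0, hj.dG_eq]; exact hi).comp (s.G y) h2
    refine ((h1.clm_comp h3).differentiableAt).congr_of_eventuallyEq ?_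
    have hmem : ∀ᶠ z in 𝓝 (s.G y), ‖s.H z - v‖ < ρ := by
      filter_upwards [(hj.hH.continuousAt).tendsto.eventually_mem (isOpen_ball.mem_nhds
        (show s.H (s.G y) ∈ ball v ρ by rw [e0]; exact mem_ball_iff_norm.2 (L.mem_X hu)))] with z hz
      exact mem_ball_iff_norm.1 hz
    filter_upwards [hmem] with z hz
    obtain ⟨B, hB, -⟩ := L.exists_equiv hz
    ext c
    simp only [Function.comp_apply, ContinuousLinearMap.coe_comp]
    rw [show s.dG (s.H z) = (B : X →L[ℝ] Y) from hB.fderiv, ContinuousLinearMap.inverse_equiv]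
    have := L.dN_dG hX hY hz (B.symm c)
    rw [show s.dG (s.H z) = (B : X →L[ℝ] Y) from hB.fderiv, s.G_H] at this
    simpa using this
  refine hfull.hasFDerivAt.congr_fderiv ?_
  refine ContinuousLinearMap.ext fun a => ?_
  have h1 : HasDerivAt (fun t : ℝ => dN (s.G (y + t • A.symm a)))
      (fderiv ℝ (fun z : Y => dN z) (s.G y) (A (A.symm a))) 0 :=
    hfull.hasFDerivAt.comp_hasDerivAt_of_eq 0 (hj.hA.comp_hasDerivAt_of_eq 0
      (by simpa using ((hasDerivAt_id (0 : ℝ)).smul_const (A.symm a)).const_add y) (by simp))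
      (by simp)
  have h2 := h1.unique (L.pullback_dir hX hY hu hj.hA (hj.hasDerivAt_dN_line (A.symm a))
    (hj.hasDerivAt_dG_line (A.symm a))).2
  rw [A.apply_symm_apply] at h2
  rw [h2]
  rfl

/-- The identity obtained by differentiating the isometry property of the derivative. -/
lemma identity (hX : SmoothNorm X 1) (hY : SmoothNorm Y 1) {ξ : X} (hξ : dN y ξ = 0)
    (hξ0 : ξ ≠ 0) :
    ∃ δ : ℝ, ∀ η, dN y η = 0 → dN ξ (A.symm (E η ξ)) = Q η ξ * δ := by
  have hy0 := hj.ne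
  have hn : 0 < ‖y‖ := norm_pos_iff.2 hy0
  have hnA : ∀ a, dN y a = 0 → ‖A a‖ = ‖a‖ := fun a ha => by
    have := s.norm_dG_of_differentiable hy0 hj.hA.differentiableAt
      (hX.differentiableAt le_rfl hy0) ha
    rwa [hj.hA.fderiv] at this
  obtain ⟨β, hβ1, hβ2⟩ := exists_dual_vector'' ℝ (A ξ)
  have hβξ : β (A ξ) = ‖ξ‖ := by rw [← hnA ξ hξ]; exact hβ2
  have hβle : ∀ z, β z ≤ ‖z‖ := fun z =>
    (Real.le_norm_self _).trans ((β.le_of_opNorm_le hβ1 z).trans_eq (one_mul _))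
  have hp : ∀ h, dN y h = 0 → β (A h) = dN ξ h := by
    intro h hh
    have hl : HasDerivAt (fun t : ℝ => ξ + t • h) h 0 := by
      simpa using ((hasDerivAt_id (0 : ℝ)).smul_const h).const_add ξ
    have hd : HasDerivAt (fun t : ℝ => ‖ξ + t • h‖ - β (A (ξ + t • h)))
        (dN ξ h - β (A h)) 0 :=
      ((hX.hasFDerivAt le_rfl hξ0).comp_hasDerivAt_of_eq 0 hl (by simp)).sub
        ((β.comp (A : X →L[ℝ] Y)).hasFDerivAt.comp_hasDerivAt 0 hl)
    have hmin : IsLocalMin (fun t : ℝ => ‖ξ + t • h‖ - β (A (ξ + t • h))) 0 := by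
      refine Eventually.of_forall fun t => ?_
      simp only [zero_smul, add_zero, hβξ, sub_self]
      rw [sub_nonneg]
      refine (hβle _).trans_eq (hnA _ ?_)
      simp [hξ, hh]
    linarith [hmin.hasDerivAt_eq_zero hd]
  refine ⟨(β (s.G y) - dN ξ y) / ‖y‖, fun η hη => ?_⟩
  set q := Q η ξ with hqdef
  have hl : HasDerivAt (fun t : ℝ => y + t • η) η 0 := by
    simpa using ((hasDerivAt_id (0 : ℝ)).smul_const η).const_add y
  have hdn : HasDerivAt (fun t : ℝ => dN (y + t • η) ξ) q 0 := by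
    simpa using (hj.hasDerivAt_dN_line η).clm_apply (hasDerivAt_const (0 : ℝ) ξ)
  have hnorm : HasDerivAt (fun t : ℝ => ‖y + t • η‖) 0 0 := by
    have h := (hX.hasFDerivAt le_rfl hy0).comp_hasDerivAt_of_eq 0 hl (by simp)
    rwa [hη] at h
  set r : ℝ → ℝ := fun t => dN (y + t • η) ξ * ‖y + t • η‖⁻¹ with hr
  have hrd : HasDerivAt r (q / ‖y‖) 0 := by
    refine (hdn.mul (hnorm.inv (by simp [hy0]))).congr_deriv ?_
    simp [div_eq_mul_inv]
  have hr0 : r 0 = 0 := by simp [hr, hξ]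
  set S : ℝ → X := fun t => ξ - r t • (y + t • η) with hS
  have hS0 : S 0 = ξ := by simp [hS, hr0]
  have hSd : HasDerivAt S (-((q / ‖y‖) • y)) 0 := by
    refine ((hrd.smul hl).const_sub ξ).congr_deriv ?_
    simp [hr0]
  have h2 : HasDerivAt (fun t => ‖S t‖) (dN ξ (-((q / ‖y‖) • y))) 0 :=
    (hX.hasFDerivAt le_rfl hξ0).comp_hasDerivAt_of_eq 0 hSd hS0.symm
  have hGd : HasDerivAt (fun t : ℝ => β (s.G (y + t • η))) (β (A η)) 0 :=
    (β.hasFDerivAt.comp y hj.hA).comp_hasDerivAt_of_eq 0 hl (by simp)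
  have hDd : HasDerivAt (fun t : ℝ => β (s.dG (y + t • η) ξ)) (β (E η ξ)) 0 := by
    have h : HasDerivAt (fun t : ℝ => s.dG (y + t • η) ξ) (E η ξ) 0 := by
      simpa using (hj.hasDerivAt_dG_line η).clm_apply (hasDerivAt_const (0 : ℝ) ξ)
    exact β.hasFDerivAt.comp_hasDerivAt 0 h
  have h1 : HasDerivAt (fun t : ℝ => β (s.dG (y + t • η) ξ) - r t * β (s.G (y + t • η)))
      (β (E η ξ) - q / ‖y‖ * β (s.G y)) 0 := by
    refine (hDd.sub (hrd.mul hGd)).congr_deriv ?_
    simp [hr0]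
  have hmin : IsLocalMin
      (fun t => ‖S t‖ - (β (s.dG (y + t • η) ξ) - r t * β (s.G (y + t • η)))) 0 := by
    have hl0 : Tendsto (fun t : ℝ => y + t • η) (𝓝 0) (𝓝 y) :=
      hl.continuousAt.tendsto.trans (by simp)
    filter_upwards [hl0.eventually hj.diffG,
      hl.continuousAt.eventually_ne (show y + (0 : ℝ) • η ≠ 0 by simpa using hy0)] with t ht htne
    simp only [zero_smul, add_zero, hS0, hr0, zero_mul, sub_zero, hj.dG_eq,
      ContinuousLinearEquiv.coe_coe, hβξ, sub_self]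
    rw [sub_nonneg]
    have hz : dN (y + t • η) (S t) = 0 := by
      rw [hS, map_sub, map_smul, hX.dN_self le_rfl htne, hr, smul_eq_mul, mul_assoc,
        inv_mul_cancel₀ (norm_ne_zero_iff.2 htne), mul_one, sub_self]
    have hnd := s.norm_dG_of_differentiable htne ht (hX.differentiableAt le_rfl htne) hz
    refine le_trans (le_of_eq ?_) ((hβle (s.dG (y + t • η) (S t))).trans_eq hnd)
    rw [hS, map_sub, map_smul, map_sub, map_smul, smul_eq_mul,
      s.dG_self_of_differentiable ht]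
  have h := hmin.hasDerivAt_eq_zero (h2.sub h1)
  have h3 := hp (A.symm (E η ξ)) (hj.tangent L hu hX hY η ξ)
  rw [A.apply_symm_apply] at h3
  rw [h3, map_neg, map_smul, smul_eq_mul] at h
  rw [mul_div_assoc', eq_div_iff hn.ne']
  field_simp at h
  linarith

/-- The second derivative of the extension is totally symmetric in the form. -/
lemma total (hX : SmoothNorm X 1) (hY : SmoothNorm Y 1) (a b c : X) :
    Q a (A.symm (E b c)) = Q b (A.symm (E a c)) := by
  have : CompleteSpace X := FiniteDimensional.complete ℝ X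
  have : CompleteSpace Y := FiniteDimensional.complete ℝ Y
  have hM := L.M_nonneg
  set α := dN y with hαdef
  set S : X →L[ℝ] X := (A.symm : Y →L[ℝ] X).comp (E.flip c) with hSdef
  have hSz : ∀ z, S z = A.symm (E z c) := fun z => rfl
  rw [← hSz, ← hSz]
  set F : X → ℝ := fun u => dN u c - dN (s.G u) (A c) with hF
  set Φ : X → X → ℝ := fun z z' => Q z (S z') with hΦ
  have hαS : ∀ z, α (S z) = 0 := fun z => hj.tangent L hu hX hY z c
  -- the first order expansion of the defect of the inverse derivative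
  set k : X → X := fun u => (s.dG u).inverse (s.dG u c - A c) with hk
  have hkd : HasFDerivAt k S y := by
    have hi : HasFDerivAt (fun u => (s.dG u).inverse)
        ((fderiv ℝ ContinuousLinearMap.inverse (A : X →L[ℝ] Y)).comp E) y :=
      (show HasFDerivAt (ContinuousLinearMap.inverse : (X →L[ℝ] Y) → Y →L[ℝ] X) _ (s.dG y) by
        rw [hj.dG_eq]
        exact ((contDiffAt_map_inverse (n := 1) A).differentiableAt one_ne_zero).hasFDerivAt).comp
          y hj.hE
    have hd : HasFDerivAt (fun u => s.dG u c - A c) (E.flip c) y := by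
      simpa using (hj.hE.clm_apply (hasFDerivAt_const c y)).sub_const (A c)
    refine (hi.clm_apply hd).congr_fderiv ?_
    refine ContinuousLinearMap.ext fun z => ?_
    simp [hj.dG_eq, hSz]
  have hky : k y = 0 := by simp [hk, hj.dG_eq]
  -- the expansion along a segment
  have seg : ∀ h w : X, Tendsto (fun τ : ℝ => (F (y + τ • (h + w)) - F (y + τ • h)) / τ ^ 2)
      (𝓝[>] 0) (𝓝 (Φ w h + Φ w w / 2)) := by
    intro h w
    rw [Metric.tendsto_nhds]
    intro e he
    set l := ‖h‖ + ‖w‖ with hl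
    have hl0 : 0 ≤ l := by positivity
    set W := ‖S w‖ with hW
    set C := l * (M * ‖w‖ + W) + 2 * (l * (‖S‖ * l)) with hC
    have hC0 : 0 ≤ C := by positivity
    set ε := e / (C + 1) with hε
    have hε0 : 0 < ε := by positivity
    obtain ⟨δ₁, hδ₁, hk1⟩ := Metric.eventually_nhds_iff.1
      ((hasFDerivAt_iff_isLittleO.1 hkd).def hε0)
    obtain ⟨δ₂, hδ₂, hq1⟩ := Metric.eventually_nhds_iff.1
      ((hasFDerivAt_iff_isLittleO.1 hj.hQ).def hε0)
    set δ := min (min δ₁ δ₂) (ρ / 4 - ‖y - v‖) with hδ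
    have hδ0 : 0 < δ := lt_min (lt_min hδ₁ hδ₂) (by linarith)
    have hs : ∀ᶠ τ in 𝓝[>] (0 : ℝ), τ * l < δ :=
      (((show Continuous fun τ : ℝ => τ * l by fun_prop).tendsto' 0 0 (by simp)).eventually_lt_const
        hδ0).filter_mono nhdsWithin_le_nhds
    filter_upwards [hs, self_mem_nhdsWithin] with τ hτ (hτ0 : 0 < τ)
    -- the curve
    have hzn : ∀ t ∈ Set.Icc (0 : ℝ) 1, ‖τ • (h + t • w)‖ ≤ τ * l := by
      intro t ht
      simp only [norm_smul, Real.norm_of_nonneg hτ0.le, hl]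
      refine mul_le_mul_of_nonneg_left ((norm_add_le _ _).trans (add_le_add le_rfl ?_)) hτ0.le
      rw [norm_smul, Real.norm_of_nonneg ht.1]
      exact mul_le_of_le_one_left (norm_nonneg w) ht.2
    have hmin := min_le_left (min δ₁ δ₂) (ρ / 4 - ‖y - v‖)
    have hb := L.segment_bound hX hY (A := A) (α := α) (Q := Q) (S := S) hαS c h w hτ0 hε0.le
      (y := y)
      (fun t ht => by
        have h1 := hzn t ht
        have h2 : ‖y + τ • (h + t • w) - v‖ ≤ ‖τ • (h + t • w)‖ + ‖y - v‖ := by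
          rw [show y + τ • (h + t • w) - v = τ • (h + t • w) + (y - v) by abel]
          exact norm_add_le _ _
        have := min_le_right (min δ₁ δ₂) (ρ / 4 - ‖y - v‖)
        linarith)
      (fun t ht => by
        have h1 := hzn t ht
        have h2 := hk1 (show dist (y + τ • (h + t • w)) y < δ₁ by
          rw [dist_eq_norm, add_sub_cancel_left]
          linarith [hmin.trans (min_le_left δ₁ δ₂)])
        rw [hky, sub_zero, add_sub_cancel_left] at h2
        exact h2.trans (mul_le_mul_of_nonneg_left h1 hε0.le))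
      (fun t ht => by
        have h1 := hzn t ht
        have h2 := hq1 (show dist (y + τ • (h + t • w)) y < δ₂ by
          rw [dist_eq_norm, add_sub_cancel_left]
          linarith [hmin.trans (min_le_right δ₁ δ₂)])
        rw [add_sub_cancel_left] at h2
        exact h2.trans (mul_le_mul_of_nonneg_left h1 hε0.le))
    change |F (y + τ • (h + w)) - F (y + τ • h) - τ ^ 2 * (Φ w h + Φ w w / 2)| ≤ ε * τ ^ 2 * C at hb
    rw [Real.dist_eq, show (F (y + τ • (h + w)) - F (y + τ • h)) / τ ^ 2 - (Φ w h + Φ w w / 2) =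
      (F (y + τ • (h + w)) - F (y + τ • h) - τ ^ 2 * (Φ w h + Φ w w / 2)) / τ ^ 2 by
        field_simp, abs_div, abs_of_pos (pow_pos hτ0 2), div_lt_iff₀ (pow_pos hτ0 2)]
    refine hb.trans_lt ?_
    have : ε * (C + 1) = e := by rw [hε]; field_simp
    nlinarith [mul_pos hε0 (pow_pos hτ0 2)]
  have h1 := seg b a
  have h2 := seg 0 b
  have h3 := seg 0 (b + a)
  have h4 := tendsto_nhds_unique ((h1.add h2).congr fun τ => by simp; ring) h3
  simp [hΦ] at h4
  linarith

/-- A nondegenerate point has no second derivative of the extension. -/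
lemma E_eq_zero (hX : SmoothNorm X 1) (hY : SmoothNorm Y 1) (hdim : 3 ≤ Module.finrank ℝ X)
    (hnd : Nondeg y Q) : E = 0 := by
  have hny : dN y y ≠ 0 := by rw [hX.dN_self le_rfl hj.ne]; exact norm_ne_zero_iff.2 hj.ne
  let H : Submodule ℝ X := LinearMap.ker (dN y).toLinearMap
  have hH : ∀ a : H, dN y (a : X) = 0 := fun a => a.2
  have hdimH : 2 ≤ Module.finrank ℝ H := by
    have h1 := LinearMap.finrank_range_add_finrank_ker (dN y).toLinearMap
    have h2 : Module.finrank ℝ (LinearMap.range (dN y).toLinearMap) ≤ 1 :=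
      (Submodule.finrank_le _).trans (Module.finrank_self ℝ).le
    show 2 ≤ Module.finrank ℝ (LinearMap.ker (dN y).toLinearMap)
    omega
  let Q₀ : H →ₗ[ℝ] H →ₗ[ℝ] ℝ :=
    LinearMap.mk₂ ℝ (fun a b : H => Q (a : X) (b : X)) (by simp) (by simp) (by simp) (by simp)
  let B₀ : H →ₗ[ℝ] H →ₗ[ℝ] H :=
    LinearMap.mk₂ ℝ
      (fun a b : H => (⟨A.symm (E (a : X) (b : X)), hj.tangent L hu hX hY _ _⟩ : H))
      (fun a a' b => Subtype.ext (by simp)) (fun c a b => Subtype.ext (by simp))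
      (fun a b b' => Subtype.ext (by simp)) (fun c a b => Subtype.ext (by simp))
  have hid : ∀ ξ : H, ∃ δ : ℝ, ξ ≠ 0 → ∀ η : H,
      dN (ξ : X) (A.symm (E η ξ)) = Q η ξ * δ := fun ξ => by
    by_cases hξ : ξ = 0
    · exact ⟨0, fun h => absurd hξ h⟩
    · obtain ⟨δ, hδ⟩ := hj.identity L hu hX hY (hH ξ) (fun e => hξ (Subtype.ext e))
      exact ⟨δ, fun _ η => hδ η (hH η)⟩
  choose δ hδ using hid
  have hB : B₀ = 0 := rigid hdimH Q₀ (fun a b => hj.Q_symm hX a b)
    (fun a ha => hnd _ a.2 fun e => ha (Subtype.ext e)) B₀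
    (fun a b => Subtype.ext (congrArg A.symm (hj.E_symm a b)))
    (fun a b c => hj.total L hu hX hY a b c)
    (fun ξ => ((dN (ξ : X)).comp H.subtypeL).toLinearMap) δ
    (fun ξ hξ => by
      show 0 < dN (ξ : X) (ξ : X)
      have : (ξ : X) ≠ 0 := fun e => hξ (Subtype.ext e)
      rw [hX.dN_self le_rfl this]
      exact norm_pos_iff.2 this)
    (fun ξ hξ v w => by
      have h0 : (ξ : X) ≠ 0 := fun e => hξ (Subtype.ext e)
      show Tendsto (fun t : ℝ => dN ((ξ : X) + t • (v : X)) (w : X)) (𝓝 0) (𝓝 (dN (ξ : X) w))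
      have hl : Tendsto (fun t : ℝ => (ξ : X) + t • (v : X)) (𝓝 0) (𝓝 (ξ : X)) :=
        (show Continuous fun t : ℝ => (ξ : X) + t • (v : X) by fun_prop).tendsto' 0 _ (by simp)
      exact ((ContinuousLinearMap.apply ℝ ℝ (w : X)).continuous.tendsto _).comp
        ((hX.continuousAt_dN le_rfl h0).tendsto.comp hl))
    (fun ξ hξ η => hδ ξ hξ η)
  have hE0 : ∀ a b, dN y a = 0 → dN y b = 0 → E a b = 0 := fun a b ha hb => by
    have h := congr_arg Subtype.val (LinearMap.congr_fun₂ hB ⟨a, ha⟩ ⟨b, hb⟩)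
    change A.symm (E a b) = 0 at h
    simpa using h
  have hyr : ∀ z, E z y = 0 := fun z => by rw [hj.E_symm]; exact hj.E_self z
  refine ContinuousLinearMap.ext fun a => ContinuousLinearMap.ext fun b => ?_
  have hp : ∀ z : X, dN y (z - (dN y z / dN y y) • y) = 0 := fun z => by simp [hny]
  have h := hE0 _ _ (hp a) (hp b)
  simpa [hj.E_self, hyr] using h

end Jet

end SphIso

end Vale.Agent.P084
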