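import Vale.Agent.P084.Strict.Sign

/-!
P084 (Tingley's problem): strictly convex spaces of finite dimension at least three have the
Mazur–Ulam property.
-/

namespace Vale.Agent.P084

open Filter Topology Metric MeasureTheory

variable {X Y : Type*} [NormedAddCommGroup X] [NormedSpace ℝ X] [NormedAddCommGroup Y]
  [NormedSpace ℝ Y]

/-- The second derivative of the norm is symmetric and positive semidefinite. -/
lemma second_facts (hX : SmoothNorm X 1) {u : X} (hu : u ≠ 0) {Q : X →L[ℝ] X →L[ℝ] ℝ}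
    (hQ : HasFDerivAt (fun z : X => dN z) Q u) :
    (∀ a b, Q a b = Q b a) ∧ ∀ k, 0 ≤ Q k k := by
  refine ⟨second_derivative_symmetric_of_eventually_of_real
    ((eventually_ne_nhds hu).mono fun _ hz => hX.hasFDerivAt le_rfl hz) hQ, fun k => ?_⟩
  have hl : HasDerivAt (fun t : ℝ => u + t • k) k 0 := by
    simpa using ((hasDerivAt_id (0 : ℝ)).smul_const k).const_add u
  have hd : HasDerivAt (fun t : ℝ => dN (u + t • k) k) (Q k k) 0 := by
    simpa using (hQ.comp_hasDerivAt_of_eq 0 hl (by simp)).clm_apply (hasDerivAt_const (0 : ℝ) k)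
  refine ge_of_tendsto (hd.tendsto_slope_zero.mono_left
    (nhdsWithin_mono 0 fun t (ht : t ∈ Set.Ioi (0 : ℝ)) => ne_of_gt ht)) ?_
  filter_upwards [(hl.continuousAt.eventually_ne (by simpa using hu)).filter_mono nhdsWithin_le_nhds,
    self_mem_nhdsWithin] with t ht (ht0 : 0 < t)
  have := (isSub_dN (hX.differentiableAt le_rfl hu)).mono (isSub_dN (hX.differentiableAt le_rfl ht))
  simp only [add_sub_cancel_left, sub_apply, map_smul, smul_eq_mul] at this
  simp only [zero_add, zero_smul, add_zero, smul_eq_mul]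
  exact mul_nonneg (inv_nonneg.2 ht0.le) (by nlinarith)

/-- A twice differentiable point is either nondegenerate or degenerate. -/
lemma nondeg_or_deg (hX : SmoothNorm X 1) {u : X} (hu : u ≠ 0) {Q : X →L[ℝ] X →L[ℝ] ℝ}
    (hQ : HasFDerivAt (fun z : X => dN z) Q u) : Nondeg u Q ∨ DegPt u := by
  by_cases h : Nondeg u Q
  · exact Or.inl h
  · simp only [Nondeg, not_forall, not_lt] at h
    obtain ⟨k, hk, hk0, hkk⟩ := h
    exact Or.inr ⟨Q, hQ, k, hk, hk0, le_antisymm hkk ((second_facts hX hu hQ).2 k)⟩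

/-- The gradient map of half the squared norm has open image, so degenerate points cannot fill an
open set. -/
lemma not_ae_deg [FiniteDimensional ℝ X] [MeasurableSpace X] [BorelSpace X] [Nontrivial X]
    (hs : StrictNorm X) (hX : SmoothNorm X 1) {u₀ : X} {r M : ℝ} (hr : 0 < r) (hr0 : r ≤ ‖u₀‖)
    (hM : 0 ≤ M) (hlip : ∀ a ∈ ball u₀ r, ∀ b ∈ ball u₀ r, ‖dN b - dN a‖ ≤ M * ‖b - a‖) :
    ¬∀ᵐ u ∂(vol X), u ∈ ball u₀ r → DegPt u := by
  intro hae
  have : ProperSpace X := FiniteDimensional.proper_real X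
  obtain ⟨R⟩ := nonempty_riesz (E := X)
  have hne : ∀ a ∈ ball u₀ r, a ≠ 0 := fun a ha e => by
    rw [mem_ball_iff_norm, e, zero_sub, norm_neg] at ha
    linarith
  set J : X → X := fun u => R.inv (‖u‖ • dN u) with hJ
  have hJlip : LipschitzOnWith (Real.toNNReal (‖R.inv‖ * ((‖u₀‖ + r) * M + 1))) J (ball u₀ r) := by
    refine LipschitzOnWith.of_dist_le' fun a ha b hb => ?_
    rw [dist_eq_norm, dist_eq_norm, hJ, ← map_sub, mul_assoc]
    refine (R.inv.le_opNorm _).trans (mul_le_mul_of_nonneg_left ?_ (norm_nonneg _))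
    rw [show ‖a‖ • dN a - ‖b‖ • dN b = ‖a‖ • (dN a - dN b) + (‖a‖ - ‖b‖) • dN b by module]
    refine (norm_add_le _ _).trans ?_
    rw [norm_smul, norm_smul, norm_norm, add_mul]
    refine add_le_add ?_ ?_
    · rw [mul_assoc]
      refine mul_le_mul ?_ (hlip b hb a ha) (norm_nonneg _) (by positivity)
      rw [mem_ball_iff_norm] at ha
      linarith [norm_le_norm_add_norm_sub u₀ a, norm_sub_rev u₀ a, norm_le_norm_add_norm_sub' a u₀]
    · refine (mul_le_mul (abs_norm_sub_norm_le a b) (norm_dN_le_one b)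
        (norm_nonneg (dN b)) (norm_nonneg _)).trans_eq ?_
      ring
  set Sg : Set X := {u | u ∈ ball u₀ r ∧ DegPt u} with hSg
  have h1 : vol X (J '' Sg) = 0 := by
    refine addHaar_image_eq_zero_of_det_fderivWithin_eq_zero (μ := vol X)
      (f' := fun u => fderiv ℝ J u) (fun u hu => ?_) (fun u hu => ?_)
    · obtain ⟨Q, hQ, -⟩ := hu.2
      exact (((R.inv.differentiableAt).comp u
        ((hX.differentiableAt le_rfl (hne u hu.1)).smul hQ.differentiableAt)).hasFDerivAt
        ).hasFDerivWithinAt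
    · obtain ⟨Q, hQ, k, hk, hk0, hkk⟩ := hu.2
      have hu0 := hne u hu.1
      obtain ⟨hsym, hnn⟩ := second_facts hX hu0 hQ
      have hrow : ∀ w, Q k w = 0 := by
        intro w
        by_contra hne
        have key : ∀ t : ℝ, 0 ≤ t * (2 * Q k w) + t ^ 2 * Q w w := fun t => by
          have h1 := hnn (k + t • w)
          simp only [map_add, map_smul, add_apply, smul_apply, smul_eq_mul, hsym w k, hkk] at h1
          linarith
        have hww := hnn w
        have h1 := key (-(Q k w) / (Q w w + 1))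
        rw [show -(Q k w) / (Q w w + 1) * (2 * Q k w) + (-(Q k w) / (Q w w + 1)) ^ 2 * Q w w =
          -((Q k w) ^ 2 * (Q w w + 2) / (Q w w + 1) ^ 2) by field_simp; ring] at h1
        have : 0 < (Q k w) ^ 2 * (Q w w + 2) / (Q w w + 1) ^ 2 := by positivity
        linarith
      have hd : HasFDerivAt J (R.inv.comp (‖u‖ • Q + (dN u).smulRight (dN u))) u :=
        R.inv.hasFDerivAt.comp u ((hX.hasFDerivAt le_rfl hu0).smul hQ)
      rw [hd.fderiv]
      by_contra hdet
      refine hk0 ((LinearMap.equivOfDetNeZero _ hdet).injective ?_)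
      rw [map_zero]
      show R.inv ((‖u‖ • Q + (dN u).smulRight (dN u)) k) = 0
      have : (‖u‖ • Q + (dN u).smulRight (dN u)) k = 0 := by
        ext w
        simp [hrow, hk]
      rw [this, map_zero]
  have h2 : vol X (J '' {u | u ∈ ball u₀ r ∧ ¬DegPt u}) = 0 := by
    refine vol_image_eq_zero rfl (hJlip.mono fun u hu => hu.1) ?_
    rw [ae_iff] at hae
    simpa [Classical.not_imp] using hae
  have hnull : vol X (J '' ball u₀ r) = 0 := by
    refine measure_mono_null ?_ (measure_union_null h1 h2)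
    rintro _ ⟨u, hu, rfl⟩
    by_cases h : DegPt u
    · exact Or.inl ⟨u, ⟨hu, h⟩, rfl⟩
    · exact Or.inr ⟨u, ⟨hu, h⟩, rfl⟩
  -- the image contains an open set
  set ℓ₀ := ‖u₀‖ • dN u₀ with hℓ₀
  have hu0 : u₀ ≠ 0 := hne u₀ (mem_ball_self hr)
  set φ : X → ℝ := fun u => ‖u‖ ^ 2 / 2 - ℓ₀ u with hφ
  have hφpos : ∀ u, u ≠ u₀ → φ u₀ < φ u := by
    intro u hu
    have h0 : dN u₀ u₀ = ‖u₀‖ := hX.dN_self le_rfl hu0
    have h3 := dN_le u₀ u
    have hp : 0 < ‖u₀‖ := norm_pos_iff.2 hu0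
    have key : φ u - φ u₀ = (‖u‖ - ‖u₀‖) ^ 2 / 2 + ‖u₀‖ * (‖u‖ - dN u₀ u) := by
      simp only [hφ, hℓ₀, smul_apply, smul_eq_mul, h0]
      ring
    rcases eq_or_ne ‖u‖ ‖u₀‖ with he | he
    · rcases h3.lt_or_eq with hlt | heq
      · nlinarith [mul_pos hp (sub_pos.2 hlt), sq_nonneg (‖u‖ - ‖u₀‖)]
      · exact absurd (hs.eq_of_sub (isSub_dN (hX.differentiableAt le_rfl hu0))
          (by rw [heq, he]) he) hu
    · have : 0 < (‖u‖ - ‖u₀‖) ^ 2 := by
        have := sub_ne_zero.2 he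
        positivity
      nlinarith [mul_nonneg hp.le (sub_nonneg.2 h3)]
  have hSne : (sphere u₀ (r / 2)).Nonempty := NormedSpace.sphere_nonempty.2 (by positivity)
  obtain ⟨s₀, hs₀, hmin⟩ := (isCompact_sphere u₀ (r / 2)).exists_isMinOn hSne
    (f := φ) (by fun_prop)
  set m := φ s₀ - φ u₀ with hm
  have hm0 : 0 < m := sub_pos.2 (hφpos s₀ fun e => by
    rw [mem_sphere, e, dist_self] at hs₀
    linarith)
  set ε := m / r with hε
  have hε0 : 0 < ε := by positivity
  have hsub : {z : X | ‖R.form z - ℓ₀‖ < ε} ⊆ J '' ball u₀ r := by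
    intro z (hz : ‖R.form z - ℓ₀‖ < ε)
    set ℓ := R.form z with hℓ
    obtain ⟨u, hu, humin⟩ := (isCompact_closedBall u₀ (r / 2)).exists_isMinOn
      ⟨u₀, mem_closedBall_self (by positivity)⟩ (f := fun u => ‖u‖ ^ 2 / 2 - ℓ u) (by fun_prop)
    have hub : u ∈ ball u₀ (r / 2) := by
      rw [mem_ball_iff_norm]
      rw [mem_closedBall_iff_norm] at hu
      refine lt_of_le_of_ne hu fun e => ?_
      have h4 : φ u₀ + m ≤ φ u := by
        have := isMinOn_iff.1 hmin u (mem_sphere_iff_norm.2 e)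
        linarith
      have h5 := isMinOn_iff.1 humin u₀ (mem_closedBall_self (by positivity))
      have h6 : |(ℓ - ℓ₀) (u - u₀)| ≤ ε * (r / 2) :=
        ((ℓ - ℓ₀).le_opNorm _).trans (mul_le_mul hz.le e.le (norm_nonneg _) hε0.le)
      have h7 : ε * (r / 2) = m / 2 := by rw [hε]; field_simp
      simp only [hφ] at h4
      simp only [sub_apply, map_sub] at h6
      linarith [(abs_le.1 h6).2]
    have hur : u ∈ ball u₀ r := ball_subset_ball (by linarith) hub
    have hu0' := hne u hur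
    have hloc : IsLocalMin (fun u => ‖u‖ ^ 2 / 2 - ℓ u) u := humin.isLocalMin
      (mem_of_superset (isOpen_ball.mem_nhds hub) ball_subset_closedBall)
    have hd : HasFDerivAt (fun u => ‖u‖ ^ 2 / 2 - ℓ u) (‖u‖ • dN u - ℓ) u := by
      refine ((((hX.hasFDerivAt le_rfl hu0').pow 2).mul_const ((2 : ℝ)⁻¹)).sub ℓ.hasFDerivAt
        ).congr_of_eventuallyEq (Eventually.of_forall fun x => by simp [div_eq_mul_inv])
        |>.congr_fderiv ?_
      ext k
      simp
      ring
    refine ⟨u, hur, ?_⟩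
    show R.inv (‖u‖ • dN u) = z
    rw [sub_eq_zero.1 (hloc.hasFDerivAt_eq_zero hd)]
    by_contra hne'
    refine (R.pos _ (sub_ne_zero.2 hne')).ne' ?_
    rw [map_sub R.form, sub_apply, R.form_inv, hℓ, sub_self]
  have hopen : IsOpen {z : X | ‖R.form z - ℓ₀‖ < ε} :=
    isOpen_lt ((R.form.continuous.sub continuous_const).norm) continuous_const
  refine (hopen.measure_pos (vol X) ⟨R.inv ℓ₀, ?_⟩).ne' (measure_mono_null hsub hnull)
  have e : R.form (R.inv ℓ₀) = ℓ₀ := ContinuousLinearMap.ext (R.form_inv ℓ₀)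
  show ‖R.form (R.inv ℓ₀) - ℓ₀‖ < ε
  rw [e, sub_self]
  exact lt_of_eq_of_lt ContinuousLinearMap.opNorm_zero hε0

namespace SphIso

variable (s : SphIso X Y) [FiniteDimensional ℝ X] [FiniteDimensional ℝ Y] [MeasurableSpace X]
  [BorelSpace X]

/-- Almost every point of the ball carries second order data. -/
lemma ae_jet {v : X} {ρ M : ℝ} (L : s.Local v ρ M) :
    ∀ᵐ u ∂(vol X), u ∈ ball v (ρ / 4) → ∃ A Q E, s.Jet u A Q E := by
  have h1 : LipschitzOnWith (Real.toNNReal M) (fun z => s.dG z) (ball v ρ) :=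
    LipschitzOnWith.of_dist_le' fun a ha b hb => by
      rw [dist_eq_norm, dist_eq_norm]
      exact (L.lip (mem_ball_iff_norm.1 hb) (mem_ball_iff_norm.1 ha)).1
  have h2 : LipschitzOnWith (Real.toNNReal M) (fun z : X => dN z) (ball v ρ) :=
    LipschitzOnWith.of_dist_le' fun a ha b hb => by
      rw [dist_eq_norm, dist_eq_norm]
      exact (L.lip (mem_ball_iff_norm.1 hb) (mem_ball_iff_norm.1 ha)).2
  filter_upwards [h1.ae_differentiableWithinAt_of_mem (μ := vol X),
    h2.ae_differentiableWithinAt_of_mem (μ := vol X)] with u hu1 hu2 hu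
  rw [mem_ball_iff_norm] at hu
  have huX := L.mem_X hu
  have hmem : u ∈ ball v ρ := mem_ball_iff_norm.2 huX
  have hnh := isOpen_ball.mem_nhds hmem
  obtain ⟨A, hA, hH⟩ := L.exists_equiv huX
  exact ⟨A, _, _, L.ne_zero huX, hA, hH, ((hu2 hmem).differentiableAt hnh).hasFDerivAt,
    ((hu1 hmem).differentiableAt hnh).hasFDerivAt,
    eventually_of_mem hnh fun z hz => L.diffG (mem_ball_iff_norm.1 hz)⟩

/-- An open set without degenerate points carries a linear piece of the extension. -/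
lemma linear_of_nondeg {v : X} {ρ M : ℝ} (L : s.Local v ρ M) (hX : SmoothNorm X 1)
    (hY : SmoothNorm Y 1) (hdim : 3 ≤ Module.finrank ℝ X) {O : Set X} (hO : IsOpen O)
    (hOne : O.Nonempty) (hOb : O ⊆ ball v (ρ / 4)) (hdeg : ∀ u ∈ O, ¬DegPt u) :
    ∃ A : X ≃L[ℝ] Y, (interior {x | s.G x = A x}).Nonempty := by
  obtain ⟨u₀, hu₀⟩ := hOne
  obtain ⟨r, hr, hball⟩ := Metric.isOpen_iff.1 hO u₀ hu₀
  have hsub := hball.trans hOb
  have hflat : ∀ᵐ u ∂(vol X), u ∈ ball u₀ r → HasFDerivAt (fun z => s.dG z) (0 : X →L[ℝ] X →L[ℝ] Y) u := by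
    filter_upwards [s.ae_jet L] with u hjet hu
    obtain ⟨A, Q, E, hj⟩ := hjet (hsub hu)
    rcases nondeg_or_deg hX hj.ne hj.hQ with hnd | hd
    · rw [← hj.E_eq_zero L (mem_ball_iff_norm.1 (hsub hu)) hX hY hdim hnd]
      exact hj.hE
    · exact absurd hd (hdeg u (hball hu))
  rw [ae_iff] at hflat
  set Z := toMeasurable (vol X)
    {u | ¬(u ∈ ball u₀ r → HasFDerivAt (fun z => s.dG z) (0 : X →L[ℝ] X →L[ℝ] Y) u)} with hZ
  have hZ0 : vol X Z = 0 := by rw [hZ, measure_toMeasurable]; exact hflat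
  have hgood : ∀ u ∈ ball u₀ r, u ∉ Z → HasFDerivAt (fun z => s.dG z) (0 : X →L[ℝ] X →L[ℝ] Y) u := fun u hu hz => by
    by_contra h
    exact hz (subset_toMeasurable _ _ (show ¬(u ∈ ball u₀ r → _) from fun h' => h (h' hu)))
  have hlip : ∀ a ∈ ball u₀ r, ∀ b ∈ ball u₀ r, ‖s.dG b - s.dG a‖ ≤ M * ‖b - a‖ := fun a ha b hb =>
    (L.lip (L.mem_X (mem_ball_iff_norm.1 (hsub ha))) (L.mem_X (mem_ball_iff_norm.1 (hsub hb)))).1
  have hconst : ∀ b ∈ ball u₀ r, s.dG b = s.dG u₀ := by
    intro b hb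
    set w := b - u₀ with hw
    have hmeas : MeasurableSet {p : X × ℝ | u₀ + p.1 + p.2 • w ∈ Zᶜ} :=
      (show Continuous fun p : X × ℝ => u₀ + p.1 + p.2 • w by fun_prop).measurable
        (measurableSet_toMeasurable _ _).compl
    have hswap : ∀ᵐ a ∂(vol X), ∀ᵐ t : ℝ, u₀ + a + t • w ∈ Zᶜ := by
      rw [Measure.ae_ae_comm (p := fun a t => u₀ + a + t • w ∈ Zᶜ) hmeas]
      refine Eventually.of_forall fun t => ?_
      rw [ae_iff]
      simp only [Set.mem_compl_iff, not_not]
      rw [show {a : X | u₀ + a + t • w ∈ Z} = (fun a => (u₀ + t • w) + a) ⁻¹' Z by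
        ext a; simp [add_right_comm], measure_preimage_add]
      exact hZ0
    have hd := Measure.dense_of_ae hswap
    by_contra hne
    have hd0 : 0 < ‖s.dG b - s.dG u₀‖ := norm_pos_iff.2 (sub_ne_zero.2 hne)
    have hbn : ‖b - u₀‖ < r := mem_ball_iff_norm.1 hb
    set τ := min (r - ‖b - u₀‖) (‖s.dG b - s.dG u₀‖ / (2 * (M + 1))) with hτ
    have hM := L.M_nonneg
    have hτ0 : 0 < τ := lt_min (by linarith) (by positivity)
    obtain ⟨a, hat, ha0⟩ := hd.exists_mem_open (isOpen_ball (x := (0 : X)) (ε := τ))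
      ⟨0, mem_ball_self hτ0⟩
    rw [mem_ball_zero_iff] at ha0
    have hin : ∀ t ∈ Set.Icc (0 : ℝ) 1, u₀ + a + t • w ∈ ball u₀ r := fun t ht => by
      rw [mem_ball_iff_norm, show u₀ + a + t • w - u₀ = a + t • w by abel]
      refine (norm_add_le _ _).trans_lt ?_
      rw [norm_smul, Real.norm_of_nonneg ht.1, hw]
      have := min_le_left (r - ‖b - u₀‖) (‖s.dG b - s.dG u₀‖ / (2 * (M + 1)))
      have := mul_le_of_le_one_left (norm_nonneg (b - u₀)) ht.2
      linarith
    have hac : AbsolutelyContinuousOnInterval (fun t => s.dG (u₀ + a + t • w)) 0 1 := by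
      refine LipschitzOnWith.absolutelyContinuousOnInterval (K := Real.toNNReal (M * ‖w‖)) ?_
      rw [Set.uIcc_of_le zero_le_one]
      refine LipschitzOnWith.of_dist_le' fun p hp q hq => ?_
      rw [dist_eq_norm, Real.dist_eq]
      refine (hlip _ (hin q hq) _ (hin p hp)).trans_eq ?_
      rw [show u₀ + a + p • w - (u₀ + a + q • w) = (p - q) • w by module, norm_smul,
        Real.norm_eq_abs]
      ring
    obtain ⟨C, hC⟩ := hac.const_of_ae_hasDerivAt_zero (by
      filter_upwards [hat] with t ht hti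
      rw [Set.uIcc_of_le zero_le_one] at hti
      exact ((hgood _ (hin t hti) ht).comp_hasDerivAt t
        (((hasDerivAt_id t).smul_const w).const_add (u₀ + a))).congr_deriv (by simp))
    have e0 := hC 0 (by simp)
    have e1 := hC 1 (by simp)
    simp only [zero_smul, add_zero, one_smul, hw] at e0 e1
    rw [show u₀ + a + (b - u₀) = b + a by abel, ← e0] at e1
    have i0 : u₀ + a ∈ ball u₀ r := by simpa using hin 0 (by simp)
    have i1 : b + a ∈ ball u₀ r := by
      have := hin 1 (by simp)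
      rwa [one_smul, hw, show u₀ + a + (b - u₀) = b + a by abel] at this
    have h1 := hlip b hb (b + a) i1
    have h2 := hlip u₀ (mem_ball_self hr) (u₀ + a) i0
    rw [add_sub_cancel_left] at h1 h2
    rw [e1] at h1
    have h3 := norm_sub_le_norm_sub_add_norm_sub (s.dG b) (s.dG (u₀ + a)) (s.dG u₀)
    rw [norm_sub_rev] at h1
    have h4 := min_le_right (r - ‖b - u₀‖) (‖s.dG b - s.dG u₀‖ / (2 * (M + 1)))
    have h5 : τ * (2 * (M + 1)) ≤ ‖s.dG b - s.dG u₀‖ := by
      rwa [← le_div_iff₀ (by have := L.M_nonneg; positivity)]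
    have h6 : M * ‖a‖ ≤ M * τ := mul_le_mul_of_nonneg_left ha0.le L.M_nonneg
    linarith
  obtain ⟨A, hA, -⟩ := L.exists_equiv (L.mem_X (mem_ball_iff_norm.1 (hOb hu₀)))
  refine ⟨A, u₀, mem_interior_iff_mem_nhds.2 (mem_of_superset (ball_mem_nhds u₀ hr) fun b hb => ?_)⟩
  have h := s.dG_self_of_differentiable (L.diffG (L.mem_X (mem_ball_iff_norm.1 (hsub hb))))
  rw [show fderiv ℝ s.G b = s.dG u₀ from hconst b hb, show s.dG u₀ = (A : X →L[ℝ] Y) from hA.fderiv]
    at h
  exact h.symm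

/-- The extension of a sphere isometry of a strictly convex space is linear. -/
theorem exists_linear_strict [MeasurableSpace Y] [BorelSpace Y] (hs : StrictNorm X)
    (hdim : 3 ≤ Module.finrank ℝ X) : ∃ A : X ≃L[ℝ] Y, ∀ x, s.G x = A x := by
  have : CompleteSpace X := FiniteDimensional.complete ℝ X
  have : Nontrivial X := Module.nontrivial_of_finrank_pos (R := ℝ) (by omega)
  have hdimY : 3 ≤ Module.finrank ℝ Y := by rw [s.finrank_eq]; exact hdim
  have : Nontrivial Y := Module.nontrivial_of_finrank_pos (R := ℝ) (by omega)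
  have hsY := s.strictY hs
  by_cases hb : s.Bad
  · exact s.exists_linear_of_bad hs (by omega) hb
  by_cases hb' : s.symm.Bad
  · obtain ⟨A, hA⟩ := s.symm.exists_linear_of_bad hsY (by omega) hb'
    refine ⟨A.symm, fun x => ?_⟩
    have h := hA (s.G x)
    rw [symm_G, s.H_G] at h
    exact (A.symm_apply_eq.2 h).symm ▸ rfl
  have hplX : ∀ z : X, z ≠ 0 → PLip z := fun z hz => s.plip_all hb hz
  have hplY : ∀ z : Y, z ≠ 0 → PLip z := fun z hz => s.symm.plip_all hb' hz
  have hX := smoothNorm_one_of_plip hplX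
  have hY := smoothNorm_one_of_plip hplY
  obtain ⟨v, hv, hq⟩ := exists_quadNear hplX
  obtain ⟨ρ, M, L⟩ := s.exists_local hs hX hY hv hq
  obtain ⟨ρ', M', L'⟩ := s.symm.exists_local hsY hY hX (v := s.G v) (by rw [s.norm_G, hv])
    (s.quadNear_G hv hq)
  obtain ⟨A, hA⟩ : ∃ A : X ≃L[ℝ] Y, (interior {x | s.G x = A x}).Nonempty := by
    set δ := min (ρ / 4) (ρ' / 12) with hδ
    have hρ := L.2.1
    have hρ' := L'.2.1
    have hδ0 : 0 < δ := by positivity
    by_cases hcase : ∃ O : Set X, IsOpen O ∧ O.Nonempty ∧ O ⊆ ball v δ ∧ ∀ u ∈ O, ¬DegPt u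
    · obtain ⟨O, hO, hOne, hOb, hdeg⟩ := hcase
      exact s.linear_of_nondeg L hX hY hdim hO hOne
        (hOb.trans (ball_subset_ball (min_le_left _ _))) hdeg
    by_cases hcase' : ∃ O : Set Y, IsOpen O ∧ O.Nonempty ∧ O ⊆ ball (s.G v) (ρ' / 4) ∧
        ∀ u ∈ O, ¬DegPt u
    · obtain ⟨O, hO, hOne, hOb, hdeg⟩ := hcase'
      obtain ⟨A, a, ha⟩ := s.symm.linear_of_nondeg L' hY hX hdimY hO hOne hOb hdeg
      refine ⟨A.symm, s.H a, ?_⟩
      rw [mem_interior_iff_mem_nhds] at ha ⊢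
      have := s.continuous_G.continuousAt.preimage_mem_nhds (x := s.H a) (by rwa [s.G_H])
      refine mem_of_superset this fun x hx => ?_
      have h : s.H (s.G x) = A (s.G x) := hx
      rw [s.H_G] at h
      show s.G x = A.symm x
      conv_rhs => rw [h, A.symm_apply_apply]
    push Not at hcase hcase'
    have hdX : ∀ z ∈ ball v δ, z ∈ closure {z : X | DegPt z} := fun z hz => by
      rw [_root_.mem_closure_iff]
      intro o ho hzo
      obtain ⟨u, hu, hd⟩ := hcase (o ∩ ball v δ) (ho.inter isOpen_ball) ⟨z, hzo, hz⟩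
        Set.inter_subset_right
      exact ⟨u, hu.1, hd⟩
    have hdY : ∀ z ∈ ball (s.G v) (ρ' / 4), z ∈ closure {z : Y | DegPt z} := fun z hz => by
      rw [_root_.mem_closure_iff]
      intro o ho hzo
      obtain ⟨u, hu, hd⟩ := hcase' (o ∩ ball (s.G v) (ρ' / 4)) (ho.inter isOpen_ball) ⟨z, hzo, hz⟩
        Set.inter_subset_right
      exact ⟨u, hu.1, hd⟩
    have hnae := not_ae_deg hs hX (u₀ := v) (r := δ) hδ0
      (by rw [hv]; linarith [min_le_left (ρ / 4) (ρ' / 12), L.2.2.1]) L.M_nonneg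
      (fun a ha b hb => by
        rw [mem_ball_iff_norm] at ha hb
        exact (L.lip (by linarith [min_le_left (ρ / 4) (ρ' / 12)])
          (by linarith [min_le_left (ρ / 4) (ρ' / 12)])).2)
    obtain ⟨y, hy, hjet, hnd⟩ : ∃ y ∈ ball v δ, (∃ A Q E, s.Jet y A Q E) ∧ ¬DegPt y := by
      by_contra hcon
      push Not at hcon
      refine hnae ?_
      filter_upwards [s.ae_jet L] with u hu hub
      exact hcon u hub (hu (ball_subset_ball (min_le_left _ _) hub))
    obtain ⟨A, Q, E, hj⟩ := hjet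
    have hu : ‖y - v‖ < ρ / 4 := (mem_ball_iff_norm.1 hy).trans_le (min_le_left _ _)
    have hndQ : Nondeg y Q := (nondeg_or_deg hX hj.ne hj.hQ).resolve_right hnd
    rw [hj.E_eq_zero L hu hX hY hdim hndQ] at hj
    have hlin := hj.linear_near_antipode L hu hs hX hY hndQ hplX hplY
      (eventually_of_mem (isOpen_ball.mem_nhds hy) hdX)
      (eventually_of_mem (isOpen_ball.mem_nhds (mem_ball_iff_norm.2 (by
        have := s.norm_G_sub_le y v
        linarith [mem_ball_iff_norm.1 hy, min_le_right (ρ / 4) (ρ' / 12)]))) hdY)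
    exact ⟨A, -y, mem_interior_iff_mem_nhds.2 hlin⟩
  refine ⟨A, fun x => ?_⟩
  rcases eq_or_ne x 0 with rfl | hx
  · rw [s.G_zero, map_zero]
  have hrank3 : 3 ≤ Module.rank ℝ X := by
    rw [← Module.finrank_eq_rank]
    exact_mod_cast hdim
  have hrank : 1 < Module.rank ℝ X := lt_of_lt_of_le (by norm_num) hrank3
  have hpre := (isConnected_compl_singleton_of_one_lt_rank hrank (0 : X)).isPreconnected
  obtain ⟨z, hz, hz0⟩ := (dense_compl_singleton (0 : X)).exists_mem_open isOpen_interior hA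
  have hsub := hpre.subset_of_closure_inter_subset
    (isOpen_interior (s := {x : X | s.G x = A x}))
    ⟨z, hz, hz0⟩
    (fun z ⟨hz, hz0⟩ => s.mem_interior_of_closure hX hs hrank3 A hz0 hz)
  exact (interior_subset (s := {x : X | s.G x = A x}) (hsub hx) :)

end SphIso

/-- **Main theorem.** -/
theorem extends_linearly_strict [FiniteDimensional ℝ X] (hs : StrictNorm X)
    (hdim : 3 ≤ Module.finrank ℝ X) {f : sphere (0 : X) 1 → sphere (0 : Y) 1} (hf : Isometry f)
    (hsurj : Function.Surjective f) :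
    ∃ T : X ≃ₗᵢ[ℝ] Y, ∀ x : sphere (0 : X) 1, T x = f x := by
  obtain ⟨s, hsf⟩ := exists_sphIso hs hf hsurj
  have : ProperSpace X := FiniteDimensional.proper_real X
  have : FiniteDimensional ℝ Y := by
    refine FiniteDimensional.of_isCompact_closedBall₀ ℝ zero_lt_one ?_
    convert (isCompact_closedBall (0 : X) 1).image s.continuous_G
    ext w
    simp only [Set.mem_image, mem_closedBall_zero_iff]
    exact ⟨fun h => ⟨s.H w, by rwa [s.norm_H], s.G_H w⟩,
      fun ⟨v, hv, e⟩ => by rwa [← e, s.norm_G]⟩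
  letI : MeasurableSpace X := borel X
  haveI : BorelSpace X := ⟨rfl⟩
  letI : MeasurableSpace Y := borel Y
  haveI : BorelSpace Y := ⟨rfl⟩
  obtain ⟨A, hA⟩ := s.exists_linear_strict hs hdim
  refine ⟨⟨A.toLinearEquiv, fun x => ?_⟩, fun x => ?_⟩
  · show ‖A x‖ = ‖x‖
    rw [← hA, s.norm_G]
  · show A (x : X) = (f x : Y)
    rw [← hA, hsf]

end Vale.Agent.P084
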