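import Vale.Agent.P084.Flat

/-!
P084 (Tingley's problem), library for arbitrary finite-dimensional norms: the gradient of a norm
is pointwise Lipschitz at almost every point. The proof uses the proximal map, Rademacher's
theorem and Sard's lemma.
-/

namespace Vale.Agent.P084

open Filter Topology Metric MeasureTheory
open scoped ENNReal

variable {X : Type*} [NormedAddCommGroup X] [NormedSpace ℝ X]

/-- `q` is a subgradient of the norm at `z`. -/
def IsSub (z : X) (q : X →L[ℝ] ℝ) : Prop := q z = ‖z‖ ∧ ∀ w, |q w| ≤ ‖w‖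

/-- The gradient of the norm is pointwise Lipschitz at `z`. -/
def PLip (z : X) : Prop :=
  DifferentiableAt ℝ (fun x : X => ‖x‖) z ∧ ∃ M : ℝ, 0 ≤ M ∧
    ∀ᶠ z' in 𝓝 z, ∀ q, IsSub z' q → ‖q - dN z‖ ≤ M * ‖z' - z‖

lemma exists_isSub (z : X) : ∃ q, IsSub z q := by
  obtain ⟨q, hq1, hq2⟩ := exists_dual_vector'' ℝ z
  refine ⟨q, hq2, fun w => ?_⟩
  exact (q.le_of_opNorm_le hq1 w).trans_eq (one_mul _)

lemma IsSub.le {z : X} {q : X →L[ℝ] ℝ} (h : IsSub z q) (w : X) : q w ≤ ‖w‖ :=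
  (le_abs_self _).trans (h.2 w)

lemma IsSub.norm_le {z : X} {q : X →L[ℝ] ℝ} (h : IsSub z q) : ‖q‖ ≤ 1 :=
  ContinuousLinearMap.opNorm_le_bound _ zero_le_one fun w => by
    rw [one_mul]; exact h.2 w

lemma IsSub.lower {z : X} {q : X →L[ℝ] ℝ} (h : IsSub z q) (w : X) :
    ‖z‖ + q (w - z) ≤ ‖w‖ := by
  rw [map_sub, h.1]; linarith [h.le w]

lemma IsSub.mono {z z' : X} {q q' : X →L[ℝ] ℝ} (h : IsSub z q) (h' : IsSub z' q') :
    0 ≤ (q' - q) (z' - z) := by
  rw [sub_apply, map_sub, map_sub, h.1, h'.1]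
  linarith [h.le z', h'.le z]

lemma IsSub.smul {z : X} {q : X →L[ℝ] ℝ} (h : IsSub z q) {t : ℝ} (ht : 0 < t) :
    IsSub (t • z) q :=
  ⟨by rw [map_smul, h.1, norm_smul, Real.norm_of_nonneg ht.le, smul_eq_mul], h.2⟩

lemma IsSub.neg {z : X} {q : X →L[ℝ] ℝ} (h : IsSub z q) : IsSub (-z) (-q) :=
  ⟨by simp [h.1], fun w => by simpa using h.2 w⟩

lemma isSub_dN {z : X} (h : DifferentiableAt ℝ (fun x : X => ‖x‖) z) : IsSub z (dN z) :=
  ⟨h.fderiv_norm_self, abs_dN_le z⟩

lemma IsSub.eq_dN {z : X} {q : X →L[ℝ] ℝ} (h : IsSub z q)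
    (hd : DifferentiableAt ℝ (fun x : X => ‖x‖) z) : q = dN z := by
  refine ContinuousLinearMap.ext fun k => ?_
  have hl : HasDerivAt (fun t : ℝ => z + t • k) k 0 := by
    simpa using ((hasDerivAt_id (0 : ℝ)).smul_const k).const_add z
  have hd' : HasDerivAt (fun t : ℝ => ‖z + t • k‖ - q (z + t • k)) (dN z k - q k) 0 :=
    (hd.hasFDerivAt.comp_hasDerivAt_of_eq 0 hl (by simp)).sub
      (q.hasFDerivAt.comp_hasDerivAt 0 hl)
  have hmin : IsLocalMin (fun t : ℝ => ‖z + t • k‖ - q (z + t • k)) 0 :=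
    Eventually.of_forall fun t => by
      simp only [zero_smul, add_zero, h.1, sub_self]
      exact sub_nonneg.2 (h.le _)
  linarith [hmin.hasDerivAt_eq_zero hd']

lemma PLip.smul {z : X} (h : PLip z) {t : ℝ} (ht : 0 < t) : PLip (t • z) := by
  obtain ⟨hd, M, hM, hev⟩ := h
  have hd' : DifferentiableAt ℝ (fun x : X => ‖x‖) (t • z) := by
    have h1 := ((show DifferentiableAt ℝ (fun x : X => ‖x‖) (t⁻¹ • t • z) by
      rwa [smul_smul, inv_mul_cancel₀ ht.ne', one_smul]).comp (t • z)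
      (differentiableAt_id.const_smul t⁻¹)).const_mul t
    refine h1.congr_of_eventuallyEq (Eventually.of_forall fun y => ?_)
    simp [norm_smul, abs_of_pos ht, ht.ne']
  have hc : Tendsto (fun y : X => t⁻¹ • y) (𝓝 (t • z)) (𝓝 z) :=
    (continuous_const_smul t⁻¹).tendsto' _ _ (by rw [smul_smul, inv_mul_cancel₀ ht.ne', one_smul])
  refine ⟨hd', M / t, by positivity, (hc.eventually hev).mono fun y hy q hq => ?_⟩
  rw [dN_smul_pos _ ht]
  refine (hy q (hq.smul (inv_pos.2 ht))).trans_eq ?_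
  have e : t⁻¹ • y - z = t⁻¹ • (y - t • z) := by
    rw [smul_sub, smul_smul, inv_mul_cancel₀ ht.ne', one_smul]
  rw [e, norm_smul, norm_inv, Real.norm_of_nonneg ht.le]
  ring

section Prox

variable [FiniteDimensional ℝ X] (R : Riesz X)

/-- `x` is the proximal point of `z`. -/
def ProxPt (z x : X) : Prop := ∀ w, ‖x‖ ^ 2 / 2 + R.form (z - x) (w - x) ≤ ‖w‖ ^ 2 / 2

lemma exists_proxPt (z : X) : ∃ x, ProxPt R z x := by
  have : ProperSpace X := FiniteDimensional.proper_real X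
  let φ : X → ℝ := fun x => ‖x‖ ^ 2 / 2 + 1 / 2 * R.form x x - R.form z x
  have hφc : Continuous φ := by fun_prop
  have hlim : Tendsto φ (cocompact X) atTop := by
    refine tendsto_atTop_mono' _ ?_ tendsto_norm_cocompact_atTop
    filter_upwards [tendsto_norm_cocompact_atTop.eventually_ge_atTop (2 * (‖R.form‖ * ‖z‖) + 2)]
      with x hx
    have h1 : R.form z x ≤ ‖R.form‖ * ‖z‖ * ‖x‖ :=
      (Real.le_norm_self _).trans (R.form.le_opNorm₂ _ _)
    have h3 := mul_le_mul_of_nonneg_right hx (norm_nonneg x)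
    simp only [φ]
    nlinarith [R.nonneg x]
  obtain ⟨x, hx⟩ := hφc.exists_forall_le hlim
  refine ⟨x, fun w => ?_⟩
  by_contra hcon
  push Not at hcon
  set d := w - x with hd
  set A := ‖x‖ ^ 2 / 2 + R.form (z - x) d - ‖w‖ ^ 2 / 2 with hA
  have hApos : 0 < A := by rw [hA]; linarith
  have hdd := R.nonneg d
  set t := min 1 (A / (R.form d d + 1)) with ht
  have ht0 : 0 < t := by positivity
  have ht1 : t ≤ 1 := min_le_left _ _
  have htA : t * R.form d d < 2 * A := by
    have h1 : t ≤ A / (R.form d d + 1) := min_le_right _ _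
    rw [le_div_iff₀ (by linarith)] at h1
    nlinarith
  have hconv : ‖x + t • d‖ ^ 2 ≤ (1 - t) * ‖x‖ ^ 2 + t * ‖w‖ ^ 2 := by
    have h1 : ‖x + t • d‖ ≤ (1 - t) * ‖x‖ + t * ‖w‖ := by
      rw [show x + t • d = (1 - t) • x + t • w by rw [hd]; module]
      refine (norm_add_le _ _).trans (le_of_eq ?_)
      rw [norm_smul, norm_smul, Real.norm_of_nonneg (by linarith), Real.norm_of_nonneg ht0.le]
    refine (pow_le_pow_left₀ (norm_nonneg _) h1 2).trans ?_
    nlinarith [mul_nonneg (mul_nonneg ht0.le (show 0 ≤ 1 - t by linarith))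
      (sq_nonneg (‖x‖ - ‖w‖))]
  have h := hx (x + t • d)
  simp only [φ] at h
  have e : R.form (x + t • d) (x + t • d) =
      R.form x x + 2 * t * R.form x d + t ^ 2 * R.form d d := by
    simp only [map_add, map_smul, add_apply, smul_apply, smul_eq_mul, R.symm d x]
    ring
  rw [e, map_add (R.form z), map_smul, smul_eq_mul] at h
  have e2 : R.form (z - x) d = R.form z d - R.form x d := by simp
  rw [e2] at hA
  have h3 : t * (2 * A) ≤ t * (t * R.form d d) := by rw [hA]; linarith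
  linarith [le_of_mul_le_mul_left h3 ht0]

omit [FiniteDimensional ℝ X] in
lemma proxPt_of_isSub {x : X} {q : X →L[ℝ] ℝ} (h : IsSub x q) :
    ProxPt R (x + R.inv (‖x‖ • q)) x := by
  intro w
  rw [add_sub_cancel_left, R.form_inv, smul_apply, smul_eq_mul, map_sub, h.1]
  nlinarith [mul_le_mul_of_nonneg_left (h.le w) (norm_nonneg x), sq_nonneg (‖x‖ - ‖w‖)]

omit [FiniteDimensional ℝ X] in
lemma ProxPt.mono {z₁ x₁ z₂ x₂ : X} (h₁ : ProxPt R z₁ x₁) (h₂ : ProxPt R z₂ x₂) :
    R.form (x₂ - x₁) (x₂ - x₁) ≤ R.form (z₂ - z₁) (x₂ - x₁) := by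
  have a := h₁ x₂
  have b := h₂ x₁
  simp only [map_sub, sub_apply] at a b ⊢
  linarith

/-- The proximal map. -/
noncomputable def prox (z : X) : X := (exists_proxPt R z).choose

lemma proxPt_prox (z : X) : ProxPt R z (prox R z) := (exists_proxPt R z).choose_spec

lemma prox_dist_le (z₁ z₂ : X) :
    ‖prox R z₂ - prox R z₁‖ ≤ R.bnd ^ 2 * ‖R.form‖ * ‖z₂ - z₁‖ := by
  set d := prox R z₂ - prox R z₁ with hd
  have h1 : R.form d d ≤ ‖R.form‖ * ‖z₂ - z₁‖ * ‖d‖ :=
    ((proxPt_prox R z₁).mono R (proxPt_prox R z₂)).trans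
      ((Real.le_norm_self _).trans (R.form.le_opNorm₂ _ _))
  rcases eq_or_lt_of_le (norm_nonneg d) with h0 | h0
  · rw [← h0]
    have : 0 ≤ ‖R.form‖ := ContinuousLinearMap.opNorm_nonneg _
    positivity
  refine le_of_mul_le_mul_right ?_ h0
  have := (R.coercive d).trans (mul_le_mul_of_nonneg_left h1 (sq_nonneg R.bnd))
  linarith

lemma lipschitzWith_prox : LipschitzWith (R.bnd ^ 2 * ‖R.form‖).toNNReal (prox R) :=
  LipschitzWith.of_dist_le' fun a b => by
    rw [dist_eq_norm, dist_eq_norm]; exact prox_dist_le R b a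

lemma ProxPt.eq {z x : X} (h : ProxPt R z x) : prox R z = x := by
  have h1 := h.mono R (proxPt_prox R z)
  rw [sub_self, map_zero, zero_apply] at h1
  have h2 := (R.coercive (prox R z - x)).trans (mul_le_mul_of_nonneg_left h1 (sq_nonneg R.bnd))
  rw [mul_zero] at h2
  exact sub_eq_zero.1 (norm_eq_zero.1 (by nlinarith [norm_nonneg (prox R z - x)]))

omit [FiniteDimensional ℝ X] in
lemma ProxPt.convex {z₁ z₂ x : X} (h₁ : ProxPt R z₁ x) (h₂ : ProxPt R z₂ x) {t : ℝ} (ht : 0 ≤ t)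
    (ht1 : t ≤ 1) : ProxPt R (z₁ + t • (z₂ - z₁)) x := by
  intro w
  have a := mul_le_mul_of_nonneg_left (h₁ w) (show 0 ≤ 1 - t by linarith)
  have b := mul_le_mul_of_nonneg_left (h₂ w) ht
  simp only [map_sub, map_add, map_smul, sub_apply, add_apply, smul_apply, smul_eq_mul] at a b ⊢
  linarith

omit [FiniteDimensional ℝ X] in
lemma proxPt_isSub {z x : X} (h : ProxPt R z x) (hx : x ≠ 0) :
    IsSub x (‖x‖⁻¹ • R.form (z - x)) := by
  have hr : 0 < ‖x‖ := norm_pos_iff.2 hx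
  set g := R.form (z - x) with hg
  have key : ∀ w, ‖x‖ ^ 2 / 2 + (g w - g x) ≤ ‖w‖ ^ 2 / 2 := fun w => by
    rw [← map_sub]; exact h w
  have hgx : g x = ‖x‖ ^ 2 := by
    have hd : HasDerivAt (fun t : ℝ => t ^ 2 * (‖x‖ ^ 2 / 2) - t * g x) (‖x‖ ^ 2 - g x) 1 := by
      refine (((hasDerivAt_pow 2 (1 : ℝ)).mul_const (‖x‖ ^ 2 / 2)).sub
        ((hasDerivAt_id' (1 : ℝ)).mul_const (g x))).congr_deriv ?_
      simp; ring
    have hmin : IsLocalMin (fun t : ℝ => t ^ 2 * (‖x‖ ^ 2 / 2) - t * g x) 1 :=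
      Eventually.of_forall fun t => by
        have := key (t • x)
        rw [map_smul, smul_eq_mul, norm_smul, mul_pow, Real.norm_eq_abs, sq_abs] at this
        simp only
        linarith
    linarith [hmin.hasDerivAt_eq_zero hd]
  have hle : ∀ w, g w ≤ ‖x‖ * ‖w‖ := fun w => by
    rcases eq_or_ne w 0 with rfl | hw
    · simp
    have hw' : 0 < ‖w‖ := norm_pos_iff.2 hw
    have := key ((‖x‖ / ‖w‖) • w)
    rw [map_smul, smul_eq_mul, norm_smul, Real.norm_of_nonneg (by positivity),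
      div_mul_cancel₀ _ hw'.ne', hgx] at this
    rw [← mul_le_mul_iff_of_pos_left (div_pos hr hw')]
    refine (show ‖x‖ / ‖w‖ * g w ≤ ‖x‖ ^ 2 by linarith).trans (le_of_eq ?_)
    field_simp
  refine ⟨?_, fun w => ?_⟩
  · rw [smul_apply, hgx, smul_eq_mul]; field_simp
  · rw [smul_apply, smul_eq_mul, abs_mul, abs_inv, abs_norm, inv_mul_le_iff₀ hr, abs_le]
    refine ⟨?_, hle w⟩
    have := hle (-w)
    rw [map_neg, norm_neg] at this
    linarith

omit [FiniteDimensional ℝ X] in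
lemma norm_le_form (ψ : X →L[ℝ] ℝ) : ‖ψ‖ ≤ ‖R.form‖ * ‖R.inv ψ‖ :=
  ContinuousLinearMap.opNorm_le_bound _
    (mul_nonneg (ContinuousLinearMap.opNorm_nonneg _) (norm_nonneg _)) fun v => by
      rw [← R.form_inv ψ v]; exact R.form.le_opNorm₂ _ _

/-- Where the proximal map has invertible derivative, the gradient is pointwise Lipschitz. -/
lemma plip_of_invertible {z : X} (hx : prox R z ≠ 0) (hd : DifferentiableAt ℝ (prox R) z)
    (hdet : (fderiv ℝ (prox R) z).det ≠ 0) : PLip (prox R z) := by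
  have : ProperSpace X := FiniteDimensional.proper_real X
  set P := prox R with hP
  set x := P z with hxdef
  let e : X ≃L[ℝ] X :=
    (LinearMap.equivOfDetNeZero (fderiv ℝ P z : X →ₗ[ℝ] X) hdet).toContinuousLinearEquiv
  have he : ∀ k, e k = fderiv ℝ P z k := fun k => rfl
  set c := ‖(e.symm : X →L[ℝ] X)‖ + 1 with hc
  have hc0 : 0 < c := by
    have := ContinuousLinearMap.opNorm_nonneg (e.symm : X →L[ℝ] X); linarith
  obtain ⟨ρ, hρ, hlow⟩ : ∃ ρ > 0, ∀ z', ‖z' - z‖ ≤ ρ → ‖z' - z‖ ≤ 2 * c * ‖P z' - x‖ := by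
    obtain ⟨δ, hδ, h⟩ := Metric.eventually_nhds_iff.1
      ((hasFDerivAt_iff_isLittleO.1 hd.hasFDerivAt).def (show 0 < 1 / (2 * c) by positivity))
    refine ⟨δ / 2, by positivity, fun z' hz' => ?_⟩
    have h1 := h (show dist z' z < δ by rw [dist_eq_norm]; linarith)
    have h2 : ‖z' - z‖ ≤ c * ‖fderiv ℝ P z (z' - z)‖ := by
      conv_lhs => rw [← e.symm_apply_apply (z' - z)]
      rw [← he]
      refine ((e.symm : X →L[ℝ] X).le_opNorm _).trans ?_
      gcongr
      linarith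
    have h3 := norm_sub_norm_le (fderiv ℝ P z (z' - z)) (P z' - x)
    rw [norm_sub_rev (fderiv ℝ P z (z' - z)) (P z' - x)] at h3
    have h4 : ‖fderiv ℝ P z (z' - z)‖ ≤ ‖P z' - x‖ + 1 / (2 * c) * ‖z' - z‖ := by linarith
    have h5 := h2.trans (mul_le_mul_of_nonneg_left h4 hc0.le)
    rw [mul_add, ← mul_assoc, show c * (1 / (2 * c)) = 1 / 2 by field_simp] at h5
    linarith
  have hfib : ∀ z'', P z'' = x → z'' = z := by
    intro z'' h''
    by_contra hne
    have hd0 : 0 < ‖z'' - z‖ := norm_pos_iff.2 (sub_ne_zero.2 hne)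
    set t := min 1 (ρ / ‖z'' - z‖) with ht
    have ht0 : 0 < t := by positivity
    have h0 : ProxPt R z'' x := by
      have := proxPt_prox R z''
      rwa [show prox R z'' = x from h''] at this
    have h1 : ProxPt R (z + t • (z'' - z)) x :=
      (proxPt_prox R z).convex R h0 ht0.le (min_le_left _ _)
    have h2 := hlow (z + t • (z'' - z)) (by
      rw [add_sub_cancel_left, norm_smul, Real.norm_of_nonneg ht0.le, ← le_div_iff₀ hd0]
      exact min_le_right _ _)
    rw [show P (z + t • (z'' - z)) = x from h1.eq R, sub_self, norm_zero, mul_zero,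
      add_sub_cancel_left, norm_smul, Real.norm_of_nonneg ht0.le] at h2
    nlinarith
  set R₁ := (‖x‖ + 1) * (1 + ‖R.inv‖) + ‖z‖ + 1 with hR₁
  set K := closedBall z R₁ ∩ {z'' | ρ ≤ ‖z'' - z‖} with hK
  have hKc : IsCompact K :=
    (isCompact_closedBall z R₁).inter_right (isClosed_le continuous_const (by fun_prop))
  have hKx : x ∉ P '' K := by
    rintro ⟨z'', ⟨-, h2⟩, h3⟩
    rw [hfib z'' h3] at h2
    simp at h2
    linarith
  have hnbhd : ∀ᶠ x' in 𝓝 x, x' ∉ P '' K :=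
    ((hKc.image (lipschitzWith_prox R).continuous).isClosed.isOpen_compl).mem_nhds hKx
  have hz0 : z = x + R.inv (R.form (z - x)) := by
    have h1 : R.inv (R.form (z - x)) = z - x := by
      set u := R.inv (R.form (z - x)) - (z - x) with hu
      have h2 : ∀ v, R.form u v = 0 := fun v => by
        rw [hu, map_sub R.form, sub_apply, R.form_inv, sub_self]
      by_contra hne
      exact (R.pos u (sub_ne_zero.2 hne)).ne' (h2 u)
    rw [h1, add_sub_cancel]
  set g₀ := ‖x‖⁻¹ • R.form (z - x) with hg₀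
  have hg₀sub : IsSub x g₀ := proxPt_isSub R (proxPt_prox R z) hx
  have hr : 0 < ‖x‖ := norm_pos_iff.2 hx
  set L := 2 / ‖x‖ * (‖R.form‖ * (2 * c + 1) + 1) with hL
  have hL0 : 0 ≤ L := by
    have := ContinuousLinearMap.opNorm_nonneg R.form
    positivity
  have key : ∀ᶠ x' in 𝓝 x, ∀ q, IsSub x' q → ‖q - g₀‖ ≤ L * ‖x' - x‖ := by
    filter_upwards [hnbhd, ball_mem_nhds x (show 0 < min 1 (‖x‖ / 2) by positivity)] with x' h1 h2 q hq
    rw [mem_ball_iff_norm] at h2
    set z' := x' + R.inv (‖x'‖ • q) with hz'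
    have hPz' : P z' = x' := (proxPt_of_isSub R hq).eq R
    have hq1 := hq.norm_le
    have hxn : ‖x'‖ ≤ ‖x‖ + 1 := by
      linarith [norm_sub_norm_le x' x, min_le_left 1 (‖x‖ / 2)]
    have hRi : 0 ≤ ‖R.inv‖ := ContinuousLinearMap.opNorm_nonneg _
    have hball : ‖z' - z‖ ≤ R₁ := by
      refine (norm_sub_le _ _).trans ?_
      have : ‖z'‖ ≤ ‖x'‖ + ‖R.inv‖ * ‖x'‖ := by
        refine (norm_add_le _ _).trans ?_
        gcongr
        refine (R.inv.le_opNorm _).trans ?_
        gcongr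
        rw [norm_smul, norm_norm]
        exact mul_le_of_le_one_right (norm_nonneg _) hq1
      rw [hR₁]
      nlinarith
    have hnear : ‖z' - z‖ ≤ ρ := by
      by_contra hcon
      push Not at hcon
      exact h1 ⟨z', ⟨mem_closedBall_iff_norm.2 hball, hcon.le⟩, hPz'⟩
    have h3 := hlow z' hnear
    rw [hPz'] at h3
    have h4 : R.inv (‖x'‖ • q - ‖x‖ • g₀) = (z' - z) - (x' - x) := by
      rw [map_sub, hg₀, smul_smul ‖x‖, mul_inv_cancel₀ hr.ne', one_smul]
      conv_rhs => rw [hz', hz0]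
      abel
    have h5 : ‖‖x'‖ • q - ‖x‖ • g₀‖ ≤ ‖R.form‖ * ((2 * c + 1) * ‖x' - x‖) := by
      refine (norm_le_form R _).trans ?_
      gcongr
      rw [h4]
      refine (norm_sub_le _ _).trans ?_
      linarith
    have h6 : ‖x‖ • (q - g₀) = (‖x'‖ • q - ‖x‖ • g₀) - (‖x'‖ - ‖x‖) • q := by module
    have h7 : ‖x‖ * ‖q - g₀‖ ≤ ‖R.form‖ * ((2 * c + 1) * ‖x' - x‖) + ‖x' - x‖ := by
      rw [← norm_norm x, ← norm_smul, h6]
      refine (norm_sub_le _ _).trans (add_le_add h5 ?_)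
      rw [norm_smul]
      exact (mul_le_of_le_one_right (norm_nonneg _) hq1).trans (abs_norm_sub_norm_le x' x)
    have h8 : ‖R.form‖ * ((2 * c + 1) * ‖x' - x‖) + ‖x' - x‖ ≤ ‖x‖ * (L * ‖x' - x‖) := by
      rw [hL]
      field_simp
      have := norm_nonneg (x' - x)
      have := mul_nonneg (mul_nonneg (ContinuousLinearMap.opNorm_nonneg R.form)
        (show 0 ≤ 2 * c + 1 by positivity)) this
      linarith
    exact le_of_mul_le_mul_left (h7.trans h8) hr
  have hdx : HasFDerivAt (fun y : X => ‖y‖) g₀ x := by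
    rw [hasFDerivAt_iff_isLittleO]
    refine (Asymptotics.IsBigO.of_bound L ?_).trans_isLittleO
      (Asymptotics.isLittleO_pow_sub_sub x one_lt_two)
    filter_upwards [key] with x' hx'
    obtain ⟨q, hq⟩ := exists_isSub x'
    have h1 := hg₀sub.lower x'
    have h2 := hq.lower x
    have h3 := ((q - g₀).le_opNorm (x' - x)).trans
      (mul_le_mul_of_nonneg_right (hx' q hq) (norm_nonneg _))
    rw [sub_apply, Real.norm_eq_abs] at h3
    rw [Real.norm_eq_abs, norm_pow, norm_norm, sq, ← mul_assoc,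
      abs_of_nonneg (by linarith)]
    have h4 : q (x - x') = -q (x' - x) := by rw [← map_neg, neg_sub]
    linarith [(abs_le.1 h3).2]
  refine ⟨hdx.differentiableAt, L, hL0, ?_⟩
  rw [show dN x = g₀ from hdx.fderiv]
  exact key

end Prox

section Measure

variable [FiniteDimensional ℝ X] [MeasurableSpace X] [BorelSpace X]

/-- The reference measure. -/
noncomputable abbrev vol (X : Type*) [NormedAddCommGroup X] [NormedSpace ℝ X]
    [MeasurableSpace X] [BorelSpace X] : Measure X := μH[(Module.finrank ℝ X : ℝ)]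

omit [FiniteDimensional ℝ X] in
/-- Lipschitz images of null sets are null. -/
lemma vol_image_eq_zero {Y : Type*} [NormedAddCommGroup Y] [NormedSpace ℝ Y]
    [MeasurableSpace Y] [BorelSpace Y] (hdim : Module.finrank ℝ Y = Module.finrank ℝ X)
    {f : X → Y} {K : NNReal} {s : Set X} (hf : LipschitzOnWith K f s) (hs : vol X s = 0) :
    vol Y (f '' s) = 0 := by
  have h := hf.hausdorffMeasure_image_le (d := (Module.finrank ℝ X : ℝ)) (by positivity)
  rw [vol] at hs ⊢
  rw [hdim]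
  rw [hs, mul_zero] at h
  exact le_antisymm h zero_le

/-- The gradient of the norm is pointwise Lipschitz almost everywhere. -/
theorem ae_plip [Nontrivial X] : ∀ᵐ x ∂(vol X), PLip x := by
  obtain ⟨R⟩ := nonempty_riesz (E := X)
  have h1 : vol X {z | ¬DifferentiableAt ℝ (prox R) z} = 0 :=
    ae_iff.1 (lipschitzWith_prox R).ae_differentiableAt
  have h2 : vol X (prox R '' {z | DifferentiableAt ℝ (prox R) z ∧
      (fderiv ℝ (prox R) z).det = 0}) = 0 :=
    addHaar_image_eq_zero_of_det_fderivWithin_eq_zero (μ := vol X)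
      (f' := fun z => fderiv ℝ (prox R) z)
      (fun z hz => hz.1.hasFDerivAt.hasFDerivWithinAt) (fun z hz => hz.2)
  have h3 : vol X (prox R '' {z | ¬DifferentiableAt ℝ (prox R) z}) = 0 :=
    vol_image_eq_zero rfl (lipschitzWith_prox R).lipschitzOnWith h1
  rw [ae_iff]
  refine measure_mono_null (fun x hx => ?_)
    (measure_union_null (measure_singleton (0 : X)) (measure_union_null h2 h3))
  rcases eq_or_ne x 0 with rfl | hx0
  · exact Or.inl rfl
  obtain ⟨q, hq⟩ := exists_isSub x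
  set z := x + R.inv (‖x‖ • q) with hz
  have hPz : prox R z = x := (proxPt_of_isSub R hq).eq R
  by_cases hd : DifferentiableAt ℝ (prox R) z
  · by_cases hdet : (fderiv ℝ (prox R) z).det = 0
    · exact Or.inr (Or.inl ⟨z, ⟨hd, hdet⟩, hPz⟩)
    · exact absurd (hPz ▸ plip_of_invertible R (by rwa [hPz]) hd hdet) hx
  · exact Or.inr (Or.inr ⟨z, hd, hPz⟩)

end Measure

end Vale.Agent.P084
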