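import Vale.Agent.P084.Strict.Jet

/-!
P084 (Tingley's problem), library for strictly convex finite-dimensional norms: at a curved point
`y` surrounded by degenerate points on both sides, the chord gradients of the two norms correspond,
so the extension agrees with its derivative near the antipode of `y`.
-/

namespace Vale.Agent.P084

open Filter Topology Metric

variable {X Y : Type*} [NormedAddCommGroup X] [NormedSpace ℝ X] [NormedAddCommGroup Y]
  [NormedSpace ℝ Y]

/-- A twice differentiable point of the norm with a flat tangent direction. -/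
def DegPt (c : X) : Prop :=
  ∃ Qc : X →L[ℝ] X →L[ℝ] ℝ, HasFDerivAt (fun z : X => dN z) Qc c ∧
    ∃ k : X, dN c k = 0 ∧ k ≠ 0 ∧ Qc k k = 0

lemma DegPt.smul {c : X} (h : DegPt c) {t : ℝ} (ht : 0 < t) : DegPt (t • c) := by
  obtain ⟨Qc, hQ, k, hk, hk0, hkk⟩ := h
  exact ⟨t⁻¹ • Qc, hasFDerivAt_dN_scale hQ ht, k, by rwa [dN_smul_pos _ ht], hk0, by simp [hkk]⟩

/-- A product of a vanishing differentiable factor and a continuous one. -/
lemma hasDerivAt_vanish_mul {a g : ℝ → ℝ} {a' : ℝ} (ha : HasDerivAt a a' 0) (ha0 : a 0 = 0)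
    (hg : ContinuousAt g 0) : HasDerivAt (fun t => a t * g t) (a' * g 0) 0 := by
  rw [hasDerivAt_iff_tendsto_slope]
  have h1 := hasDerivAt_iff_tendsto_slope.1 ha
  refine (h1.mul (hg.tendsto.mono_left nhdsWithin_le_nhds)).congr fun t => ?_
  simp [slope_def_field, ha0, mul_comm, mul_assoc, mul_left_comm, div_eq_mul_inv]

/-- A bounded functional applied to a curve with zero derivative. -/
lemma hasDerivAt_bounded_apply {E : Type*} [NormedAddCommGroup E] [NormedSpace ℝ E]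
    {P : ℝ → E →L[ℝ] ℝ} {V : ℝ → E} (hP : ∀ t, ‖P t‖ ≤ 1) (hV : HasDerivAt V 0 0) (hV0 : V 0 = 0) :
    HasDerivAt (fun t => P t (V t)) 0 0 := by
  rw [hasDerivAt_iff_isLittleO_nhds_zero] at hV ⊢
  simp only [zero_add, hV0, map_zero, sub_zero, smul_zero] at hV ⊢
  refine (Asymptotics.IsBigO.of_bound 1 (Eventually.of_forall fun t => ?_)).trans_isLittleO hV
  exact (P t).le_of_opNorm_le (hP t) (V t)

namespace SphIso

variable (s : SphIso X Y)

/-- The chord map has open image. -/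
lemma map_chord (hX : SmoothNorm X 1) [CompleteSpace X] {y x₀ : X} (hx₀ : x₀ ≠ 0)
    (hlt : dN x₀ y < ‖y‖) :
    map (fun x : X => ‖x‖ • y - ‖y‖ • x) (𝓝 x₀) = 𝓝 (‖x₀‖ • y - ‖y‖ • x₀) := by
  set a := dN x₀ with ha
  set n := ‖y‖ with hn
  have hn0 : n ≠ 0 := by
    intro e
    have hy : y = 0 := norm_eq_zero.1 e
    rw [hy, map_zero, e] at hlt
    exact lt_irrefl _ hlt
  have hk0 : n - a y ≠ 0 := by linarith
  have hstrict : HasStrictFDerivAt (fun x : X => ‖x‖ • y - n • x)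
      (a.smulRight y - n • ContinuousLinearMap.id ℝ X) x₀ :=
    (((hX x₀ hx₀).hasStrictFDerivAt' (hX.hasFDerivAt le_rfl hx₀) one_ne_zero).smul_const y).sub
      ((hasStrictFDerivAt_id x₀).const_smul n)
  let L : X ≃L[ℝ] X := ContinuousLinearEquiv.equivOfInverse
    (a.smulRight y - n • ContinuousLinearMap.id ℝ X)
    (-(n⁻¹ • (ContinuousLinearMap.id ℝ X + ((n - a y)⁻¹ • a).smulRight y)))
    (fun k => by simp; match_scalars <;> (field_simp; try ring))
    (fun k => by simp; match_scalars <;> (field_simp; try ring))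
  exact HasStrictFDerivAt.map_nhds_eq_of_equiv (f' := L) hstrict

namespace Jet

variable {s} {y : X} {A : X ≃L[ℝ] Y} {Q : X →L[ℝ] X →L[ℝ] ℝ} {E : X →L[ℝ] X →L[ℝ] Y}

/-- The first order chord identity. -/
lemma chord_first (hj : s.Jet y A Q E) (hX : SmoothNorm X 1) (hY : SmoothNorm Y 1) {x : X}
    (hc : ‖x‖ • y - ‖y‖ • x ≠ 0) (k : X) :
    dN (‖x‖ • s.G y - ‖y‖ • s.G x) (‖x‖ • A k - dN y k • s.G x) =
      dN (‖x‖ • y - ‖y‖ • x) (‖x‖ • k - dN y k • x) := by
  have hc' : ‖x‖ • s.G y - ‖y‖ • s.G x ≠ 0 := by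
    rwa [← norm_ne_zero_iff, s.key2, norm_ne_zero_iff]
  have d1 : HasFDerivAt (fun z => ‖x‖ • z - ‖z‖ • x)
      (‖x‖ • ContinuousLinearMap.id ℝ X - (dN y).smulRight x) y :=
    ((hasFDerivAt_id y).const_smul ‖x‖).sub ((hX.hasFDerivAt le_rfl hj.ne).smul_const x)
  have d2 : HasFDerivAt (fun z => ‖x‖ • s.G z - ‖z‖ • s.G x)
      (‖x‖ • (A : X →L[ℝ] Y) - (dN y).smulRight (s.G x)) y :=
    (hj.hA.const_smul ‖x‖).sub ((hX.hasFDerivAt le_rfl hj.ne).smul_const (s.G x))
  have n1 := (hX.hasFDerivAt le_rfl hc).comp y d1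
  have n2 := (hY.hasFDerivAt le_rfl hc').comp y d2
  have hfun : ((fun w : Y => ‖w‖) ∘ fun z => ‖x‖ • s.G z - ‖z‖ • s.G x) =
      (fun w : X => ‖w‖) ∘ fun z => ‖x‖ • z - ‖z‖ • x := funext fun z => s.key2 z x
  rw [hfun] at n2
  simpa using DFunLike.congr_fun (n2.unique n1) k

/-- At a degenerate chord the gradient defect has a sign. -/
lemma sigma_nonneg_of_deg (hj : s.Jet y A Q 0) (hX : SmoothNorm X 1) (hY : SmoothNorm Y 1)
    (hnd : Nondeg y Q) {x : X} (hαx : dN y x < ‖x‖) (hdeg : DegPt (‖x‖ • y - ‖y‖ • x))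
    (hpl : PLip (‖x‖ • s.G y - ‖y‖ • s.G x)) :
    0 ≤ dN (‖x‖ • s.G y - ‖y‖ • s.G x) (s.G x) - dN (‖x‖ • y - ‖y‖ • x) x := by
  set α := dN y with hαdef
  set n := ‖y‖ with hn
  set ρ := ‖x‖ with hρdef
  set c := ρ • y - n • x with hcdef
  set c' := ρ • s.G y - n • s.G x with hc'def
  set p := dN c with hp
  set p' := dN c' with hp'
  have hn0 : 0 < n := norm_pos_iff.2 hj.ne
  have hρ0 : 0 < ρ := by
    rcases eq_or_ne x 0 with rfl | h
    · simp [hρdef] at hαx
    · exact norm_pos_iff.2 h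
  have hαc : 0 < α c := by
    rw [hcdef, map_sub, map_smul, map_smul, hαdef, hX.dN_self le_rfl hj.ne, ← hn, ← hαdef,
      smul_eq_mul, smul_eq_mul]
    nlinarith
  have hc : c ≠ 0 := fun e => by rw [e, map_zero] at hαc; exact lt_irrefl _ hαc
  obtain ⟨Qc, hQc, k₀, hk₀, hk₀0, hk₀k⟩ := hdeg
  -- shift the flat direction into the tangent space of `y`
  set k := k₀ - (α k₀ / α c) • c with hkdef
  have hk : α k = 0 := by
    rw [hkdef, map_sub, map_smul, smul_eq_mul, div_mul_cancel₀ _ hαc.ne', sub_self]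
  have hk0 : k ≠ 0 := by
    intro e
    have e1 : k₀ = (α k₀ / α c) • c := sub_eq_zero.1 e
    have h1 := hk₀
    rw [e1, map_smul, hX.dN_self le_rfl hc, smul_eq_mul, mul_eq_zero] at h1
    rcases h1 with h1 | h1
    · rw [h1, zero_smul] at e1; exact hk₀0 e1
    · exact hc (norm_eq_zero.1 h1)
  obtain ⟨hQc1, hQc2⟩ := ddN_radial hc hQc.differentiableAt
    ((eventually_ne_nhds hc).mono fun z hz => hX.differentiableAt le_rfl hz)
  rw [show ddN c = Qc from hQc.fderiv] at hQc1 hQc2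
  have hkk : Qc k k = 0 := by simp [hkdef, hQc1, hQc2, hk₀k]
  have hQk : 0 < Q k k := hnd k hk hk0
  -- the curves
  have hl : HasDerivAt (fun t : ℝ => y + t • k) k 0 := by
    simpa using ((hasDerivAt_id (0 : ℝ)).smul_const k).const_add y
  have hl0 : Tendsto (fun t : ℝ => y + t • k) (𝓝 0) (𝓝 y) := hl.continuousAt.tendsto.trans (by simp)
  have hN : HasDerivAt (fun t : ℝ => ‖y + t • k‖) 0 0 := by
    have := (hX.hasFDerivAt le_rfl hj.ne).comp_hasDerivAt_of_eq 0 hl (by simp)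
    rwa [← hαdef, hk] at this
  set γ : ℝ → X := fun t => ρ • (y + t • k) - ‖y + t • k‖ • x with hγ
  set γ' : ℝ → Y := fun t => ρ • s.G (y + t • k) - ‖y + t • k‖ • s.G x with hγ'
  have hγ0 : γ 0 = c := by simp [hγ, hcdef, hn]
  have hγ'0 : γ' 0 = c' := by simp [hγ', hc'def, hn]
  have hγd : HasDerivAt γ (ρ • k) 0 :=
    ((hl.const_smul ρ).sub (hN.smul_const x)).congr_deriv (by simp)
  have hγ'd : HasDerivAt γ' (ρ • A k) 0 := by
    have hG : HasDerivAt (fun t : ℝ => s.G (y + t • k)) (A k) 0 :=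
      hj.hA.comp_hasDerivAt_of_eq 0 hl (by simp)
    exact ((hG.const_smul ρ).sub (hN.smul_const (s.G x))).congr_deriv (by simp)
  have hc' : c' ≠ 0 := by
    rw [← norm_ne_zero_iff, hc'def, hρdef, hn, s.key2, norm_ne_zero_iff]
    exact hc
  set P : ℝ → X →L[ℝ] ℝ := fun t => dN (γ t) with hP
  set P' : ℝ → Y →L[ℝ] ℝ := fun t => dN (γ' t) with hP'
  have hPd : HasDerivAt P (Qc (ρ • k)) 0 := hQc.comp_hasDerivAt_of_eq 0 hγd hγ0.symm
  have hP'c : ContinuousAt P' 0 := by
    refine ContinuousAt.comp (g := fun z : Y => dN z) (f := γ') ?_ hγ'd.continuousAt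
    rw [hγ'0]
    exact hY.continuousAt_dN le_rfl hc'
  set a : ℝ → ℝ := fun t => dN (y + t • k) k with ha
  have had : HasDerivAt a (Q k k) 0 := by
    simpa using (hj.hasDerivAt_dN_line k).clm_apply (hasDerivAt_const (0 : ℝ) k)
  have ha0 : a 0 = 0 := by simp [ha, ← hαdef, hk]
  have hV : HasDerivAt (fun t : ℝ => A k - s.dG (y + t • k) k) 0 0 := by
    have h : HasDerivAt (fun t : ℝ => s.dG (y + t • k) k) 0 0 := by
      simpa using (hj.hasDerivAt_dG_line k).clm_apply (hasDerivAt_const (0 : ℝ) k)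
    simpa using h.const_sub (A k)
  have hV0 : A k - s.dG (y + (0 : ℝ) • k) k = 0 := by simp [hj.dG_eq]
  set L := ρ * Qc k k + (p' (s.G x) - p x) * (Q k k / ρ) with hL
  have hmain : HasDerivAt (fun t => P' t (A k) - p' (A k)) L 0 := by
    have h1 : HasDerivAt (fun t => P t (ρ • k - a t • x))
        (Qc (ρ • k) (ρ • k) + p (-(Q k k • x))) 0 := by
      have := hPd.clm_apply ((had.smul_const x).const_sub (ρ • k))
      simp only [ha0, zero_smul, sub_zero] at this
      rwa [show P 0 = p by simp [hP, hγ0, hp]] at this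
    have h2 := hasDerivAt_vanish_mul had ha0
      (((ContinuousLinearMap.apply ℝ ℝ (s.G x)).continuous.continuousAt).comp hP'c)
    have h3 := hasDerivAt_bounded_apply (P := P') (fun t => norm_dN_le_one _) hV hV0
    have h4 := ((h1.add h2).div_const ρ).add h3
    refine ((h4.sub_const (p' (A k))).congr_of_eventuallyEq ?_).congr_deriv ?_
    · filter_upwards [hl0.eventually hj.diffG, hl0.eventually_ne hj.ne,
        hγd.continuousAt.eventually_ne (by rwa [hγ0]),
        hγ'd.continuousAt.eventually_ne (by rwa [hγ'0])] with t h1 h2 h3 h4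
      have d1 : HasFDerivAt (fun z => ρ • z - ‖z‖ • x)
          (ρ • ContinuousLinearMap.id ℝ X - (dN (y + t • k)).smulRight x) (y + t • k) :=
        ((hasFDerivAt_id _).const_smul ρ).sub ((hX.hasFDerivAt le_rfl h2).smul_const x)
      have d2 : HasFDerivAt (fun z => ρ • s.G z - ‖z‖ • s.G x)
          (ρ • s.dG (y + t • k) - (dN (y + t • k)).smulRight (s.G x)) (y + t • k) :=
        (h1.hasFDerivAt.const_smul ρ).sub ((hX.hasFDerivAt le_rfl h2).smul_const (s.G x))
      have n1 := (hX.hasFDerivAt le_rfl (x := γ t) h3).comp (y + t • k) d1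
      have n2 := (hY.hasFDerivAt le_rfl (x := γ' t) h4).comp (y + t • k) d2
      have hfun : ((fun w : Y => ‖w‖) ∘ fun z => ρ • s.G z - ‖z‖ • s.G x) =
          (fun w : X => ‖w‖) ∘ fun z => ρ • z - ‖z‖ • x := funext fun z => s.key2 z x
      rw [hfun] at n2
      have e := DFunLike.congr_fun (n2.unique n1) k
      simp only [ContinuousLinearMap.coe_comp, Function.comp_apply, sub_apply, smul_apply,
        ContinuousLinearMap.id_apply, ContinuousLinearMap.smulRight_apply, map_sub, map_smul,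
        smul_eq_mul] at e
      simp only [Pi.add_apply, Function.comp_apply, hP, hP', ha, map_sub, map_smul, smul_eq_mul,
        ContinuousLinearMap.apply_apply]
      field_simp
      linear_combination e
    · simp only [Function.comp_apply, ContinuousLinearMap.apply_apply, hP', hγ'0, ← hp', map_neg,
        map_smul, smul_apply, smul_eq_mul, hL]
      field_simp
      ring
  -- monotonicity
  set f : ℝ → ℝ := fun t => P' t (A k) - p' (A k) with hf
  set W : ℝ → Y := fun t => t⁻¹ • (γ' t - c') with hW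
  have hWt : Tendsto W (𝓝[≠] 0) (𝓝 (ρ • A k)) := by
    simpa [hW, hγ'0] using hγ'd.tendsto_slope_zero
  obtain ⟨-, M, hM, hev⟩ := hpl
  have hγ't : Tendsto γ' (𝓝 0) (𝓝 c') := hγ'0 ▸ hγ'd.continuousAt.tendsto
  have hS : Tendsto (fun t => (t⁻¹ • (P' t - p')) (W t - ρ • A k)) (𝓝[≠] 0) (𝓝 0) := by
    refine squeeze_zero_norm' (a := fun t => M * ‖W t‖ * ‖W t - ρ • A k‖) ?_ ?_
    · filter_upwards [(hγ't.eventually hev).filter_mono nhdsWithin_le_nhds,
        ((hγ't.eventually_ne hc').filter_mono nhdsWithin_le_nhds)] with t ht hne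
      refine ((t⁻¹ • (P' t - p')).le_opNorm _).trans (mul_le_mul_of_nonneg_right ?_ (norm_nonneg _))
      rw [norm_smul, hW]
      simp only [norm_smul]
      rw [← mul_assoc, mul_comm M, mul_assoc]
      refine mul_le_mul_of_nonneg_left ?_ (norm_nonneg _)
      exact ht _ (isSub_dN (hY.differentiableAt le_rfl hne))
    · have := ((hWt.norm.const_mul M)).mul ((hWt.sub_const (ρ • A k)).norm)
      simpa using this
  have hft : Tendsto (fun t => t⁻¹ * f t) (𝓝[≠] 0) (𝓝 L) := by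
    have := hmain.tendsto_slope_zero
    simpa [hf, hP', hγ'0, ← hp'] using this
  have hg : Tendsto (fun t => ρ * (t⁻¹ * f t) + (t⁻¹ • (P' t - p')) (W t - ρ • A k)) (𝓝[≠] 0)
      (𝓝 (ρ * L)) := by
    simpa using (hft.const_mul ρ).add hS
  have hnn : 0 ≤ ρ * L := by
    refine ge_of_tendsto hg ?_
    filter_upwards [(hγ't.eventually_ne hc').filter_mono nhdsWithin_le_nhds] with t hne
    have h1 := (isSub_dN (hY.differentiableAt le_rfl hc')).mono
      (isSub_dN (hY.differentiableAt le_rfl hne))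
    have e : ρ * (t⁻¹ * f t) + (t⁻¹ • (P' t - p')) (W t - ρ • A k) =
        t⁻¹ * t⁻¹ * (P' t - p') (γ' t - c') := by
      simp only [hf, hW, sub_apply, smul_apply, map_sub, map_smul, smul_eq_mul]
      ring
    rw [e]
    exact mul_nonneg (mul_self_nonneg _) h1
  rw [hL, hkk, mul_zero, zero_add] at hnn
  have h2 : 0 < Q k k / ρ := div_pos hQk hρ0
  exact nonneg_of_mul_nonneg_left (nonneg_of_mul_nonneg_right hnn hρ0) h2

/-- Surrounded by degenerate points, the gradient defect has a sign near the antipode. -/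
lemma sigma_nonneg (hj : s.Jet y A Q 0) [FiniteDimensional ℝ X] (hX : SmoothNorm X 1)
    (hY : SmoothNorm Y 1) (hnd : Nondeg y Q) (hpl : ∀ z : Y, z ≠ 0 → PLip z)
    (hdense : ∀ᶠ z in 𝓝 y, z ∈ closure {z : X | DegPt z}) :
    ∀ᶠ x in 𝓝 (-y),
      0 ≤ dN (‖x‖ • s.G y - ‖y‖ • s.G x) (s.G x) - dN (‖x‖ • y - ‖y‖ • x) x := by
  have : CompleteSpace X := FiniteDimensional.complete ℝ X
  set n := ‖y‖ with hn
  have hn0 : 0 < n := norm_pos_iff.2 hj.ne
  have hny : dN y y = n := hX.dN_self le_rfl hj.ne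
  set Ψ : X → X := fun x => ‖x‖ • y - n • x with hΨ
  have hΨc : Continuous Ψ := by fun_prop
  have hscale : Tendsto (fun x => (2 * n)⁻¹ • Ψ x) (𝓝 (-y)) (𝓝 y) :=
    (hΨc.const_smul (2 * n)⁻¹).tendsto' _ _ (by
      show (2 * n)⁻¹ • (‖-y‖ • y - n • -y) = y
      rw [norm_neg, ← hn]
      match_scalars
      field_simp
      ring)
  have e1 : ∀ᶠ x in 𝓝 (-y), dN y x < ‖x‖ :=
    ((show Continuous fun x : X => ‖x‖ - dN y x by fun_prop).tendsto' (-y) (2 * n)
      (by simp [hny, ← hn]; ring)).eventually_const_lt (by positivity) |>.mono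
      fun x hx => by linarith
  have e2 : ∀ᶠ x in 𝓝 (-y), dN x y < n :=
    (((ContinuousLinearMap.apply ℝ ℝ y).continuous.continuousAt).comp
      (hX.continuousAt_dN le_rfl (neg_ne_zero.2 hj.ne))).eventually_lt_const (by
        simp only [Function.comp_apply, ContinuousLinearMap.apply_apply, dN_neg, neg_apply, hny]
        linarith)
  have e3 : ∀ᶠ x in 𝓝 (-y), Ψ x ∈ closure {z : X | DegPt z} := by
    filter_upwards [hscale.eventually hdense] with x hx
    have h1 : (2 * n) • ((2 * n)⁻¹ • Ψ x) ∈ closure {z : X | DegPt z} :=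
      map_mem_closure (continuous_const_smul (2 * n)) hx
        fun z hz => DegPt.smul hz (show (0 : ℝ) < 2 * n by positivity)
    rwa [smul_smul, mul_inv_cancel₀ (by positivity), one_smul] at h1
  filter_upwards [(e1.and (e2.and (e3.and (eventually_ne_nhds (neg_ne_zero.2 hj.ne))))),
    eventually_eventually_nhds.2 e1] with x₀ ⟨h1, h2, h3, h4⟩ h5
  by_contra hneg
  push Not at hneg
  have hc0 : Ψ x₀ ≠ 0 := fun e => by
    have := congrArg (dN y) e
    rw [hΨ, map_zero, map_sub, map_smul, map_smul, hny, smul_eq_mul, smul_eq_mul] at this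
    nlinarith
  have hc0' : ‖x₀‖ • s.G y - n • s.G x₀ ≠ 0 := by
    rw [← norm_ne_zero_iff, hn, s.key2, norm_ne_zero_iff]
    exact hc0
  have hcont : ContinuousAt (fun x => dN (‖x‖ • s.G y - n • s.G x) (s.G x) - dN (Ψ x) x) x₀ := by
    refine (ContinuousAt.clm_apply ?_ s.continuous_G.continuousAt).sub
      (ContinuousAt.clm_apply ?_ continuousAt_id)
    · exact ContinuousAt.comp (g := fun z : Y => dN z) (f := fun x => ‖x‖ • s.G y - n • s.G x)
        (hY.continuousAt_dN le_rfl hc0')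
        ((continuous_norm.smul continuous_const).sub (s.continuous_G.const_smul n)).continuousAt
    · exact ContinuousAt.comp (g := fun z : X => dN z) (f := Ψ)
        (hX.continuousAt_dN le_rfl hc0) hΨc.continuousAt
  have hV := (hcont.eventually_lt_const hneg).and h5
  have himg : Ψ '' {x | (dN (‖x‖ • s.G y - n • s.G x) (s.G x) - dN (Ψ x) x < 0) ∧
      dN y x < ‖x‖} ∈ 𝓝 (Ψ x₀) := by
    have hmap : map Ψ (𝓝 x₀) = 𝓝 (Ψ x₀) := map_chord hX h4 h2
    rw [← hmap]
    exact image_mem_map hV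
  obtain ⟨z, ⟨x, ⟨hx1, hx2⟩, rfl⟩, hz⟩ := mem_closure_iff_nhds.1 h3 _ himg
  have hne : ‖x‖ • s.G y - n • s.G x ≠ 0 := by
    rw [← norm_ne_zero_iff, hn, s.key2, norm_ne_zero_iff]
    intro e
    have := congrArg (dN y) e
    rw [map_zero, map_sub, map_smul, map_smul, ← hn, hny, smul_eq_mul, smul_eq_mul] at this
    nlinarith
  have := hj.sigma_nonneg_of_deg hX hY hnd hx2 hz (hpl _ hne)
  exact absurd this (not_le.2 hx1)

/-- The jet of the inverse. -/
lemma symm [FiniteDimensional ℝ X] [FiniteDimensional ℝ Y] {v : X} {ρ M : ℝ}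
    (hj : s.Jet y A Q 0) (L : s.Local v ρ M) (hu : ‖y - v‖ < ρ / 4) (hX : SmoothNorm X 1)
    (hY : SmoothNorm Y 1) :
    s.symm.Jet (s.G y) A.symm (Q.bilinearComp (A.symm : Y →L[ℝ] X) (A.symm : Y →L[ℝ] X)) 0 := by
  have : CompleteSpace X := FiniteDimensional.complete ℝ X
  have : CompleteSpace Y := FiniteDimensional.complete ℝ Y
  have hmem : ∀ᶠ z in 𝓝 (s.G y), ‖s.H z - v‖ < ρ := by
    filter_upwards [hj.hH.continuousAt.tendsto.eventually_mem (isOpen_ball.mem_nhds
      (show s.H (s.G y) ∈ ball v ρ by rw [s.H_G]; exact mem_ball_iff_norm.2 (L.mem_X hu)))] with z hz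
    exact mem_ball_iff_norm.1 hz
  refine ⟨by rw [← norm_ne_zero_iff, s.norm_G, norm_ne_zero_iff]; exact hj.ne, hj.hH, ?_,
    hj.hasFDerivAt_dNY L hu hX hY, ?_, ?_⟩
  · show HasFDerivAt s.G (A : X →L[ℝ] Y) (s.H (s.G y))
    rw [s.H_G]
    exact hj.hA
  · have h1 : HasFDerivAt (fun z : Y => s.dG (s.H z))
        ((0 : X →L[ℝ] X →L[ℝ] Y).comp (A.symm : Y →L[ℝ] X)) (s.G y) :=
      (show HasFDerivAt (fun z : X => s.dG z) 0 (s.H (s.G y)) by rw [s.H_G]; exact hj.hE).comp _
        hj.hH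
    have h2 := (show HasFDerivAt (ContinuousLinearMap.inverse : (X →L[ℝ] Y) → Y →L[ℝ] X) _
      (s.dG (s.H (s.G y))) by
        rw [s.H_G, hj.dG_eq]
        exact ((contDiffAt_map_inverse (n := 1) A).differentiableAt one_ne_zero).hasFDerivAt).comp
      (s.G y) h1
    rw [ContinuousLinearMap.zero_comp, ContinuousLinearMap.comp_zero] at h2
    refine h2.congr_of_eventuallyEq ?_
    filter_upwards [hmem] with z hz
    obtain ⟨B, hB, hB'⟩ := L.exists_equiv hz
    rw [s.G_H] at hB'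
    show fderiv ℝ s.H z = (s.dG (s.H z)).inverse
    rw [hB'.fderiv, show s.dG (s.H z) = (B : X →L[ℝ] Y) from hB.fderiv,
      ContinuousLinearMap.inverse_equiv]
  · filter_upwards [hmem] with z hz
    obtain ⟨B, -, hB'⟩ := L.exists_equiv hz
    rw [s.G_H] at hB'
    exact hB'.differentiableAt

/-- Near the antipode the extension agrees with its derivative at `y`. -/
lemma linear_near_antipode [FiniteDimensional ℝ X] [FiniteDimensional ℝ Y] {v : X} {ρ M : ℝ}
    (hj : s.Jet y A Q 0) (L : s.Local v ρ M) (hu : ‖y - v‖ < ρ / 4) (hs : StrictNorm X)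
    (hX : SmoothNorm X 1) (hY : SmoothNorm Y 1) (hnd : Nondeg y Q)
    (hplX : ∀ z : X, z ≠ 0 → PLip z) (hplY : ∀ z : Y, z ≠ 0 → PLip z)
    (hdX : ∀ᶠ z in 𝓝 y, z ∈ closure {z : X | DegPt z})
    (hdY : ∀ᶠ z in 𝓝 (s.G y), z ∈ closure {z : Y | DegPt z}) :
    ∀ᶠ x in 𝓝 (-y), s.G x = A x := by
  have : CompleteSpace X := FiniteDimensional.complete ℝ X
  set n := ‖y‖ with hn
  have hn0 : 0 < n := norm_pos_iff.2 hj.ne
  have hny : dN y y = n := hX.dN_self le_rfl hj.ne
  have hsy := hj.symm L hu hX hY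
  have hnd' : Nondeg (s.G y) (Q.bilinearComp (A.symm : Y →L[ℝ] X) (A.symm : Y →L[ℝ] X)) := by
    intro k hk hk0
    refine hnd (A.symm k) ?_ (by simpa using hk0)
    rwa [← hj.dN_A hX hY, A.apply_symm_apply]
  have hGt : Tendsto s.G (𝓝 (-y)) (𝓝 (-s.G y)) := s.continuous_G.tendsto' _ _ (s.G_neg y)
  have hsig : ∀ᶠ x in 𝓝 (-y),
      dN (‖x‖ • s.G y - n • s.G x) (s.G x) - dN (‖x‖ • y - n • x) x = 0 := by
    filter_upwards [hj.sigma_nonneg hX hY hnd hplY hdX,
      hGt.eventually (hsy.sigma_nonneg hY hX hnd' hplX hdY)] with x h1 h2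
    simp only [symm_G, s.H_G, s.norm_G, ← hn] at h2
    rw [← hn] at h1
    linarith
  set Ψ : X → X := fun x => ‖x‖ • y - n • x with hΨ
  have hpp : ∀ᶠ x in 𝓝 (-y), Ψ x ≠ 0 ∧ ∀ k,
      dN (‖x‖ • s.G y - n • s.G x) (A k) = dN (Ψ x) k := by
    have hne : ∀ᶠ x in 𝓝 (-y), Ψ x ≠ 0 :=
      ((show Continuous Ψ by fun_prop).continuousAt).eventually_ne (by
        simp only [hΨ, norm_neg, ← hn, smul_neg, sub_neg_eq_add, ← two_smul ℝ, smul_smul]
        exact smul_ne_zero (by positivity) hj.ne)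
    filter_upwards [hsig, hne, eventually_ne_nhds (neg_ne_zero.2 hj.ne)] with x h hc hx
    refine ⟨hc, fun k => ?_⟩
    have h1 := hj.chord_first hX hY hc k
    simp only [map_sub, map_smul, smul_eq_mul, ← hn] at h1
    refine mul_left_cancel₀ (norm_ne_zero_iff.2 hx) ?_
    show ‖x‖ * _ = ‖x‖ * dN (‖x‖ • y - n • x) k
    linear_combination h1 + dN y k * h
  have hmap : map Ψ (𝓝 (-y)) = 𝓝 (Ψ (-y)) := by
    refine map_chord hX (neg_ne_zero.2 hj.ne) ?_
    rw [dN_neg, neg_apply, hny]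
    linarith
  have hΨy : Ψ (-y) = (2 * n) • y := by
    simp only [hΨ, norm_neg, ← hn, smul_neg, sub_neg_eq_add, ← add_smul, two_mul]
  have hle : ∀ᶠ c in 𝓝 ((2 * n) • y), ‖c‖ ≤ ‖A c‖ := by
    rw [← hΨy, ← hmap, eventually_map]
    filter_upwards [hpp] with x ⟨hc, h⟩
    rw [← hX.dN_self le_rfl hc, ← h]
    exact dN_le _ _
  have hw : Tendsto (fun x => A.symm (‖x‖ • s.G y - n • s.G x)) (𝓝 (-y)) (𝓝 ((2 * n) • y)) :=
    (A.symm.continuous.comp ((continuous_norm.smul continuous_const).sub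
      (s.continuous_G.const_smul n))).tendsto' _ _ (by
        show A.symm (‖-y‖ • s.G y - n • s.G (-y)) = _
        rw [norm_neg, s.G_neg, ← hn, smul_neg, sub_neg_eq_add, ← add_smul,
          ← two_mul, ← hj.self_eq, map_smul, A.symm_apply_apply])
  filter_upwards [hpp, hw.eventually hle] with x ⟨hc, hp⟩ hwx
  set c' := ‖x‖ • s.G y - n • s.G x with hc'
  set w := A.symm c' with hwdef
  have hAw : A w = c' := A.apply_symm_apply c'
  have hcn : ‖c'‖ = ‖Ψ x‖ := s.key2 y x
  have hc'0 : c' ≠ 0 := by rwa [← norm_ne_zero_iff, hcn, norm_ne_zero_iff]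
  have h1 : dN (Ψ x) w = ‖Ψ x‖ := by
    rw [← hp, hAw, hY.dN_self le_rfl hc'0, hcn]
  rw [hAw, hcn] at hwx
  have h2 := dN_le (Ψ x) w
  have hwc : w = Ψ x :=
    hs.eq_of_sub (isSub_dN (hX.differentiableAt le_rfl hc)) h1 (by linarith)
  rw [hwc, hc', hΨ, map_sub, map_smul, map_smul, hj.self_eq] at hAw
  exact (smul_right_injective Y hn0.ne' (sub_right_injective hAw)).symm

end Jet

end SphIso

end Vale.Agent.P084
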