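import Vale.Agent.P084.Strict.BadLinear

/-!
P084 (Tingley's problem), library for strictly convex finite-dimensional norms: when no bad point
exists the norm is `C¹` with pointwise Lipschitz gradient, hence `C^{1,1}` on an open set, and
there the extension has a Lipschitz derivative.
-/

namespace Vale.Agent.P084

open Filter Topology Metric MeasureTheory

variable {X Y : Type*} [NormedAddCommGroup X] [NormedSpace ℝ X] [NormedAddCommGroup Y]
  [NormedSpace ℝ Y]

/-- Norming by chord tests for a strictly convex `C¹` norm. -/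
lemma strict_tests_norming [FiniteDimensional ℝ X] (hs : StrictNorm X) (hX : SmoothNorm X 1)
    {v : X} (hv : ‖v‖ = 1) {R : ℝ} (hR : 0 < R) :
    ∃ σ : ℝ, 0 < σ ∧ ∃ c : ℝ, 0 < c ∧ ∀ u, ‖u - v‖ < σ → ∀ k,
      ∃ i, Idx v R i ∧ c * ‖k‖ ≤ |tst i u k| := by
  have : ProperSpace X := FiniteDimensional.proper_real X
  have hv0 : v ≠ 0 := fun h => by simp [h] at hv
  have hvv : dN v v = 1 := (hX.dN_self le_rfl hv0).trans hv
  have hone : ∀ k ∈ sphere (0 : X) 1, ∃ i, Idx v R i ∧ tst i v k ≠ 0 ∧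
      ContinuousAt (fun u => tst i u) v := by
    intro k hk
    rw [mem_sphere_zero_iff_norm] at hk
    by_cases hd : dN v k = 0
    swap
    · exact ⟨none, trivial, hd, hX.continuousAt_dN le_rfl hv0⟩
    set t := min (R / 4) (1 / 4) with ht
    have ht0 : 0 < t := by positivity
    have ht4 : t ≤ 1 / 4 := min_le_right _ _
    set n := ‖v + t • k‖ with hn
    have htk : ‖t • k‖ = t := by rw [norm_smul, hk, mul_one, Real.norm_of_nonneg ht0.le]
    have hnb : |n - 1| ≤ t := by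
      have := abs_norm_sub_norm_le (v + t • k) v
      rwa [add_sub_cancel_left, htk, hv] at this
    have hn0 : 0 < n := by linarith [(abs_le.1 hnb).1]
    set x := -(n⁻¹ • (v + t • k)) with hx
    have hxn : ‖x‖ = 1 := by
      rw [hx, norm_neg, norm_smul, norm_inv, Real.norm_of_nonneg hn0.le, ← hn,
        inv_mul_cancel₀ hn0.ne']
    have hxv : ‖x + v‖ < R := by
      have h1 : ‖x + (v + t • k)‖ = |n - 1| := by
        rw [show x + (v + t • k) = (1 - n⁻¹) • (v + t • k) by rw [hx]; module, norm_smul, ← hn,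
          Real.norm_eq_abs, ← abs_of_pos hn0, ← abs_mul, abs_of_pos hn0]
        congr 1
        field_simp
      have h2 := norm_sub_le (x + (v + t • k)) (t • k)
      rw [show x + (v + t • k) - t • k = x + v by abel, h1, htk] at h2
      linarith [min_le_left (R / 4) (1 / 4)]
    set τ := t / (n + 1) with hτ
    have hτ0 : 0 < τ := by positivity
    have hchord : v - ‖v‖ • x = ((n + 1) / n) • (v + τ • k) := by
      rw [hv, hx, hτ]
      match_scalars <;> (field_simp; try ring)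
    have hcne : v + τ • k ≠ 0 := fun e => by
      have := congrArg (dN v) e
      simp [hvv, hd] at this
    have hne : v - ‖v‖ • x ≠ 0 := by
      rw [hchord]; exact smul_ne_zero (by positivity) hcne
    refine ⟨some x, ⟨hxn, hxv⟩, fun e => ?_, ?_⟩
    · rw [tst_some, hd, mul_zero, sub_zero, hchord, dN_smul_pos _ (by positivity)] at e
      have hsub := isSub_dN (hX.differentiableAt le_rfl hcne)
      have h1 : ‖v + τ • k‖ ≤ 1 := by
        have := hsub.lower v
        rw [sub_add_cancel_left, map_neg, map_smul, e, smul_zero, neg_zero, add_zero, hv] at this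
        exact this
      have h2 : 1 ≤ ‖v + τ • k‖ := by
        have := dN_le v (v + τ • k)
        rw [map_add, map_smul, hd, smul_zero, add_zero, hvv] at this
        exact this
      have h3 := hs v (v + τ • k) hv (le_antisymm h1 h2) (le_antisymm
        ((norm_add_le _ _).trans (by rw [hv]; linarith)) (by
        have := dN_le v (v + (v + τ • k))
        rw [map_add, map_add, map_smul, hd, hvv, smul_zero, add_zero] at this
        linarith))
      have hk0 : τ • k = 0 := by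
        rw [left_eq_add] at h3; exact h3
      rw [smul_eq_zero, or_iff_right hτ0.ne'] at hk0
      simp [hk0] at hk
    · have h1 : ContinuousAt (fun u => dN (u - ‖u‖ • x)) v :=
        ContinuousAt.comp (g := fun z => dN z) (f := fun u : X => u - ‖u‖ • x)
          (hX.continuousAt_dN le_rfl hne) (by fun_prop)
      exact h1.sub ((h1.clm_apply continuousAt_const).smul (hX.continuousAt_dN le_rfl hv0))
  have hev : ∀ᶠ p : ℝ × X in 𝓝 (0, v), ∀ k ∈ sphere (0 : X) 1,
      ∃ i, Idx v R i ∧ p.1 < |tst i p.2 k| := by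
    refine (isCompact_sphere 0 1).eventually_forall_of_forall_eventually fun k hk => ?_
    obtain ⟨i, hi, hne, hc⟩ := hone k hk
    have h1 : ContinuousAt (fun q : (ℝ × X) × X => |tst i q.1.2 q.2| - q.1.1) ((0, v), k) := by
      refine (ContinuousAt.clm_apply ?_ continuousAt_snd).abs.sub
        (continuous_fst.fst.continuousAt)
      exact ContinuousAt.comp (g := fun u => tst i u) (f := fun q : (ℝ × X) × X => q.1.2) hc
        continuous_fst.snd.continuousAt
    filter_upwards [h1.eventually_const_lt (show 0 < |tst i v k| - 0 by simpa using hne)] with q hq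
    exact ⟨i, hi, by linarith⟩
  rw [nhds_prod_eq] at hev
  obtain ⟨P, hP, U, hU, hPU⟩ := eventually_prod_iff.1 hev
  obtain ⟨c, hc, hc0 : 0 < c⟩ := ((hP.filter_mono nhdsWithin_le_nhds).and
    (eventually_mem_nhdsWithin (s := Set.Ioi (0 : ℝ)))).exists
  obtain ⟨σ, hσ, hUσ⟩ := Metric.eventually_nhds_iff.1 hU
  refine ⟨σ, hσ, c, hc0, fun u hu k => ?_⟩
  rcases eq_or_ne k 0 with rfl | hk
  · exact ⟨none, trivial, by simp⟩
  obtain ⟨i, hi, hlt⟩ := hPU hc (hUσ (by rwa [dist_eq_norm])) (‖k‖⁻¹ • k)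
    (mem_sphere_zero_iff_norm.2 (norm_smul_inv_norm hk))
  refine ⟨i, hi, ?_⟩
  simp only at hlt
  rw [map_smul, smul_eq_mul, abs_mul, abs_inv, abs_norm, ← div_eq_inv_mul,
    lt_div_iff₀ (norm_pos_iff.2 hk)] at hlt
  exact hlt.le

namespace SphIso

variable (s : SphIso X Y) [FiniteDimensional ℝ X] [FiniteDimensional ℝ Y] [MeasurableSpace X]
  [BorelSpace X] [MeasurableSpace Y] [BorelSpace Y]

lemma dense_reg [Nontrivial X] : Dense {u | s.Reg u} := Measure.dense_of_ae s.ae_reg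

lemma exists_lim [Nontrivial X] (y : X) : ∃ A α, s.Lim y A α := by
  choose w hw hwy using fun n : ℕ => s.dense_reg.exists_mem_open (isOpen_ball (x := y)
    (ε := 1 / ((n : ℝ) + 1))) ⟨y, mem_ball_self (by positivity)⟩
  have : ProperSpace ((X →L[ℝ] Y) × (X →L[ℝ] ℝ)) := FiniteDimensional.proper_real _
  obtain ⟨⟨A, α⟩, -, φ, hφ, hlim⟩ := (isCompact_closedBall
    (0 : (X →L[ℝ] Y) × (X →L[ℝ] ℝ)) 3).tendsto_subseq
    (x := fun n => (s.dG (w n), dN (w n))) fun n => by
      rw [mem_closedBall_zero_iff, Prod.norm_def]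
      exact max_le ((hw n).2.1.hasFDerivAt.le_of_lipschitz s.lipschitz_G)
        ((norm_dN_le_one _).trans (by norm_num))
  refine ⟨A, α, fun n => w (φ n), fun n => hw _, ?_, (continuous_fst.tendsto _).comp hlim,
    (continuous_snd.tendsto _).comp hlim⟩
  rw [tendsto_iff_norm_sub_tendsto_zero]
  refine squeeze_zero (fun n => norm_nonneg _)
    (fun n => (mem_ball_iff_norm.1 (hwy (φ n))).le) ?_
  exact tendsto_one_div_add_atTop_nhds_zero_nat.comp hφ.tendsto_atTop

/-- Without bad points the gradient is pointwise Lipschitz everywhere. -/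
lemma plip_of_not_bad [Nontrivial X] (hb : ¬s.Bad) {y : X} (hy : ‖y‖ = 1) : PLip y := by
  have key : ∀ A α, s.Lim y A α → ∃ M r : ℝ, 0 ≤ M ∧ 0 < r ∧ ∀ z, s.Reg z → ‖z - y‖ < r →
      ‖dN z - α‖ ≤ M * ‖z - y‖ := by
    intro A α hl
    by_contra hcon
    push Not at hcon
    choose z hz hzy hzb using fun n : ℕ =>
      hcon ((n : ℝ) + 1) (1 / ((n : ℝ) + 1)) (by positivity) (by positivity)
    refine hb ⟨y, A, α, z, hy, hl, hz, ?_, fun n => ?_⟩
    · rw [tendsto_iff_norm_sub_tendsto_zero]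
      exact squeeze_zero (fun n => norm_nonneg _) (fun n => (hzy n).le)
        tendsto_one_div_add_atTop_nhds_zero_nat
    · have h0 : 0 ≤ ‖s.dG (z n) - A‖ := ContinuousLinearMap.opNorm_nonneg _
      have h1 : 0 ≤ ‖z n - y‖ * ((n : ℝ) + 1) := by positivity
      have := hzb n
      constructor <;> linarith
  obtain ⟨A, α, hl⟩ := s.exists_lim y
  obtain ⟨M, r, hM, hr, h⟩ := key A α hl
  have hsub := hl.isSub
  have hup : ∀ η, ‖η‖ < r / 2 → ‖y + η‖ - ‖y‖ - α η ≤ M * ‖η‖ ^ 2 := by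
    intro η hη
    refine le_of_forall_pos_le_add fun e he => ?_
    set ζ := min (r / 4) (min 1 (e / (4 + 3 * M * (2 * ‖η‖ + 1)))) with hζ
    have hζ0 : 0 < ζ := by positivity
    obtain ⟨z, hzr, hzb⟩ := s.dense_reg.exists_mem_open (isOpen_ball (x := y + η) (ε := ζ))
      ⟨y + η, mem_ball_self hζ0⟩
    rw [mem_ball_iff_norm] at hzb
    have hz1 : ‖z - y‖ ≤ ‖η‖ + ζ := by
      rw [show z - y = (z - (y + η)) + η by abel]
      exact (norm_add_le _ _).trans (by linarith)
    have hζr : ζ ≤ r / 4 := min_le_left _ _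
    have hζ1 : ζ ≤ 1 := (min_le_right _ _).trans (min_le_left _ _)
    have hζe : ζ * (4 + 3 * M * (2 * ‖η‖ + 1)) ≤ e := by
      have h' : ζ ≤ e / (4 + 3 * M * (2 * ‖η‖ + 1)) := (min_le_right _ _).trans (min_le_right _ _)
      rwa [le_div_iff₀ (by positivity)] at h'
    have h1 := (isSub_dN hzr.2.2).lower y
    have h2 := ((dN z - α).le_opNorm (z - y)).trans
      (mul_le_mul_of_nonneg_right (h z hzr (by linarith)) (norm_nonneg _))
    rw [sub_apply, Real.norm_eq_abs] at h2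
    have h3 : dN z (y - z) = -dN z (z - y) := by rw [← map_neg, neg_sub]
    have h4 : α (z - y) ≤ α η + ζ := by
      rw [show z - y = (z - (y + η)) + η by abel, map_add]
      linarith [hsub.le (z - (y + η))]
    have h5 := norm_sub_norm_le (y + η) z
    rw [norm_sub_rev] at h5
    have h6 : M * ‖z - y‖ * ‖z - y‖ ≤ M * (‖η‖ + ζ) * (‖η‖ + ζ) := by gcongr
    have h7 : M * ζ * ζ ≤ M * ζ * 1 := mul_le_mul_of_nonneg_left hζ1 (by positivity)
    have h8 : 0 ≤ M * ζ * ‖η‖ := by positivity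
    have h9 : 0 ≤ M * ζ := by positivity
    linarith [(abs_le.1 h2).2]
  have hd : HasFDerivAt (fun z : X => ‖z‖) α y := by
    rw [hasFDerivAt_iff_isLittleO_nhds_zero]
    refine (Asymptotics.IsBigO.of_bound M ?_).trans_isLittleO
      (Asymptotics.isLittleO_norm_pow_id (E' := X) one_lt_two)
    filter_upwards [ball_mem_nhds (0 : X) (half_pos hr)] with η hη
    rw [mem_ball_zero_iff] at hη
    rw [norm_pow, norm_norm, Real.norm_eq_abs, abs_of_nonneg]
    · exact hup η hη
    · have := hsub.lower (y + η)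
      rw [add_sub_cancel_left] at this
      linarith
  refine ⟨hd.differentiableAt, 10 * M, by positivity, ?_⟩
  rw [show dN y = α from hd.fderiv]
  filter_upwards [ball_mem_nhds y (show 0 < r / 8 by positivity)] with z hz q hq
  rw [mem_ball_iff_norm] at hz
  refine ContinuousLinearMap.opNorm_le_bound _ (by positivity) fun w => ?_
  rcases eq_or_ne w 0 with rfl | hw
  · simp
  rcases eq_or_ne z y with rfl | hzy
  · rw [hq.eq_dN hd.differentiableAt, show dN z = α from hd.fderiv]; simp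
  have key2 : ∀ w : X, ‖w‖ = 1 → (q - α) w ≤ 10 * M * ‖z - y‖ := by
    intro w hw
    set t := ‖z - y‖ with ht
    have ht0 : 0 < t := norm_pos_iff.2 (sub_ne_zero.2 hzy)
    have htw : ‖t • w‖ = t := by rw [norm_smul, hw, mul_one, Real.norm_of_nonneg ht0.le]
    have e : z + t • w = y + ((z - y) + t • w) := by abel
    have hn : ‖(z - y) + t • w‖ ≤ 2 * t := (norm_add_le _ _).trans (by rw [htw, ← ht]; linarith)
    have h1 := hq.lower (z + t • w)
    rw [add_sub_cancel_left, e] at h1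
    have h2 := hup ((z - y) + t • w) (by linarith)
    have h3 := hsub.lower z
    rw [map_add, map_smul, smul_eq_mul] at h2
    rw [map_smul, smul_eq_mul] at h1
    have h4 : M * ‖(z - y) + t • w‖ ^ 2 ≤ M * (2 * t) ^ 2 := by gcongr
    rw [sub_apply]
    have h5 : 0 ≤ M * t * t := by positivity
    refine le_of_mul_le_mul_left ?_ ht0
    linarith
  have h1 := key2 (‖w‖⁻¹ • w) (norm_smul_inv_norm hw)
  have h2 := key2 (-(‖w‖⁻¹ • w)) (by rw [norm_neg]; exact norm_smul_inv_norm hw)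
  rw [map_smul, smul_eq_mul, ← div_eq_inv_mul, div_le_iff₀ (norm_pos_iff.2 hw)] at h1
  rw [map_neg, map_smul, smul_eq_mul, ← div_eq_inv_mul, neg_le, le_div_iff₀ (norm_pos_iff.2 hw)] at h2
  rw [Real.norm_eq_abs, abs_le]
  constructor <;> linarith

lemma plip_all [Nontrivial X] (hb : ¬s.Bad) {z : X} (hz : z ≠ 0) : PLip z := by
  have h := (s.plip_of_not_bad hb (y := ‖z‖⁻¹ • z) (norm_smul_inv_norm hz)).smul
    (norm_pos_iff.2 hz)
  rwa [smul_smul, mul_inv_cancel₀ (norm_ne_zero_iff.2 hz), one_smul] at h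

end SphIso

/-- Pointwise Lipschitz gradients make the norm `C¹`. -/
lemma smoothNorm_one_of_plip (h : ∀ z : X, z ≠ 0 → PLip z) : SmoothNorm X 1 := by
  intro x hx
  rw [Nat.cast_one, contDiffAt_one_iff]
  refine ⟨fun z => dN z, {(0 : X)}ᶜ, isOpen_compl_singleton.mem_nhds hx, ?_,
    fun z hz => (h z hz).1.hasFDerivAt⟩
  intro z hz
  obtain ⟨hd, M, hM, hev⟩ := h z hz
  refine ContinuousAt.continuousWithinAt ?_
  rw [ContinuousAt, tendsto_iff_norm_sub_tendsto_zero]
  refine squeeze_zero' (Eventually.of_forall fun _ => ContinuousLinearMap.opNorm_nonneg _) ?_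
    (show Tendsto (fun z' => M * ‖z' - z‖) (𝓝 z) (𝓝 0) from
      (show Continuous fun z' : X => M * ‖z' - z‖ by fun_prop).tendsto' z 0 (by simp))
  filter_upwards [hev, isOpen_compl_singleton.mem_nhds hz] with z' h1 h2
  exact h1 _ (isSub_dN (h z' h2).1)

/-- Baire: the gradient is Lipschitz on some ball around a unit vector. -/
lemma exists_quadNear [FiniteDimensional ℝ X] [Nontrivial X] (h : ∀ z : X, z ≠ 0 → PLip z) :
    ∃ v : X, ‖v‖ = 1 ∧ QuadNear v := by
  have hC1 := smoothNorm_one_of_plip h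
  obtain ⟨v₀, hv₀⟩ : ∃ v : X, ‖v‖ = 1 := by
    obtain ⟨w, hw⟩ := exists_ne (0 : X)
    exact ⟨(‖w‖⁻¹ : ℝ) • w, norm_smul_inv_norm hw⟩
  have : CompleteSpace X := FiniteDimensional.complete ℝ X
  set B : Set X := closedBall v₀ (1 / 2) with hB
  have : CompleteSpace B := (isClosed_closedBall (x := v₀) (ε := 1 / 2)).completeSpace_coe
  have : Nonempty B := ⟨⟨v₀, mem_closedBall_self (by norm_num)⟩⟩
  have hne : ∀ y : B, ∀ z : X, ‖z - y‖ ≤ 1 / 4 → z ≠ 0 := fun y z hz e => by
    have h1 := mem_closedBall_iff_norm.1 y.2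
    rw [e, zero_sub, norm_neg] at hz
    have := norm_sub_norm_le v₀ (y : X)
    rw [norm_sub_rev, hv₀] at this
    linarith
  set F : ℕ → Set B := fun m => {y | ∀ z : X, ‖z - y‖ ≤ 1 / ((m : ℝ) + 4) →
    ‖dN z - dN (y : X)‖ ≤ ((m : ℝ) + 1) * ‖z - y‖} with hF
  have h4 : ∀ m : ℕ, (1 : ℝ) / ((m : ℝ) + 4) ≤ 1 / 4 := fun m =>
    one_div_le_one_div_of_le (by norm_num) (by linarith [(m.cast_nonneg : (0 : ℝ) ≤ m)])
  have hFc : ∀ m, IsClosed (F m) := fun m => by
    refine IsSeqClosed.isClosed fun y y₀ hy hlim z hz => ?_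
    have hl : Tendsto (fun n => (y n : X)) atTop (𝓝 (y₀ : X)) :=
      (continuous_subtype_val.tendsto _).comp hlim
    have hz' : Tendsto (fun n => z - (y₀ : X) + y n) atTop (𝓝 z) := by
      simpa using hl.const_add (z - (y₀ : X))
    have hy0 : (y₀ : X) ≠ 0 := hne y₀ _ (by simp)
    have hd : ∀ n, ‖dN (z - (y₀ : X) + y n) - dN (y n : X)‖ ≤ ((m : ℝ) + 1) * ‖z - y₀‖ := fun n => by
      have := hy n (z - (y₀ : X) + y n) (by rw [add_sub_cancel_right]; exact hz)
      rwa [add_sub_cancel_right] at this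
    exact le_of_tendsto' ((((hC1.continuousAt_dN le_rfl (hne y₀ z (hz.trans (h4 m)))).tendsto.comp
      hz').sub ((hC1.continuousAt_dN le_rfl hy0).tendsto.comp hl)).norm) hd
  have hFu : (⋃ m, F m) = Set.univ := by
    refine Set.eq_univ_of_forall fun y => ?_
    obtain ⟨-, M, hM, hev⟩ := h (y : X) (hne y _ (by simp))
    obtain ⟨r, hr, hball⟩ := Metric.eventually_nhds_iff.1 hev
    obtain ⟨m, hm⟩ := exists_nat_gt (max M (1 / r))
    refine Set.mem_iUnion.2 ⟨m, fun z hz => ?_⟩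
    have hz' : ‖z - y‖ < r := by
      refine hz.trans_lt ?_
      rw [div_lt_iff₀ (by positivity)]
      have := (le_max_right M (1 / r)).trans_lt hm
      rw [div_lt_iff₀ hr] at this
      nlinarith
    refine (hball (by rwa [dist_eq_norm]) _
      (isSub_dN (h z (hne y z (hz.trans (h4 m)))).1)).trans ?_
    gcongr
    linarith [le_max_left M (1 / r)]
  obtain ⟨m, hm⟩ := nonempty_interior_of_iUnion_of_closed hFc hFu
  obtain ⟨y₀, hy₀⟩ := hm
  obtain ⟨r, hr, hball⟩ := Metric.isOpen_iff.1 isOpen_interior y₀ hy₀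
  -- a point of the open ball inside
  obtain ⟨w, hw1, hw2⟩ : ∃ w : X, ‖w - v₀‖ < 1 / 2 ∧ ‖w - y₀‖ < r := by
    set t := min (1 / 2) (r / 2) with ht
    have ht0 : 0 < t := by positivity
    have hy := mem_closedBall_iff_norm.1 y₀.2
    refine ⟨(y₀ : X) + t • (v₀ - y₀), ?_, ?_⟩
    · rw [show (y₀ : X) + t • (v₀ - y₀) - v₀ = (1 - t) • ((y₀ : X) - v₀) by module, norm_smul,
        Real.norm_of_nonneg (by linarith [min_le_left (1 / 2) (r / 2)])]
      calc (1 - t) * ‖(y₀ : X) - v₀‖ ≤ (1 - t) * (1 / 2) :=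
            mul_le_mul_of_nonneg_left hy (by linarith [min_le_left (1 / 2) (r / 2)])
        _ < 1 / 2 := by linarith
    · rw [add_sub_cancel_left, norm_smul, Real.norm_of_nonneg ht0.le, norm_sub_rev]
      calc t * ‖(y₀ : X) - v₀‖ ≤ r / 2 * (1 / 2) :=
            mul_le_mul (min_le_right _ _) hy (norm_nonneg _) (by linarith)
        _ < r := by linarith
  set ρ := min (min (1 / 2 - ‖w - v₀‖) (r - ‖w - y₀‖)) (1 / (2 * ((m : ℝ) + 4))) with hρ
  have hρ0 : 0 < ρ := lt_min (lt_min (by linarith) (by linarith)) (by positivity)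
  have hlip : ∀ a b : X, ‖a - w‖ < ρ → ‖b - w‖ < ρ →
      ‖dN b - dN a‖ ≤ ((m : ℝ) + 1) * ‖b - a‖ := by
    intro a b ha hb
    have haB : a ∈ B := mem_closedBall_iff_norm.2 (by
      linarith [norm_sub_le_norm_sub_add_norm_sub a w v₀,
        (min_le_left _ _ : ρ ≤ _).trans (min_le_left (1 / 2 - ‖w - v₀‖) (r - ‖w - y₀‖))])
    have hab : (⟨a, haB⟩ : B) ∈ ball y₀ r := by
      rw [mem_ball, Subtype.dist_eq, dist_eq_norm]
      linarith [norm_sub_le_norm_sub_add_norm_sub a w (y₀ : X),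
        (min_le_left _ _ : ρ ≤ _).trans (min_le_right (1 / 2 - ‖w - v₀‖) (r - ‖w - y₀‖))]
    refine interior_subset (hball hab) b ?_
    have h1 : ρ ≤ 1 / (2 * ((m : ℝ) + 4)) := min_le_right _ _
    have h2 : (1 : ℝ) / ((m : ℝ) + 4) = 1 / (2 * ((m : ℝ) + 4)) * 2 := by field_simp
    have h3 : ‖b - a‖ ≤ ‖b - w‖ + ‖w - a‖ := norm_sub_le_norm_sub_add_norm_sub b w a
    rw [norm_sub_rev w a] at h3
    show ‖b - a‖ ≤ _
    linarith
  have hw0 : w ≠ 0 := hne ⟨w, mem_closedBall_iff_norm.2 hw1.le⟩ w (by simp)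
  have hwn : 0 < ‖w‖ := norm_pos_iff.2 hw0
  set t := ‖w‖⁻¹ with ht
  have ht0 : 0 < t := inv_pos.2 hwn
  have htw : ‖t • w‖ = 1 := norm_smul_inv_norm hw0
  refine ⟨t • w, htw, min (t * ρ / 2) (1 / 2), by positivity,
    (min_le_right _ _).trans (by norm_num), ((m : ℝ) + 1) / t, by positivity, fun z hz => ?_⟩
  have hz0 : z ≠ 0 := fun e => by
    rw [e, zero_sub, norm_neg, htw] at hz
    linarith [min_le_right (t * ρ / 2) (1 / 2)]
  have hscale : ∀ z, ‖z - t • w‖ < t * ρ → ‖t⁻¹ • z - w‖ < ρ := fun z hz => by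
    rw [show t⁻¹ • z - w = t⁻¹ • (z - t • w) by
      rw [smul_sub, smul_smul, inv_mul_cancel₀ ht0.ne', one_smul],
      norm_smul, norm_inv, Real.norm_of_nonneg ht0.le, inv_mul_lt_iff₀ ht0]
    exact hz
  refine ⟨hC1.differentiableAt le_rfl hz0, fun η hη => ?_⟩
  rcases eq_or_ne (z + η) 0 with he | he
  · exfalso
    have h1 : z = -η := eq_neg_of_add_eq_zero_left he
    rw [h1] at hz
    have h2 := norm_sub_norm_le (t • w) (-η)
    rw [htw, norm_neg, norm_sub_rev] at h2
    linarith [min_le_right (t * ρ / 2) (1 / 2)]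
  have h1 := (isSub_dN (hC1.differentiableAt le_rfl he)).lower z
  rw [sub_add_cancel_left, map_neg] at h1
  have hρ' : 2 * min (t * ρ / 2) (1 / 2) ≤ t * ρ := by
    linarith [min_le_left (t * ρ / 2) (1 / 2)]
  have h2 := hlip _ _ (hscale z (by linarith [norm_nonneg η]))
    (hscale (z + η) (by
      rw [show z + η - t • w = (z - t • w) + η by abel]
      linarith [norm_add_le (z - t • w) η]))
  rw [dN_smul_pos _ (inv_pos.2 ht0), dN_smul_pos _ (inv_pos.2 ht0), ← smul_sub,
    add_sub_cancel_left, norm_smul, norm_inv, Real.norm_of_nonneg ht0.le] at h2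
  have h3 := ((dN (z + η) - dN z).le_opNorm η).trans
    (mul_le_mul_of_nonneg_right h2 (norm_nonneg _))
  rw [sub_apply, Real.norm_eq_abs] at h3
  calc ‖z + η‖ - ‖z‖ - dN z η ≤ dN (z + η) η - dN z η := by linarith
    _ ≤ ((m : ℝ) + 1) * (t⁻¹ * ‖η‖) * ‖η‖ := (le_abs_self _).trans h3
    _ = ((m : ℝ) + 1) / t * ‖η‖ ^ 2 := by ring

namespace SphIso

variable (s : SphIso X Y) [FiniteDimensional ℝ X] [FiniteDimensional ℝ Y]

/-- The local data on a ball where the norms are `C^{1,1}`. -/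
def Local (v : X) (ρ M : ℝ) : Prop :=
  ‖v‖ = 1 ∧ 0 < ρ ∧ ρ ≤ 1 / 4 ∧ 0 ≤ M ∧
    (∀ u, ‖u - v‖ < ρ → ∃ A : X ≃L[ℝ] Y, HasFDerivAt s.G (A : X →L[ℝ] Y) u ∧
      HasFDerivAt s.H (A.symm : Y →L[ℝ] X) (s.G u)) ∧
    (∀ a b, ‖a - v‖ < ρ → ‖b - v‖ < ρ →
      ‖s.dG b - s.dG a‖ ≤ M * ‖b - a‖ ∧ ‖dN b - dN a‖ ≤ M * ‖b - a‖) ∧
    ∀ p q, ‖p - s.G v‖ < ρ → ‖q - s.G v‖ < ρ → ‖dN q - dN p‖ ≤ M * ‖q - p‖

/-- Local data exist around a point where the gradient is Lipschitz. -/
lemma exists_local (hs : StrictNorm X) (hX : SmoothNorm X 1) (hY : SmoothNorm Y 1) {v : X}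
    (hv : ‖v‖ = 1) (hq : QuadNear v) : ∃ ρ M, s.Local v ρ M := by
  have : CompleteSpace X := FiniteDimensional.complete ℝ X
  have : CompleteSpace Y := FiniteDimensional.complete ℝ Y
  have hq' := s.quadNear_G hv hq
  have hGv : ‖s.G v‖ = 1 := by rw [s.norm_G, hv]
  obtain ⟨R₁, hR₁, -, C₁, hC₁, h₁⟩ := tests_quad hv hq
  obtain ⟨R₂, hR₂, -, C₂, hC₂, h₂⟩ := tests_quad hGv hq'
  set R := min R₁ (R₂ / 4) with hR
  have hR0 : 0 < R := by positivity
  obtain ⟨σ₃, hσ₃, c₃, hc₃, hn₃⟩ := strict_tests_norming hs hX hv hR0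
  obtain ⟨σ₄, hσ₄, c₄, hc₄, hn₄⟩ := strict_tests_norming (s.strictNorm hs) hY hGv
    (show 0 < R / 4 by positivity)
  have hmap : ∀ i, Idx v R i → Idx (s.G v) R₂ (i.map s.G) := by
    rintro (_ | x) hi
    · trivial
    · refine ⟨by rw [s.norm_G]; exact hi.1, ?_⟩
      have h1 := s.norm_G_sub_le x (-v)
      rw [s.G_neg, sub_neg_eq_add, sub_neg_eq_add] at h1
      linarith [hi.2, min_le_right R₁ (R₂ / 4)]
  have hXi : ∀ i, Idx v R i → Idx v R₁ i := by
    rintro (_ | x) hi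
    · trivial
    · exact ⟨hi.1, hi.2.trans_le (min_le_left _ _)⟩
  set σ := min (min R₁ R₂) (min σ₃ σ₄) with hσ
  have hσ0 : 0 < σ := by positivity
  have hσa : σ ≤ R₁ := (min_le_left _ _).trans (min_le_left _ _)
  have hσb : σ ≤ R₂ := (min_le_left _ _).trans (min_le_right _ _)
  have ht : Tests s v R σ (max C₁ C₂) (min c₃ c₄) := by
    refine ⟨fun i hi u hu => ?_, fun i hi w hw => ?_, fun u hu k => ?_, fun w hw k => ?_⟩
    · obtain ⟨hd, hh⟩ := h₁ i (hXi i hi) u (hu.trans_le hσa)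
      refine ⟨hd, fun η hη => ?_⟩
      obtain ⟨a, b⟩ := hh η (hη.trans_le hσa)
      exact ⟨a.trans (by gcongr; exact le_max_left _ _), b.trans (by gcongr; exact le_max_left _ _)⟩
    · obtain ⟨hd, hh⟩ := h₂ _ (hmap i hi) w (hw.trans_le hσb)
      refine ⟨hd, fun η hη => ?_⟩
      obtain ⟨a, b⟩ := hh η (hη.trans_le hσb)
      exact ⟨a.trans (by gcongr; exact le_max_right _ _),
        b.trans (by gcongr; exact le_max_right _ _)⟩
    · obtain ⟨i, hi, hk⟩ :=
        hn₃ u (hu.trans_le ((min_le_right _ _).trans (min_le_left _ _))) k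
      exact ⟨i, hi, le_trans (by gcongr; exact min_le_left _ _) hk⟩
    · obtain ⟨j, hj, hk⟩ :=
        hn₄ w (hw.trans_le ((min_le_right _ _).trans (min_le_right _ _))) k
      refine ⟨j.map s.H, ?_, ?_⟩
      · rcases j with _ | z
        · trivial
        · refine ⟨by rw [s.norm_H]; exact hj.1, ?_⟩
          have h1 := s.symm.norm_G_sub_le z (-s.G v)
          rw [symm_G, sub_neg_eq_add, show s.H (-s.G v) = -v by rw [← s.G_neg, s.H_G],
            sub_neg_eq_add] at h1
          have := hj.2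
          linarith
      · have e : (j.map s.H).map s.G = j := by
          rcases j with _ | z
          · rfl
          · simp [s.G_H]
        rw [e]
        exact le_trans (by gcongr; exact min_le_right _ _) hk
  obtain ⟨M, hM, hreg⟩ := s.exists_regular hσ0 (le_max_of_le_left hC₁) (lt_min hc₃ hc₄) ht
  obtain ⟨r₁, hr₁, -, K₁, hK₁, hq₁⟩ := hq
  obtain ⟨r₂, hr₂, -, K₂, hK₂, hq₂⟩ := hq'
  refine ⟨min (min (σ / 6) (1 / 4)) (min (r₁ / 4) (r₂ / 4)), M + 4 * K₁ + 4 * K₂, hv,
    by positivity, (min_le_left _ _).trans (min_le_right _ _), by positivity, fun u hu => ?_,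
    fun a b ha hb => ?_, fun p q hp hq => ?_⟩
  · obtain ⟨A, h1, h2, -, -⟩ :=
      hreg u (hu.trans_le ((min_le_left _ _).trans (min_le_left _ _)))
    exact ⟨A, h1, h2⟩
  · have hρ : min (min (σ / 6) (1 / 4)) (min (r₁ / 4) (r₂ / 4)) ≤ σ / 6 :=
      (min_le_left _ _).trans (min_le_left _ _)
    have hρ' : min (min (σ / 6) (1 / 4)) (min (r₁ / 4) (r₂ / 4)) ≤ r₁ / 4 :=
      (min_le_right _ _).trans (min_le_left _ _)
    obtain ⟨A, h1, -, -, h4⟩ := hreg a (ha.trans_le hρ)
    obtain ⟨A', h1', -, -, -⟩ := hreg b (hb.trans_le hρ)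
    have := h4 b (hb.trans_le hρ) _ h1'
    rw [← h1.fderiv, ← h1'.fderiv] at this
    have h5 := norm_dN_sub_le hK₁ hq₁ (w₁ := a) (w₂ := b) (ha.trans_le hρ') (hb.trans_le hρ')
    have hn := norm_nonneg (b - a)
    constructor
    · refine this.trans ?_
      nlinarith
    · refine h5.trans ?_
      nlinarith
  · have hρ' : min (min (σ / 6) (1 / 4)) (min (r₁ / 4) (r₂ / 4)) ≤ r₂ / 4 :=
      (min_le_right _ _).trans (min_le_right _ _)
    refine (norm_dN_sub_le hK₂ hq₂ (w₁ := p) (w₂ := q) (hp.trans_le hρ') (hq.trans_le hρ')).trans ?_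
    have hn := norm_nonneg (q - p)
    nlinarith

end SphIso

end Vale.Agent.P084
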